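import Vale.Agent.P365.CUL841.Law
import Vale.Agent.P365.T2.C11_755

set_option linter.all false

/-!
# P365 / CUL841 / Inst755: the label law of T1 is an instance of `LawP`.

`mixSV p ν b` = law of (movable?, value) of a site with random label.
-/

namespace P365CUL.Inst755

open MeasureTheory ProbabilityTheory Function
open P365CU P365CUL P365T1.Lab37 P365T1.C11
open scoped ENNReal

/-! ### products of mixtures, any site space -/

section pimix

variable {ι Λ α : Type*} [Fintype ι] [DecidableEq ι] [Fintype Λ] [MeasurableSpace α]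

theorem pi_mix (p : Λ → ℝ≥0∞) (hp : ∀ l, p l ≠ ∞) (ν : Λ → Measure α)
    [∀ l, IsFiniteMeasure (ν l)] :
    Measure.pi (fun _ : ι => ∑ l, p l • ν l) =
      ∑ L : ι → Λ, (∏ x, p (L x)) • Measure.pi (fun x => ν (L x)) := by
  haveI : ∀ _ : ι, IsFiniteMeasure (∑ l, p l • ν l) := by
    intro x
    refine ⟨?_⟩
    rw [Measure.finset_sum_apply]
    refine ENNReal.sum_lt_top.2 fun l _ => ?_
    rw [Measure.smul_apply, smul_eq_mul]
    exact ENNReal.mul_lt_top (hp l).lt_top (measure_lt_top _ _)
  refine Measure.pi_eq fun s hs => ?_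
  rw [Measure.finset_sum_apply]
  simp only [Measure.smul_apply, Measure.pi_pi, smul_eq_mul, Measure.finset_sum_apply]
  rw [Finset.prod_univ_sum]
  simp only [Fintype.piFinset_univ, Finset.prod_mul_distrib]

end pimix

/-! ### the one-site law -/

section gen

variable {Λ : Type*} [Fintype Λ] (p : Λ → ℝ) (ν : Λ → Measure ℝ) (b : Λ → Bool)

/-- law of (movable?, value) -/
noncomputable def mixSV : Measure SV :=
  ∑ k, ENNReal.ofReal (p k) • (ν k).map fun v => ((b k, v) : SV)

variable {p ν b}

theorem meas_mk (c : Bool) : Measurable fun v : ℝ => ((c, v) : SV) := measurable_prodMk_left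

theorem lint_mixSV {F : SV → ℝ≥0∞} (hF : Measurable F) :
    ∫⁻ a, F a ∂(mixSV p ν b) = ∑ k, ENNReal.ofReal (p k) * ∫⁻ v, F (b k, v) ∂(ν k) := by
  unfold mixSV
  rw [lintegral_finset_sum_measure]
  refine Finset.sum_congr rfl fun k _ => ?_
  rw [lintegral_smul_measure, smul_eq_mul, lintegral_map hF (meas_mk _)]

theorem prob_mixSV (hν : ∀ k, IsProbabilityMeasure (ν k)) (hp : ∀ k, 0 ≤ p k)
    (hs : ∑ k, p k = 1) : IsProbabilityMeasure (mixSV p ν b) := by
  refine ⟨?_⟩
  unfold mixSV
  rw [Measure.finset_sum_apply]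
  have h1 : ∀ k, (ENNReal.ofReal (p k) • (ν k).map fun v => ((b k, v) : SV)) Set.univ =
      ENNReal.ofReal (p k) := by
    intro k
    rw [Measure.smul_apply, Measure.map_apply (meas_mk _) MeasurableSet.univ, Set.preimage_univ,
      measure_univ, smul_eq_mul, mul_one]
  simp only [h1]
  rw [← ENNReal.ofReal_sum_of_nonneg fun k _ => hp k, hs, ENNReal.ofReal_one]

/-- **labels**: integrals over the product law -/
theorem lint_pi_mixSV {ι : Type*} [Fintype ι] [DecidableEq ι]
    (hν : ∀ k, IsProbabilityMeasure (ν k)) (hp : ∀ k, 0 ≤ p k) {F : (ι → SV) → ℝ≥0∞}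
    (hF : Measurable F) :
    ∫⁻ ω, F ω ∂(Measure.pi fun _ : ι => mixSV p ν b) =
      ∑ l : ι → Λ, ENNReal.ofReal (∏ x, p (l x)) *
        ∫⁻ v, F (fun x => (b (l x), v x)) ∂(Measure.pi fun x => ν (l x)) := by
  haveI : ∀ k, IsFiniteMeasure ((ν k).map fun v => ((b k, v) : SV)) := fun k => inferInstance
  unfold mixSV
  rw [pi_mix (fun k => ENNReal.ofReal (p k)) (fun k => ENNReal.ofReal_ne_top),
    lintegral_finset_sum_measure]
  refine Finset.sum_congr rfl fun l _ => ?_
  rw [lintegral_smul_measure, smul_eq_mul, ENNReal.ofReal_prod_of_nonneg fun x _ => hp _]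
  congr 1
  have h1 : Measure.pi (fun x => (ν (l x)).map fun v => ((b (l x), v) : SV)) =
      (Measure.pi fun x => ν (l x)).map fun v x => ((b (l x), v x) : SV) :=
    (Measure.pi_map_pi (fun x => (meas_mk (b (l x))).aemeasurable)).symm
  rw [h1, lintegral_map hF]
  exact measurable_pi_iff.2 fun x => (meas_mk _).comp (measurable_pi_apply x)

end gen

/-! ### the uniform law -/

theorem nuL_eq_scl (lam : ℝ) : P365L.TL.nuL lam = scl lam uni := by
  unfold P365L.TL.nuL scl
  congr 1
  unfold uni
  rw [ProbabilityTheory.cond, Real.volume_Icc, ENNReal.ofReal_div_of_pos (by norm_num)]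
  congr 1
  norm_num

/-! ### the instance -/

section labels

variable {Mk Wn : Type} [Fintype Mk] [Fintype Wn] {lam τ : ℝ} {q : Mk ⊕ Wn → ℝ} {c w : Wn → ℝ}

open Classical in
/-- movable? -/
noncomputable def bm {Mk Wn : Type} (k : LabT Mk Wn) : Bool := decide (movL k)

theorem bm_eq_true {k : LabT Mk Wn} : bm k = true ↔ movL k := by
  unfold bm
  exact @decide_eq_true_iff _ (Classical.propDecidable _)

/-- law of (movable?, value) for the T1 labels -/
noncomputable def muSV {Mk Wn : Type} [Fintype Mk] [Fintype Wn] (lam τ : ℝ) (q : Mk ⊕ Wn → ℝ)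
    (c w : Wn → ℝ) : Measure SV :=
  mixSV (pL τ q) (nuT lam τ q c w) bm

theorem prob_muSV (h : Adm lam τ q c w) : IsProbabilityMeasure (muSV lam τ q c w) :=
  prob_mixSV h.prob (fun k => (h.pL_pos k).le) h.pL_sum

theorem marg_muSV (h : Adm lam τ q c w) : (muSV lam τ q c w).map Prod.snd = scl lam uni := by
  rw [← nuL_eq_scl]
  refine Measure.ext_of_lintegral _ fun g hg => ?_
  have hm : Measurable fun a : SV => g a.2 := hg.comp measurable_snd
  rw [lintegral_map hg measurable_snd, muSV]
  exact (lint_mixSV hm).trans (mix_zero h hg)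

theorem rest_muSV (h : Adm lam τ q c w) :
    muSV lam τ q c w {a | a.1 = false} ≤ ENNReal.ofReal (1 / 8192) := by
  have hms : MeasurableSet {a : SV | a.1 = false} :=
    measurable_fst (measurableSet_singleton false)
  rw [muSV, mixSV, Measure.finset_sum_apply]
  have h1 : ∀ k : LabT Mk Wn,
      (ENNReal.ofReal (pL τ q k) • (nuT lam τ q c w k).map fun v => ((bm k, v) : SV))
        {a : SV | a.1 = false} = ENNReal.ofReal (if bm k = false then pL τ q k else 0) := by
    intro k
    haveI := h.prob k
    rw [Measure.smul_apply, Measure.map_apply (meas_mk _) hms, smul_eq_mul]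
    by_cases hk : bm k = false
    · have e : (fun v : ℝ => ((bm k, v) : SV)) ⁻¹' {a : SV | a.1 = false} = Set.univ := by
        ext v
        simp [hk]
      rw [e, measure_univ, mul_one, if_pos hk]
    · have e : (fun v : ℝ => ((bm k, v) : SV)) ⁻¹' {a : SV | a.1 = false} = ∅ := by
        ext v
        simp [hk]
      rw [e, measure_empty, mul_zero, if_neg hk, ENNReal.ofReal_zero]
  simp only [h1]
  rw [← ENNReal.ofReal_sum_of_nonneg fun k _ => by
    split_ifs
    · exact (h.pL_pos k).le
    · exact le_rfl]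
  refine ENNReal.ofReal_le_ofReal ?_
  have e0 : bm (none : LabT Mk Wn) = true := bm_eq_true.2 trivial
  have e1 : bm (some none : LabT Mk Wn) = false := by
    rw [← Bool.not_eq_true, bm_eq_true]
    exact id
  have e2 : ∀ i : Mk, bm (some (some (Sum.inl i)) : LabT Mk Wn) = true := fun i =>
    bm_eq_true.2 trivial
  have e3 : ∀ a : Wn, bm (some (some (Sum.inr a)) : LabT Mk Wn) = false := fun a => by
    rw [← Bool.not_eq_true, bm_eq_true]
    exact id
  rw [Fintype.sum_option, Fintype.sum_option, Fintype.sum_sum_type]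
  simp only [e0, e1, e2, e3, if_true, Bool.true_eq_false, if_false, Finset.sum_const_zero,
    zero_add]
  have h2 := not_mov_le h
  have h3 := h.hτ'
  linarith

/-- **the T1 label law satisfies the hypotheses of the label composition** -/
theorem lawP (h : Adm lam τ q c w) {w0 : ℝ} (hw0 : 0 < w0) :
    LawP lam w0 (Ct lam τ) (muSV lam τ q c w) (rt lam τ) where
  marg := marg_muSV h
  rest := rest_muSV h
  w_pos := hw0
  C_nonneg := Ct_nonneg h.hlam h.hτ (by linarith [h.hτ'])
  meas := fun t => measurable_rt lam τ t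
  nonneg := fun t _ v => rt_nonneg h.hlam h.hτ (by linarith [h.hτ']) t v
  change := by
    intro t _ g hg
    have hm1 : Measurable fun a : SV => ENNReal.ofReal (rt lam τ t a.2) * g a.2 :=
      (((measurable_rt lam τ t).comp measurable_snd).ennreal_ofReal).mul (hg.comp measurable_snd)
    have hm2 : Measurable fun a : SV => g (P365CUL.sh t a).2 :=
      hg.comp (measurable_snd.comp (measurable_sh t))
    have hm3 : Measurable fun v : ℝ => ENNReal.ofReal (rt lam τ t v) * g v :=
      (measurable_rt lam τ t).ennreal_ofReal.mul hg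
    rw [muSV, lint_mixSV hm1, lint_mixSV hm2]
    have h1 := mix_zero h hm3
    simp only at h1 ⊢
    rw [h1]
    refine (mix_shift_ge t h hg).trans (le_of_eq ?_)
    refine Finset.sum_congr rfl fun k _ => ?_
    congr 1
    refine lintegral_congr fun v => ?_
    rw [sh_snd]
    unfold P365T1.C11.sh
    by_cases hk : movL k
    · rw [if_pos hk, if_pos (bm_eq_true.2 hk)]
    · rw [if_neg hk, if_neg (fun h => hk (bm_eq_true.1 h)), add_zero]
  ratio := fun t _ v _ => rt_mul h.hlam h.hτ (by linarith [h.hτ']) t v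

/-- label form of the integrals over the product law -/
theorem lint_pi_muSV (h : Adm lam τ q c w) {ι : Type*} [Fintype ι] [DecidableEq ι]
    {F : (ι → SV) → ℝ≥0∞} (hF : Measurable F) :
    ∫⁻ ω, F ω ∂(Measure.pi fun _ : ι => muSV lam τ q c w) =
      ∑ l : ι → LabT Mk Wn, ENNReal.ofReal (∏ x, pL τ q (l x)) *
        ∫⁻ v, F (fun x => (bm (l x), v x)) ∂(Measure.pi fun x => nuT lam τ q c w (l x)) :=
  lint_pi_mixSV h.prob (fun k => (h.pL_pos k).le) hF

end labels

end P365CUL.Inst755
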