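import Vale.Agent.P365.CUL841.Tor740
import Vale.Agent.P365.CUL841.Inst755

set_option linter.all false

/-!
# P365 / CUL841 / Bri77: the crossing quantity of the torus in label form

`TTor (mixSV p ν b) = TLt p ν (b · = true)`: the law of (movable?, value) against the sum over the
labels (694's `Crs`).  Instance: the label law of T1 (755's `muSV`).
-/

namespace P365CUL

open MeasureTheory ProbabilityTheory Complex Matrix Function P365S6
open P365L P365L.Comp P365X P365CU P365T1 P365T2.H694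
open P365CUL.Inst755
open scoped ENNReal Real

section gen

variable {Λ : Type*} {ι : Type*} [Fintype ι] [DecidableEq ι]

/-- the potential of (movable?, value) at energy `E + i η` -/
theorem WL_lab (b : Λ → Bool) (κ : ι → ℝ) (l : ι → Λ) (v : ι → ℝ) (E η : ℝ) :
    WL ((E : ℂ) + (η : ℂ) * I) κ (fun x => ((b (l x), v x) : SV)) =
      WV E (fun x => η + if b (l x) = true then κ x else 0) v := by
  funext x
  unfold WL WV
  push_cast
  ring

/-- the weights of (movable?, value) -/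
theorem dL_lab_sq (b : Λ → Bool) {κ : ι → ℝ} (hκ : ∀ x, 0 ≤ κ x) (l : ι → Λ) (v : ι → ℝ) {x : ι}
    (hx : κ x ≠ 0) : dL κ (fun x => ((b (l x), v x) : SV)) x ^ 2 =
      if b (l x) = true then κ x else 0 := by
  unfold dL
  rw [if_neg hx]
  by_cases h : b (l x) = true
  · simp only [h, if_true]
    exact Real.sq_sqrt (hκ x)
  · simp only [h, if_false]
    norm_num

/-- the weighted norm in label form -/
theorem MM_lab (A : Matrix ι ι ℝ) (b : Λ → Bool) {κ : ι → ℝ} (hκ : ∀ x, 0 ≤ κ x) {S B : Finset ι}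
    (hS : ∀ x ∈ S, κ x ≠ 0) (hB : ∀ x ∈ B, κ x ≠ 0) (l : ι → Λ) (v : ι → ℝ) (E η : ℝ) :
    MM A ((E : ℂ) + (η : ℂ) * I) κ S B (fun x => ((b (l x), v x) : SV)) =
      ∑ x ∈ S, ∑ y ∈ B, (if b (l x) = true then κ x else 0) *
        (if b (l y) = true then κ y else 0) *
          ‖Gr A (WV E (fun x => η + if b (l x) = true then κ x else 0) v) x y‖ ^ 2 := by
  unfold MM bl
  rw [WL_lab]
  refine Finset.sum_congr rfl fun x hx => Finset.sum_congr rfl fun y hy => ?_
  rw [← dL_lab_sq b hκ l v (hS x hx), ← dL_lab_sq b hκ l v (hB y hy), norm_mul, norm_mul,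
    Complex.norm_real, Complex.norm_real, mul_pow, mul_pow, Real.norm_eq_abs, Real.norm_eq_abs,
    sq_abs, sq_abs]
  ring

/-- the power of the weighted norm, integrated over the product law, in label form -/
theorem lint_MP_lab [Fintype Λ] (A : Matrix ι ι ℝ) {p : Λ → ℝ} {ν : Λ → Measure ℝ} {b : Λ → Bool}
    (hν : ∀ k, IsProbabilityMeasure (ν k)) (hp : ∀ k, 0 ≤ p k) {κ : ι → ℝ}
    (hκ : ∀ x, 0 ≤ κ x) {S B : Finset ι} (hS : ∀ x ∈ S, κ x ≠ 0) (hB : ∀ x ∈ B, κ x ≠ 0)
    (E η q : ℝ) :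
    ∫⁻ ω, MP A ((E : ℂ) + (η : ℂ) * I) κ q S B ω ∂(Measure.pi fun _ : ι => mixSV p ν b) =
      Crs A p ν E (fun l x => η + if b (l x) = true then κ x else 0)
        (fun l x => if b (l x) = true then κ x else 0) S B q := by
  rw [lint_pi_mixSV hν hp (measurable_MP S B)]
  unfold Crs
  refine Finset.sum_congr rfl fun l _ => ?_
  congr 1
  refine lintegral_congr fun v => ?_
  unfold MP
  rw [MM_lab A b hκ hS hB l v E η]

end gen

section tor

theorem prT_nonneg77 {N : ℕ} [NeZero N] {c : ℝ} (hc : 0 ≤ c) (m : ℕ) (y : Tor N) :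
    0 ≤ prT N c m y := by
  unfold prT
  split_ifs
  · positivity
  · positivity
  · exact le_rfl

theorem prT_ne_inn {N : ℕ} [NeZero N] {c : ℝ} (hc : 0 < c) {m : ℕ} {y : Tor N}
    (hy : y ∈ slT N (3 * m) (4 * m)) : prT N c m y ≠ 0 := by
  rw [mem_slT] at hy
  have hm : (0 : ℝ) < m := by
    have : 0 < m := by omega
    exact_mod_cast this
  unfold prT
  rw [if_pos hy]
  positivity

theorem prT_ne_out {N : ℕ} [NeZero N] {c : ℝ} (hc : 0 < c) {m : ℕ} {y : Tor N}
    (hy : y ∈ slT N (8 * m) (12 * m)) : prT N c m y ≠ 0 := by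
  rw [mem_slT] at hy
  have hm : 0 < m := by omega
  have hm' : (0 : ℝ) < (4 * m : ℕ) := by
    have : 0 < 4 * m := by omega
    exact_mod_cast this
  unfold prT
  rw [if_neg (show ¬ (3 * m ≤ nT N y ∧ nT N y < 4 * m) by omega), if_pos hy]
  positivity

/-- **the crossing quantity of the torus: law of (movable?, value) = sum over the labels** -/
theorem TTor_mix {Λ : Type*} [Fintype Λ] {p : Λ → ℝ} {ν : Λ → Measure ℝ} {b : Λ → Bool}
    (hν : ∀ k, IsProbabilityMeasure (ν k)) (hp : ∀ k, 0 ≤ p k) {mov : Λ → Prop}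
    (hb : ∀ k, b k = true ↔ mov k) (N : ℕ) [NeZero N] {c : ℝ} (hc : 0 < c) (q E η : ℝ) (m : ℕ) :
    TTor (mixSV p ν b) N c q ((E : ℂ) + (η : ℂ) * I) m = TLt p ν mov N c q E η m := by
  classical
  unfold TTor TLt
  rw [lint_MP_lab (AT N) hν hp (prT_nonneg77 hc.le m) (fun x hx => prT_ne_inn hc hx)
    (fun x hx => prT_ne_out hc hx)]
  congr 1
  · funext l x
    by_cases h : b (l x) = true
    · rw [if_pos h, if_pos ((hb _).1 h)]
    · rw [if_neg h, if_neg fun h' => h ((hb _).2 h')]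
  · funext l x
    by_cases h : b (l x) = true
    · rw [if_pos h, if_pos ((hb _).1 h)]
    · rw [if_neg h, if_neg fun h' => h ((hb _).2 h')]

/-- instance: the label law of T1 -/
theorem TTor_muSV {Mk Wn : Type} [Fintype Mk] [Fintype Wn] {lam τ : ℝ} {q : Mk ⊕ Wn → ℝ}
    {cw w : Wn → ℝ} (h : P365T1.Lab37.Adm lam τ q cw w) (N : ℕ) [NeZero N] {c : ℝ} (hc : 0 < c)
    (s E η : ℝ) (m : ℕ) :
    TTor (muSV lam τ q cw w) N c s ((E : ℂ) + (η : ℂ) * I) m =
      TLt (P365T1.Lab37.pL τ q) (P365T1.Lab37.nuT lam τ q cw w) P365T1.C11.movL N c s E η m :=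
  TTor_mix h.prob (fun k => (h.pL_pos k).le) (fun _ => bm_eq_true) N hc s E η m

end tor

end P365CUL
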