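import Mathlib

set_option linter.all false

/-!
# P365 / CUL841 / FPG660: first passage cut-off on a general graph.

`G` is a relation on a finite type (degree at most `4`), `N` a norm which changes by at most one
along `G` and whose spheres have at most `8R + 8` points; `df` is an arbitrary set of defects.
The number of edges of a path whose two ends are not defects gives a distance `dd` from the sphere
`N = R` in the strip `R ≤ N < R + m`; the cut-off is `chi = 1 - dd / T` with `T = m / 4`.
Off the event `Bad` it changes only along edges between two sites of the strip which are not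
defects, and by at most `8 / m`.
-/

namespace P365CUL

namespace FPG

variable {ι : Type*} [Fintype ι] [DecidableEq ι] {G : ι → ι → Prop} {N : ι → ℕ} {R m : ℕ}
  {df : ι → Prop}

open Classical in
/-- the geometric hypotheses -/
structure Geo (G : ι → ι → Prop) (N : ι → ℕ) : Prop where
  symm : ∀ {x y : ι}, G x y → G y x
  step : ∀ {x y : ι}, G x y → N y ≤ N x + 1 ∧ N x ≤ N y + 1
  deg : ∀ x : ι, (Finset.univ.filter fun y => G x y).card ≤ 4
  shell : ∀ R : ℕ, (Finset.univ.filter fun x : ι => N x = R).card ≤ 8 * R + 8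

/-- the strip -/
def st (N : ι → ℕ) (R m : ℕ) (x : ι) : Prop := R ≤ N x ∧ N x < R + m

open Classical in
/-- weight of an edge -/
noncomputable def wt (df : ι → Prop) (x y : ι) : ℕ := if df x ∨ df y then 0 else 1

omit [Fintype ι] [DecidableEq ι] in
theorem wt_le (x y : ι) : wt df x y ≤ 1 := by
  unfold wt
  split_ifs <;> norm_num

omit [Fintype ι] [DecidableEq ι] in
theorem wt_comm (x y : ι) : wt df x y = wt df y x := by
  unfold wt
  by_cases h1 : df x <;> by_cases h2 : df y <;> simp [h1, h2]

/-- self-avoiding path (read from its end) in the strip, from the inner sphere, with its weight -/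
inductive Pth (G : ι → ι → Prop) (N : ι → ℕ) (R m : ℕ) (df : ι → Prop) : List ι → ℕ → Prop
  | base (x : ι) (hm : 0 < m) (hx : N x = R) : Pth G N R m df [x] 0
  | cons (x y : ι) (l : List ι) (j : ℕ) (h : Pth G N R m df (x :: l) j) (ha : G x y)
      (hy : st N R m y) (hn : y ∉ x :: l) : Pth G N R m df (y :: x :: l) (j + wt df x y)

omit [Fintype ι] in
theorem Pth.suf {l : List ι} {j : ℕ} (h : Pth G N R m df l j) {y : ι} (hy : y ∈ l) :
    ∃ l' j', Pth G N R m df (y :: l') j' ∧ j' ≤ j := by
  induction h with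
  | base x hm hx =>
    rw [List.mem_singleton] at hy
    subst hy
    exact ⟨[], 0, Pth.base _ hm hx, le_rfl⟩
  | cons x z l j h ha hz hn ih =>
    rw [List.mem_cons] at hy
    rcases hy with rfl | hy
    · exact ⟨x :: l, _, Pth.cons x y l j h ha hz hn, le_rfl⟩
    · obtain ⟨l', j', h1, h2⟩ := ih hy
      exact ⟨l', j', h1, by omega⟩

omit [Fintype ι] in
theorem Pth.ext' {x : ι} {l : List ι} {j : ℕ} (h : Pth G N R m df (x :: l) j) {y : ι}
    (ha : G x y) (hy : st N R m y) :
    ∃ l' j', Pth G N R m df (y :: l') j' ∧ j' ≤ j + wt df x y := by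
  by_cases hn : y ∈ x :: l
  · obtain ⟨l', j', h1, h2⟩ := h.suf hn
    exact ⟨l', j', h1, by omega⟩
  · exact ⟨x :: l, _, Pth.cons x y l j h ha hy hn, le_rfl⟩

omit [Fintype ι] [DecidableEq ι] in
theorem Pth.len {l : List ι} {j : ℕ} (h : Pth G N R m df l j) {n : ℕ} (hn : n + 1 ≤ l.length) :
    ∃ x l' j', Pth G N R m df (x :: l') j' ∧ l'.length = n ∧ j' ≤ j := by
  induction h with
  | base x hm hx =>
    rw [List.length_singleton] at hn
    refine ⟨x, [], 0, Pth.base _ hm hx, ?_, le_rfl⟩
    simp only [List.length_nil]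
    omega
  | cons x z l j h ha hz hn' ih =>
    by_cases h1 : n + 1 ≤ (x :: l).length
    · obtain ⟨x', l', j', h2, h3, h4⟩ := ih h1
      exact ⟨x', l', j', h2, h3, by omega⟩
    · refine ⟨z, x :: l, _, Pth.cons x z l j h ha hz hn', ?_, le_rfl⟩
      rw [List.length_cons] at hn
      omega

omit [Fintype ι] [DecidableEq ι] in
theorem Pth.reach (hs : ∀ x y : ι, G x y → N y ≤ N x + 1) {l : List ι} {j : ℕ}
    (h : Pth G N R m df l j) : ∀ x ∈ l.head?, N x + 1 ≤ R + l.length := by
  induction h with
  | base x hm hx => simp [hx]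
  | cons x z l j h ha hz hn ih =>
    intro y hy
    simp only [List.head?_cons, Option.mem_def, Option.some.injEq] at hy
    subst hy
    have h1 := ih x (by simp)
    have h2 := hs _ _ ha
    simp only [List.length_cons] at h1 ⊢
    omega

omit [Fintype ι] [DecidableEq ι] in
theorem Pth.strip {l : List ι} {j : ℕ} (h : Pth G N R m df l j) : ∀ x ∈ l, st N R m x := by
  induction h with
  | base x hm hx =>
    intro y hy
    rw [List.mem_singleton] at hy
    subst hy
    exact ⟨hx.ge, by omega⟩
  | cons x z l j h ha hz hn ih =>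
    intro y hy
    rw [List.mem_cons] at hy
    rcases hy with rfl | hy
    · exact hz
    · exact ih y hy

omit [Fintype ι] in
open Classical in
theorem Pth.count {l : List ι} {j : ℕ} (h : Pth G N R m df l j) :
    ∀ x ∈ l.head?, l.length + (if df x then 1 else 0) ≤
      1 + j + 2 * (l.toFinset.filter df).card := by
  induction h with
  | base x hm hx =>
    intro y hy
    simp only [List.head?_cons, Option.mem_def, Option.some.injEq] at hy
    subst hy
    by_cases h1 : df x
    · rw [if_pos h1]
      have : (([x] : List ι).toFinset.filter df).card = 1 := by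
        rw [Finset.card_eq_one]
        refine ⟨x, ?_⟩
        ext z
        simp only [List.toFinset_cons, List.toFinset_nil, Finset.mem_filter,
          Finset.mem_singleton, insert_empty_eq]
        constructor
        · exact fun h => h.1
        · rintro rfl
          exact ⟨rfl, h1⟩
      rw [this]
      simp
    · rw [if_neg h1]
      simp
  | cons x z l j h ha hz hn ih =>
    intro y hy
    simp only [List.head?_cons, Option.mem_def, Option.some.injEq] at hy
    subst hy
    have h1 := ih x (by simp)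
    have hn' : z ∉ (x :: l).toFinset := by rwa [List.mem_toFinset]
    have h3 : ((z :: x :: l).toFinset.filter df).card =
        ((x :: l).toFinset.filter df).card + (if df z then 1 else 0) := by
      rw [List.toFinset_cons, Finset.filter_insert]
      by_cases h2 : df z
      · rw [if_pos h2, if_pos h2, Finset.card_insert_of_notMem]
        exact fun h => hn' (Finset.mem_filter.1 h).1
      · rw [if_neg h2, if_neg h2, add_zero]
    rw [h3]
    have h4 : (z :: x :: l).length = (x :: l).length + 1 := rfl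
    rw [h4]
    unfold wt
    by_cases h5 : df x <;> by_cases h6 : df z <;>
      simp only [h5, h6, if_true, if_false, or_true, true_or, or_false, false_or] at h1 ⊢ <;> omega

open Classical in
/-- neighbours in the strip -/
noncomputable def nb (G : ι → ι → Prop) (N : ι → ℕ) (R m : ℕ) (x : ι) : Finset ι :=
  Finset.univ.filter fun y => G x y ∧ st N R m y

theorem card_nb (hG : Geo G N) (x : ι) : (nb G N R m x).card ≤ 4 := by
  classical
  refine le_trans (Finset.card_le_card ?_) (hG.deg x)
  intro y hy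
  unfold nb at hy
  rw [Finset.mem_filter] at hy ⊢
  exact ⟨hy.1, hy.2.1⟩

open Classical in
/-- ends and supports of the paths with `n` steps -/
noncomputable def QQ (G : ι → ι → Prop) (N : ι → ℕ) (R m : ℕ) : ℕ → Finset (ι × Finset ι)
  | 0 => (Finset.univ.filter fun x : ι => N x = R).image fun x => (x, {x})
  | n + 1 => (QQ G N R m n).biUnion fun p => (nb G N R m p.1).image fun y => (y, insert y p.2)

theorem card_QQ (hG : Geo G N) (n : ℕ) : (QQ G N R m n).card ≤ (8 * R + 8) * 4 ^ n := by
  classical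
  induction n with
  | zero =>
    unfold QQ
    refine Finset.card_image_le.trans ?_
    rw [pow_zero, mul_one]
    exact hG.shell R
  | succ n ih =>
    unfold QQ
    refine Finset.card_biUnion_le.trans ?_
    refine (Finset.sum_le_card_nsmul _ _ 4 fun p _ => Finset.card_image_le.trans
      (card_nb hG p.1)).trans ?_
    rw [smul_eq_mul, pow_succ]
    nlinarith

theorem QQ_card (n : ℕ) : ∀ p ∈ QQ G N R m n, p.2.card ≤ n + 1 := by
  classical
  induction n with
  | zero =>
    intro p hp
    unfold QQ at hp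
    obtain ⟨x, _, rfl⟩ := Finset.mem_image.1 hp
    simp
  | succ n ih =>
    intro p hp
    unfold QQ at hp
    obtain ⟨q, hq, hp⟩ := Finset.mem_biUnion.1 hp
    obtain ⟨y, _, rfl⟩ := Finset.mem_image.1 hp
    exact (Finset.card_insert_le _ _).trans (by have := ih q hq; omega)

theorem QQ_strip (hm : 0 < m) (n : ℕ) : ∀ p ∈ QQ G N R m n, ∀ x ∈ p.2, st N R m x := by
  classical
  induction n with
  | zero =>
    intro p hp
    unfold QQ at hp
    obtain ⟨x, hx, rfl⟩ := Finset.mem_image.1 hp
    intro y hy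
    have h1 := (Finset.mem_filter.1 hx).2
    rw [Finset.mem_singleton] at hy
    subst hy
    exact ⟨h1.ge, by omega⟩
  | succ n ih =>
    intro p hp
    unfold QQ at hp
    obtain ⟨q, hq, hp⟩ := Finset.mem_biUnion.1 hp
    obtain ⟨y, hy, rfl⟩ := Finset.mem_image.1 hp
    intro z hz
    rw [Finset.mem_insert] at hz
    rcases hz with rfl | hz
    · exact (Finset.mem_filter.1 hy).2.2
    · exact ih q hq z hz

theorem Pth.mem_QQ {l : List ι} {j : ℕ} (h : Pth G N R m df l j) :
    ∀ x ∈ l.head?, ∀ n, l.length = n + 1 → (x, l.toFinset) ∈ QQ G N R m n := by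
  classical
  induction h with
  | base x hm hx =>
    intro y hy n hn
    simp only [List.head?_cons, Option.mem_def, Option.some.injEq] at hy
    subst hy
    simp only [List.length_singleton] at hn
    obtain rfl : n = 0 := by omega
    unfold QQ
    refine Finset.mem_image.2 ⟨x, Finset.mem_filter.2 ⟨Finset.mem_univ _, hx⟩, ?_⟩
    simp
  | cons x z l j h ha hz hn ih =>
    intro y hy n hn
    simp only [List.head?_cons, Option.mem_def, Option.some.injEq] at hy
    subst hy
    obtain ⟨k, rfl⟩ : ∃ k, n = k + 1 := ⟨n - 1, by simp only [List.length_cons] at hn; omega⟩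
    have h1 := ih x (by simp) k (by simp only [List.length_cons] at hn ⊢; omega)
    unfold QQ
    refine Finset.mem_biUnion.2 ⟨_, h1, Finset.mem_image.2 ⟨z, ?_, ?_⟩⟩
    · exact Finset.mem_filter.2 ⟨Finset.mem_univ _, ha, hz⟩
    · rw [List.toFinset_cons (a := z)]

open Classical in
/-- the dangerous sets of defects -/
noncomputable def DD (G : ι → ι → Prop) (N : ι → ℕ) (R m : ℕ) : Finset (Finset ι) :=
  (QQ G N R m (m - 1)).biUnion fun p => p.2.powerset.filter fun D => 3 * m ≤ 8 * D.card

theorem card_DD (hG : Geo G N) (hm : 0 < m) :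
    (DD G N R m).card ≤ (8 * R + 8) * 4 ^ (m - 1) * 2 ^ m := by
  classical
  unfold DD
  refine Finset.card_biUnion_le.trans ?_
  refine (Finset.sum_le_card_nsmul _ _ (2 ^ m) fun p hp => ?_).trans ?_
  · refine (Finset.card_filter_le _ _).trans ?_
    rw [Finset.card_powerset]
    have := QQ_card (m - 1) p hp
    exact Nat.pow_le_pow_right (by norm_num) (by omega)
  · rw [smul_eq_mul]
    exact Nat.mul_le_mul_right _ (card_QQ hG _)

theorem DD_strip (hm : 0 < m) {D : Finset ι} (hD : D ∈ DD G N R m) : ∀ z ∈ D, st N R m z := by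
  classical
  obtain ⟨p, hp, hD⟩ := Finset.mem_biUnion.1 hD
  have h1 := Finset.mem_powerset.1 (Finset.mem_filter.1 hD).1
  exact fun z hz => QQ_strip hm _ p hp z (h1 hz)

/-- the distance -/
noncomputable def dd (G : ι → ι → Prop) (N : ι → ℕ) (R m : ℕ) (df : ι → Prop) (T : ℕ) (x : ι) :
    ℕ :=
  sInf ({T} ∪ {j | ∃ l, Pth G N R m df (x :: l) j})

omit [Fintype ι] [DecidableEq ι] in
theorem dd_le_T (T : ℕ) (x : ι) : dd G N R m df T x ≤ T := Nat.sInf_le (Or.inl rfl)

omit [Fintype ι] [DecidableEq ι] in
theorem dd_base (hm : 0 < m) (T : ℕ) {x : ι} (hx : N x = R) :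
    dd G N R m df T x = 0 :=
  Nat.le_zero.1 (Nat.sInf_le (Or.inr ⟨[], Pth.base x hm hx⟩))

omit [Fintype ι] in
theorem dd_step (T : ℕ) {x y : ι} (ha : G x y) (hy : st N R m y) :
    dd G N R m df T y ≤ dd G N R m df T x + wt df x y := by
  have h1 : dd G N R m df T x ∈ ({T} ∪ {j | ∃ l, Pth G N R m df (x :: l) j} : Set ℕ) :=
    Nat.sInf_mem ⟨T, Or.inl rfl⟩
  rcases h1 with h1 | ⟨l, hl⟩
  · rw [h1]
    exact (dd_le_T T y).trans (by omega)
  · obtain ⟨l', j', h2, h3⟩ := hl.ext' ha hy
    exact (Nat.sInf_le (Or.inr ⟨l', h2⟩)).trans h3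

/-- the bad event: a dangerous set of the strip consists of defects -/
def Bad (G : ι → ι → Prop) (N : ι → ℕ) (R m : ℕ) (df : ι → Prop) : Prop :=
  ∃ D ∈ DD G N R m, ∀ z ∈ D, df z

/-- without a dangerous set of defects the distance of the outer sphere is `T` -/
theorem dd_far (hG : Geo G N) {T : ℕ} (hm : 0 < m) (hT : 4 * T ≤ m) {x : ι}
    (hx : R + m ≤ N x + 1) (hB : ¬ Bad G N R m df) : dd G N R m df T x = T := by
  classical
  have h1 : dd G N R m df T x ∈ ({T} ∪ {j | ∃ l, Pth G N R m df (x :: l) j} : Set ℕ) :=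
    Nat.sInf_mem ⟨T, Or.inl rfl⟩
  rcases h1 with h1 | ⟨l, hl⟩
  · exact h1
  · by_contra h2
    have h3 : dd G N R m df T x < T := lt_of_le_of_ne (dd_le_T T x) h2
    apply hB
    have hs : ∀ x y : ι, G x y → N y ≤ N x + 1 := fun _ _ h => (hG.step h).1
    have h4 := Pth.reach hs hl x (by simp)
    obtain ⟨y, l', j', h5, h6, h7⟩ := hl.len (n := m - 1) (by omega)
    have h8 := h5.count y (by simp)
    have h9 := h5.mem_QQ y (by simp) (m - 1) (by rw [List.length_cons, h6])
    refine ⟨(y :: l').toFinset.filter df, ?_, fun z hz => (Finset.mem_filter.1 hz).2⟩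
    unfold DD
    refine Finset.mem_biUnion.2 ⟨_, h9, Finset.mem_filter.2 ⟨?_, ?_⟩⟩
    · rw [Finset.mem_powerset]
      exact Finset.filter_subset _ _
    · rw [List.length_cons, h6] at h8
      omega

theorem bad_mono {df' : ι → Prop} (hm : 0 < m)
    (h : ∀ x : ι, R ≤ N x → N x < R + m → df x → df' x) :
    Bad G N R m df → Bad G N R m df' := by
  rintro ⟨D, hD, h1⟩
  refine ⟨D, hD, fun z hz => ?_⟩
  have h2 := DD_strip hm hD z hz
  exact h z h2.1 h2.2 (h1 z hz)

open Classical in
/-- the cut-off function -/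
noncomputable def chi (G : ι → ι → Prop) (N : ι → ℕ) (R m : ℕ) (df : ι → Prop) (x : ι) : ℝ :=
  if N x ≤ R then 1 else if Bad G N R m df then 0 else
    1 - (dd G N R m df (m / 4) x : ℝ) / (m / 4 : ℕ)

theorem chi_one {x : ι} (hx : N x ≤ R) : chi G N R m df x = 1 := by
  unfold chi
  rw [if_pos hx]

theorem chi_far (hG : Geo G N) (hm : 8 ≤ m) {x : ι} (hx : R + m ≤ N x + 1) :
    chi G N R m df x = 0 := by
  classical
  unfold chi
  rw [if_neg (by omega)]
  by_cases h1 : Bad G N R m df
  · rw [if_pos h1]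
  · rw [if_neg h1, dd_far hG (df := df) (T := m / 4) (by omega) (by omega) hx h1]
    have : ((m / 4 : ℕ) : ℝ) ≠ 0 := by
      have : 0 < m / 4 := by omega
      positivity
    rw [div_self this, sub_self]

theorem chi_st (hm : 8 ≤ m) (h1 : ¬ Bad G N R m df) {x : ι} (hx : st N R m x) :
    chi G N R m df x = 1 - (dd G N R m df (m / 4) x : ℝ) / (m / 4 : ℕ) := by
  classical
  unfold chi
  rw [if_neg h1]
  by_cases h2 : N x ≤ R
  · rw [if_pos h2, dd_base (by omega) _ (le_antisymm h2 hx.1)]
    simp
  · rw [if_neg h2]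

theorem chi_mem (hm : 8 ≤ m) (x : ι) : 0 ≤ chi G N R m df x ∧ chi G N R m df x ≤ 1 := by
  classical
  unfold chi
  split_ifs
  · norm_num
  · norm_num
  · have h1 : (0 : ℝ) < (m / 4 : ℕ) := by
      have : 0 < m / 4 := by omega
      positivity
    have h2 : (dd G N R m df (m / 4) x : ℝ) ≤ (m / 4 : ℕ) := by exact_mod_cast dd_le_T _ x
    constructor
    · rw [sub_nonneg, div_le_one h1]
      exact h2
    · have : 0 ≤ (dd G N R m df (m / 4) x : ℝ) / (m / 4 : ℕ) := by positivity
      linarith

theorem chi_out (hG : Geo G N) (hm : 8 ≤ m) {x y : ι} (ha : G x y) (hx : ¬ st N R m x) :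
    chi G N R m df x = chi G N R m df y := by
  classical
  have h1 := hG.step ha
  have h2 : N x < R ∨ R + m ≤ N x := by
    by_contra h3
    exact hx ⟨by omega, by omega⟩
  rcases h2 with h2 | h2
  · rw [chi_one (by omega), chi_one (by omega)]
  · rw [chi_far hG hm (by omega), chi_far hG hm (by omega)]

theorem chi_good (hG : Geo G N) (hm : 8 ≤ m) (h1 : ¬ Bad G N R m df) {x y : ι} (ha : G x y)
    (hx : st N R m x) (hy : st N R m y) :
    |chi G N R m df x - chi G N R m df y| ≤ (wt df x y : ℝ) / (m / 4 : ℕ) := by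
  have h2 : (0 : ℝ) < (m / 4 : ℕ) := by
    have : 0 < m / 4 := by omega
    positivity
  rw [chi_st hm h1 hx, chi_st hm h1 hy]
  have h3 : (dd G N R m df (m / 4) y : ℝ) ≤ dd G N R m df (m / 4) x + wt df x y := by
    exact_mod_cast dd_step (m / 4) ha hy
  have h4 : (dd G N R m df (m / 4) x : ℝ) ≤ dd G N R m df (m / 4) y + wt df x y := by
    have := dd_step (df := df) (m / 4) (hG.symm ha) hx
    rw [wt_comm] at this
    exact_mod_cast this
  rw [abs_le]
  constructor
  · rw [← sub_nonneg]
    have : 1 - (dd G N R m df (m / 4) x : ℝ) / (m / 4 : ℕ) -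
        (1 - (dd G N R m df (m / 4) y : ℝ) / (m / 4 : ℕ)) - -((wt df x y : ℝ) / (m / 4 : ℕ))
        = (dd G N R m df (m / 4) y + wt df x y - dd G N R m df (m / 4) x) /
          (m / 4 : ℕ) := by ring
    rw [this]
    exact div_nonneg (by linarith) h2.le
  · rw [← sub_nonneg]
    have : (wt df x y : ℝ) / (m / 4 : ℕ) - (1 - (dd G N R m df (m / 4) x : ℝ) / (m / 4 : ℕ) -
        (1 - (dd G N R m df (m / 4) y : ℝ) / (m / 4 : ℕ)))
        = (dd G N R m df (m / 4) x + wt df x y - dd G N R m df (m / 4) y) /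
          (m / 4 : ℕ) := by ring
    rw [this]
    exact div_nonneg (by linarith) h2.le

/-- off `Bad`: the cut-off changes only along edges of the strip without defects, slowly -/
theorem chi_lip (hG : Geo G N) (hm : 8 ≤ m) (h1 : ¬ Bad G N R m df) {x y : ι} (ha : G x y)
    (hne : chi G N R m df x ≠ chi G N R m df y) :
    st N R m x ∧ st N R m y ∧ ¬ df x ∧ ¬ df y ∧
      |chi G N R m df x - chi G N R m df y| ≤ 8 / m := by
  classical
  have hx : st N R m x := by
    by_contra h
    exact hne (chi_out hG hm ha h)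
  have hy : st N R m y := by
    by_contra h
    exact hne (chi_out hG hm (hG.symm ha) h).symm
  have h2 := chi_good hG hm h1 ha hx hy
  have h3 : ¬ (df x ∨ df y) := by
    intro h3
    unfold wt at h2
    rw [if_pos h3] at h2
    simp only [Nat.cast_zero, zero_div] at h2
    exact hne (sub_eq_zero.1 (abs_eq_zero.1 (le_antisymm h2 (abs_nonneg _))))
  have h4 : wt df x y = 1 := by
    unfold wt
    rw [if_neg h3]
  rw [h4] at h2
  push Not at h3
  refine ⟨hx, hy, h3.1, h3.2, h2.trans ?_⟩
  have h8 : (m : ℝ) / 8 ≤ (m / 4 : ℕ) := by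
    have : m ≤ 8 * (m / 4) := by omega
    have : (m : ℝ) ≤ 8 * (m / 4 : ℕ) := by exact_mod_cast this
    linarith
  have hm' : (0 : ℝ) < m := by
    have : 0 < m := by omega
    exact_mod_cast this
  calc ((1 : ℕ) : ℝ) / (m / 4 : ℕ) ≤ 1 / (m / 8) := by
        rw [Nat.cast_one]
        exact one_div_le_one_div_of_le (by positivity) h8
    _ = 8 / m := by
        field_simp

/-! ### probability of the bad event -/

section law

open MeasureTheory

variable {α : Type*} [MeasurableSpace α] {μ : Measure α}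

theorem meas_bad {D0 : Set α} (h0 : MeasurableSet D0) :
    MeasurableSet {a : ι → α | Bad G N R m fun x => a x ∈ D0} := by
  classical
  have h1 : {a : ι → α | Bad G N R m fun x => a x ∈ D0} =
      ⋃ D ∈ DD G N R m, ⋂ z ∈ D, {a | a z ∈ D0} := by
    ext v
    simp [Bad]
  rw [h1]
  refine Finset.measurableSet_biUnion _ fun D _ => Finset.measurableSet_biInter _ fun z _ => ?_
  exact measurable_pi_apply z h0

/-- the sites are defects independently, with probability at most `1/8192` -/
theorem bad_le [IsProbabilityMeasure μ] (hG : Geo G N) {D0 : Set α}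
    (h0 : μ D0 ≤ ENNReal.ofReal (1 / 8192)) (hm : 0 < m) :
    (Measure.pi fun _ : ι => μ) {a | Bad G N R m fun x => a x ∈ D0} ≤
      ENNReal.ofReal ((8 * R + 8) * (1 / 2) ^ m) := by
  classical
  have h1 : {a : ι → α | Bad G N R m fun x => a x ∈ D0} =
      ⋃ D ∈ DD G N R m, {a | ∀ z ∈ D, a z ∈ D0} := by
    ext v
    simp [Bad]
  rw [h1]
  refine (measure_biUnion_finset_le _ _).trans ?_
  have h2 : ∀ D ∈ DD G N R m, (Measure.pi fun _ : ι => μ)
      {a | ∀ z ∈ D, a z ∈ D0} ≤ ENNReal.ofReal ((1 / 16) ^ m) := by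
    intro D hD
    obtain ⟨p, _, hD⟩ := Finset.mem_biUnion.1 hD
    have hc := (Finset.mem_filter.1 hD).2
    have h3 : {a : ι → α | ∀ z ∈ D, a z ∈ D0} =
        Set.univ.pi fun z => if z ∈ D then D0 else Set.univ := by
      ext v
      simp only [Set.mem_setOf_eq, Set.mem_pi, Set.mem_univ, true_implies]
      refine forall_congr' fun z => ?_
      by_cases hz : z ∈ D <;> simp [hz]
    rw [h3, Measure.pi_pi]
    have h4 : ∏ z : ι, μ (if z ∈ D then D0 else Set.univ) ≤
        ∏ z : ι, if z ∈ D then ENNReal.ofReal ((1 / 2) ^ 13) else 1 := by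
      refine Finset.prod_le_prod' fun z _ => ?_
      by_cases hz : z ∈ D
      · rw [if_pos hz, if_pos hz]
        refine h0.trans (ENNReal.ofReal_le_ofReal ?_)
        norm_num
      · rw [if_neg hz, if_neg hz]
        exact prob_le_one
    refine h4.trans ?_
    rw [Finset.prod_ite_mem, Finset.univ_inter, Finset.prod_const,
      ← ENNReal.ofReal_pow (by norm_num), ← pow_mul]
    refine ENNReal.ofReal_le_ofReal ?_
    have h5 : ((1 : ℝ) / 16) ^ m = (1 / 2) ^ (4 * m) := by
      rw [pow_mul]
      norm_num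
    rw [h5]
    exact pow_le_pow_of_le_one (by norm_num) (by norm_num) (by omega)
  refine (Finset.sum_le_card_nsmul _ _ _ h2).trans ?_
  rw [nsmul_eq_mul]
  refine (mul_le_mul_left (Nat.cast_le.2 (card_DD (R := R) hG hm)) _).trans ?_
  rw [← ENNReal.ofReal_natCast, ← ENNReal.ofReal_mul (by positivity)]
  refine ENNReal.ofReal_le_ofReal ?_
  push_cast
  have h6 : (4 : ℝ) ^ (m - 1) ≤ 4 ^ m := pow_le_pow_right₀ (by norm_num) (by omega)
  have h7 : ((1 : ℝ) / 2) ^ m = 4 ^ m * 2 ^ m * (1 / 16) ^ m := by
    rw [← mul_pow, ← mul_pow]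
    norm_num
  rw [h7]
  calc (8 * (R : ℝ) + 8) * 4 ^ (m - 1) * 2 ^ m * (1 / 16) ^ m ≤
      (8 * (R : ℝ) + 8) * 4 ^ m * 2 ^ m * (1 / 16) ^ m := by gcongr
    _ = _ := by ring

end law

end FPG

end P365CUL
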