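import Vale.Agent.P365.CUL841.Ring841
import Vale.Agent.P365.CUL841.FPG660

set_option linter.all false

/-!
# P365 / CUL841 / Cut660: the first passage cut-off with label defects, `nz` norm.

`BadL X R m b`: the strip `R ≤ nz x < R + m` has no slow crossing through the sites `b`.
Off `BadL` there is a cut-off (`CutB`) equal to `1` on `nz ≤ R`, to `0` on `nz ≥ R + m - 1`, which
changes only along edges between two sites of the strip with `b`, by at most `8 / m`
(`cut_exists`).  `BadL` has probability at most `(8R + 8) 2^{-m}` (`prob_BadL`).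
`CutB.co_in`, `CutB.co_out`: the data `CO` of the ring step, constant `32 / c`.
-/

namespace P365CUL

open MeasureTheory ProbabilityTheory Complex Matrix Function P365S6
open P365L P365L.Comp P365X P365CU
open scoped ENNReal Real

variable {X : Finset Site} {R m : ℕ} {b b' : X → Prop}

/-- the graph -/
def GX (X : Finset Site) (x y : X) : Prop := adj (x : Site) y ≠ 0

/-- the norm -/
def NX (X : Finset Site) (x : X) : ℕ := nz (x : Site)

open Classical in
theorem geoX (X : Finset Site) : FPG.Geo (GX X) (NX X) where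
  symm := by
    intro x y h
    unfold GX at h ⊢
    rwa [adj_comm]
  step := fun {x y} h => nz_adj h
  deg := by
    intro x
    refine le_trans (Finset.card_le_card_of_injOn (fun y => (y : Site)) (t := nbr (x : Site)) ?_ ?_)
      (card_nbr (x : Site))
    · intro y hy
      have h := (Finset.mem_filter.1 hy).2
      exact mem_nbr_of_adj h
    · intro y _ z _ h
      exact Subtype.ext h
  shell := by
    intro R
    refine le_trans (Finset.card_le_card_of_injOn (fun y => (y : Site)) (t := NS R) ?_ ?_)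
      (card_NS R)
    · intro y hy
      exact mem_NS.2 (Finset.mem_filter.1 hy).2
    · intro y _ z _ h
      exact Subtype.ext h

/-- the dangerous sets of defects -/
noncomputable def DD (X : Finset Site) (R m : ℕ) : Finset (Finset X) :=
  FPG.DD (GX X) (NX X) R m

/-- the bad event -/
def BadL (X : Finset Site) (R m : ℕ) (b : X → Prop) : Prop := ∃ D ∈ DD X R m, ∀ z ∈ D, ¬ b z

theorem BadL_iff : BadL X R m b ↔ FPG.Bad (GX X) (NX X) R m fun x => ¬ b x := Iff.rfl

/-- a cut-off in the strip `R ≤ nz < R + m` along good edges -/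
structure CutB (X : Finset Site) (R m : ℕ) (b : X → Prop) (χ : X → ℝ) : Prop where
  one : ∀ x : X, nz x ≤ R → χ x = 1
  zero : ∀ x : X, R + m ≤ nz x + 1 → χ x = 0
  nonneg : ∀ x, 0 ≤ χ x
  le_one : ∀ x, χ x ≤ 1
  lip : ∀ x y : X, adj x y ≠ 0 → χ x ≠ χ y →
    (R ≤ nz x ∧ nz x < R + m) ∧ (R ≤ nz y ∧ nz y < R + m) ∧ b x ∧ b y ∧ |χ x - χ y| ≤ 8 / m

theorem cut_exists (hm : 8 ≤ m) (h : ¬ BadL X R m b) : ∃ χ, CutB X R m b χ := by
  refine ⟨FPG.chi (GX X) (NX X) R m fun x => ¬ b x, ⟨fun x hx => FPG.chi_one hx,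
    fun x hx => FPG.chi_far (geoX X) hm hx, fun x => (FPG.chi_mem hm x).1,
    fun x => (FPG.chi_mem hm x).2, ?_⟩⟩
  intro x y ha hne
  obtain ⟨h1, h2, h3, h4, h5⟩ := FPG.chi_lip (geoX X) hm h ha hne
  exact ⟨h1, h2, not_not.1 h3, not_not.1 h4, h5⟩

theorem BadL_dep (hm : 0 < m)
    (h : ∀ x : X, R ≤ nz (x : Site) → nz (x : Site) < R + m → (b x ↔ b' x)) :
    BadL X R m b → BadL X R m b' :=
  FPG.bad_mono hm fun x h1 h2 h3 h4 => h3 ((h x h1 h2).2 h4)

theorem BadL_congr (hm : 0 < m)
    (h : ∀ x : X, R ≤ nz (x : Site) → nz (x : Site) < R + m → (b x ↔ b' x)) :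
    BadL X R m b ↔ BadL X R m b' :=
  ⟨BadL_dep hm h, BadL_dep hm fun x h1 h2 => (h x h1 h2).symm⟩

theorem measurableSet_rest : MeasurableSet {a : SV | ¬ a.1 = true} := by
  have h : Measurable fun a : SV => a.1 := measurable_fst
  exact (h (measurableSet_singleton true)).compl

theorem meas_BadL : MeasurableSet {ω : X → SV | BadL X R m (fun x => (ω x).1 = true)} :=
  FPG.meas_bad (D0 := {a : SV | ¬ a.1 = true}) measurableSet_rest

theorem prob_BadL {lam w C : ℝ} {μ : Measure SV} [IsProbabilityMeasure μ] {r : ℝ → ℝ → ℝ}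
    (h : LawP lam w C μ r) (hm : 8 ≤ m) :
    (Measure.pi fun _ : X => μ) {ω | BadL X R m (fun x => (ω x).1 = true)} ≤
      ENNReal.ofReal ((8 * R + 8) * (1 / 2) ^ m) := by
  refine FPG.bad_le (D0 := {a : SV | ¬ a.1 = true}) (geoX X) ?_ (by omega)
  have h1 : {a : SV | ¬ a.1 = true} = {a : SV | a.1 = false} := by
    ext a
    simp
  rw [h1]
  exact h.rest

/-! ### commutator data -/

section co

variable {ω : X → SV} {A : Matrix X X ℝ} {κ : X → ℝ} {κ0 : ℝ} {χ : X → ℝ} {Rs N : Finset X}

theorem dQ_mov (hκ0 : 0 < κ0) {x : X} (hx : κ x = κ0) (hb : (ω x).1 = true) :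
    dQ κ ω x = Real.sqrt κ0 := by
  unfold dQ
  rw [if_neg (by rw [hx]; exact hκ0.ne'), if_pos hb, hx]

theorem CutB.row (h : CutB X R m (fun x => (ω x).1 = true) χ) (hm : 0 < m)
    (hA : ∀ x y, |A x y| ≤ adj x y) (hκ0 : 0 < κ0) (hκ : ∀ x ∈ N, κ x = κ0) {x : X}
    (hx : x ∈ N.filter fun x => (ω x).1 = true) :
    ∑ y ∈ N.filter fun x => (ω x).1 = true, |scA (dQ κ ω) A x y * (χ y - χ x)| ≤
      32 / (m * κ0) := by
  have hm' : (0 : ℝ) < m := by exact_mod_cast hm
  have hx' := Finset.mem_filter.1 hx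
  calc ∑ y ∈ N.filter fun x => (ω x).1 = true, |scA (dQ κ ω) A x y * (χ y - χ x)|
      ≤ ∑ y ∈ N.filter fun x => (ω x).1 = true, |AF X x y| * (8 / m / κ0) := by
        refine Finset.sum_le_sum fun y hy => ?_
        have hy' := Finset.mem_filter.1 hy
        have hAF : |AF X x y| = adj x y := by
          unfold AF
          rw [abs_of_nonneg (adj_nonneg _ _)]
        by_cases h2 : adj (x : Site) y = 0
        · have h3 : A x y = 0 := by
            have := hA x y
            rw [h2] at this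
            exact abs_eq_zero.1 (le_antisymm this (abs_nonneg _))
          unfold scA
          rw [h3, zero_div, zero_mul, abs_zero]
          positivity
        by_cases h3 : χ x = χ y
        · rw [h3, sub_self, mul_zero, abs_zero]
          positivity
        · have h4 := (h.lip x y h2 h3).2.2.2.2
          unfold scA
          rw [dQ_mov hκ0 (hκ x hx'.1) hx'.2, dQ_mov hκ0 (hκ y hy'.1) hy'.2,
            Real.mul_self_sqrt hκ0.le, abs_mul, abs_div, abs_of_pos hκ0,
            abs_sub_comm, hAF]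
          calc |A x y| / κ0 * |χ x - χ y|
              ≤ adj x y / κ0 * (8 / m) := by
                refine mul_le_mul ?_ h4 (abs_nonneg _) ?_
                · exact div_le_div_of_nonneg_right (hA x y) hκ0.le
                · exact div_nonneg (adj_nonneg _ _) hκ0.le
            _ = _ := by ring
    _ = (∑ y ∈ N.filter fun x => (ω x).1 = true, |AF X x y|) * (8 / m / κ0) := by
        rw [Finset.sum_mul]
    _ ≤ (∑ y, |AF X x y|) * (8 / m / κ0) := by
        refine mul_le_mul_of_nonneg_right ?_ (by positivity)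
        exact Finset.sum_le_sum_of_subset_of_nonneg (Finset.subset_univ _) fun _ _ _ =>
          abs_nonneg _
    _ ≤ 4 * (8 / m / κ0) := mul_le_mul_of_nonneg_right (AF_row X x) (by positivity)
    _ = _ := by
        field_simp
        norm_num

theorem adj_of_scA (hA : ∀ x y, |A x y| ≤ adj x y) {d : X → ℝ} {x y : X}
    (h : scA d A x y ≠ 0) : adj (x : Site) y ≠ 0 := by
  intro h'
  have h1 := hA x y
  rw [h'] at h1
  have h2 : A x y = 0 := abs_eq_zero.1 (le_antisymm h1 (abs_nonneg _))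
  apply h
  unfold scA
  rw [h2, zero_div]

/-- **inner cut-off**, `Rs = {nz < R + m}` -/
theorem CutB.co_in (h : CutB X R m (fun x => (ω x).1 = true) χ) (hm : 0 < m)
    (hA : ∀ x y, |A x y| ≤ adj x y) (hκ0 : 0 < κ0) (hκ : ∀ x ∈ N, κ x = κ0)
    (hN : ∀ x : X, x ∈ N ↔ R ≤ nz (x : Site) ∧ nz (x : Site) < R + m)
    (hR : ∀ x : X, x ∈ Rs ↔ nz (x : Site) < R + m) :
    CO (scA (dQ κ ω) A) Rs (N.filter fun x => (ω x).1 = true) χ (32 / (m * κ0)) where
  sub := by
    intro x hx
    rw [Finset.mem_filter, hN] at hx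
    rw [hR]
    exact hx.1.2
  zero := by
    intro x hx
    rw [hR] at hx
    exact h.zero x (by omega)
  nonneg := h.nonneg
  le_one := h.le_one
  supp := by
    intro x y h2 h3
    obtain ⟨h4, h5, h6, h7, _⟩ := h.lip x y (adj_of_scA hA h2) h3
    exact ⟨Finset.mem_filter.2 ⟨(hN x).2 h4, h6⟩, Finset.mem_filter.2 ⟨(hN y).2 h5, h7⟩⟩
  k0 := by positivity
  row := fun x hx => h.row hm hA hκ0 hκ hx

/-- **outer cut-off**, `Rs = {R ≤ nz}` -/
theorem CutB.co_out (h : CutB X R m (fun x => (ω x).1 = true) χ) (hm : 0 < m)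
    (hA : ∀ x y, |A x y| ≤ adj x y) (hκ0 : 0 < κ0) (hκ : ∀ x ∈ N, κ x = κ0)
    (hN : ∀ x : X, x ∈ N ↔ R ≤ nz (x : Site) ∧ nz (x : Site) < R + m)
    (hR : ∀ x : X, x ∈ Rs ↔ R ≤ nz (x : Site)) :
    CO (scA (dQ κ ω) A) Rs (N.filter fun x => (ω x).1 = true) (fun x => 1 - χ x)
      (32 / (m * κ0)) where
  sub := by
    intro x hx
    rw [Finset.mem_filter, hN] at hx
    rw [hR]
    exact hx.1.1
  zero := by
    intro x hx
    rw [hR] at hx
    rw [h.one x (by omega), sub_self]
  nonneg := fun x => by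
    have := h.le_one x
    linarith
  le_one := fun x => by
    have := h.nonneg x
    linarith
  supp := by
    intro x y h2 h3
    obtain ⟨h4, h5, h6, h7, _⟩ := h.lip x y (adj_of_scA hA h2) fun h => h3 (by rw [h])
    exact ⟨Finset.mem_filter.2 ⟨(hN x).2 h4, h6⟩, Finset.mem_filter.2 ⟨(hN y).2 h5, h7⟩⟩
  k0 := by positivity
  row := by
    intro x hx
    refine (le_of_eq ?_).trans (h.row hm hA hκ0 hκ hx)
    refine Finset.sum_congr rfl fun y _ => ?_
    rw [← abs_neg]
    congr 1
    ring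

/-- the constant for `κ0 = c / m` -/
theorem const_eq {c : ℝ} (hm : 0 < m) : 32 / ((m : ℝ) * (c / m)) = 32 / c := by
  have hm' : (m : ℝ) ≠ 0 := by
    have : (0 : ℝ) < m := by exact_mod_cast hm
    exact this.ne'
  rw [mul_div_cancel₀ c hm']

end co

end P365CUL
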