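import Vale.Agent.P365.CUL841.Step841

set_option linter.all false

/-!
# P365 / CUL841 / Est841: root, end and bad-event estimates for the chain.
-/

namespace P365CUL

open MeasureTheory ProbabilityTheory Complex Matrix Function P365S6
open P365L P365L.Comp P365X P365CU
open scoped ENNReal Real

variable {lam p : ℝ}

/-- `Bd` does not depend on the site `a` -/
def Indep {ι : Type} [DecidableEq ι] (Bd : Set (ι → SV)) (a : ι) : Prop :=
  ∀ (ω : ι → SV) (s : SV), update ω a s ∈ Bd ↔ ω ∈ Bd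

theorem meas_mvG {ι : Type} [Fintype ι] [DecidableEq ι] {A : Matrix ι ι ℝ} {ζ : ℂ} {κ : ι → ℝ}
    (L : Finset ι) (t q : ℝ) (a : ι) :
    Measurable fun ω : ι → SV => ENNReal.ofReal (‖Gr A (WL ζ κ (mv L t ω)) a a‖ ^ q) := by
  have h1 : Measurable fun ω : ι → SV => Gr A (WL ζ κ ω) a a :=
    measurable_Gr (A := A) (fun ω : ι → SV => WL ζ κ ω) (fun z => measurable_WL z) a a
  exact ((h1.norm.pow_const q).ennreal_ofReal).comp (measurable_mv L t)

/-- (E1)–(E3): one constant -/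
theorem est_all (hp : 0 < p) (hp1 : p < 1) (hlam : 0 < lam) : ∃ K : ℝ, 0 < K ∧
    ∀ {μ : Measure SV} [IsProbabilityMeasure μ] {w C : ℝ} {r : ℝ → ℝ → ℝ}, LawP lam w C μ r →
    ∀ {ι : Type} [Fintype ι] [DecidableEq ι] (A : Matrix ι ι ℝ), A.IsSymm → ∀ ζ : ℂ, 0 < ζ.im →
      ∀ (κ : ι → ℝ), (∀ x, 0 ≤ κ x) →
      (∀ (a : ι) (N : Finset ι), κ a = 0 → (∀ x ∈ N, κ x ≠ 0) →
        ∫⁻ ω, MP A ζ κ p {a} N ω ∂(Measure.pi fun _ : ι => μ) ≤ ENNReal.ofReal K) ∧
      (∀ (B N : Finset ι), (∀ b ∈ B, κ b = 0) → (∀ x ∈ N, κ x ≠ 0) →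
        ∫⁻ ω, MP A ζ κ p N B ω ∂(Measure.pi fun _ : ι => μ) ≤ B.card * ENNReal.ofReal K) ∧
      (∀ (a : ι) (N L : Finset ι) (t : ℝ) (Bd : Set (ι → SV)), κ a = 0 → (∀ x ∈ N, κ x ≠ 0) →
        a ∉ L → MeasurableSet Bd → Indep Bd a →
        ∫⁻ ω in Bd, MP A ζ κ p {a} N (mv L t ω) ∂(Measure.pi fun _ : ι => μ) ≤
          ENNReal.ofReal K * (Measure.pi fun _ : ι => μ) Bd) := by
  obtain ⟨K, hK, H⟩ := site_avg (lam := lam) (q := p / 2) (by positivity) (by linarith) hlam
  refine ⟨K, hK, ?_⟩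
  intro μ _ w C r hLaw ι _ _ A hA ζ hζ κ hκ
  have hmv0 : ∀ (t : ℝ) (ω : ι → SV), mv ∅ t ω = ω := by
    intro t ω
    funext x
    simp [mv]
  have key : ∀ (a : ι) (L : Finset ι) (t : ℝ) (Bd : Set (ι → SV)), κ a = 0 → a ∉ L →
      MeasurableSet Bd → Indep Bd a →
      ∫⁻ ω in Bd, ENNReal.ofReal (‖Gr A (WL ζ κ (mv L t ω)) a a‖ ^ (p / 2))
        ∂(Measure.pi fun _ : ι => μ) ≤ ENNReal.ofReal K * (Measure.pi fun _ : ι => μ) Bd := by
    intro a L t Bd hκa haL hBd hI
    have h1 := H hLaw A hA ζ hζ κ hκ a hκa L haL t (Bd.indicator fun _ => 1)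
      (measurable_const.indicator hBd) (fun ω s => by
        by_cases h : ω ∈ Bd
        · rw [Set.indicator_of_mem h, Set.indicator_of_mem ((hI ω s).2 h)]
        · rw [Set.indicator_of_notMem h, Set.indicator_of_notMem fun h' => h ((hI ω s).1 h')])
    rw [lintegral_indicator hBd, lintegral_const, Measure.restrict_apply_univ, one_mul] at h1
    refine le_trans (le_of_eq ?_) h1
    rw [← lintegral_indicator hBd]
    refine lintegral_congr fun ω => ?_
    by_cases h : ω ∈ Bd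
    · rw [Set.indicator_of_mem h, Set.indicator_of_mem h, one_mul]
    · rw [Set.indicator_of_notMem h, Set.indicator_of_notMem h, zero_mul]
  have hflux : ∀ (a : ι) (N : Finset ι) (ω : ι → SV), κ a = 0 → (∀ x ∈ N, κ x ≠ 0) →
      MP A ζ κ p {a} N ω ≤ ENNReal.ofReal (‖Gr A (WL ζ κ ω) a a‖ ^ (p / 2)) := by
    intro a N ω ha hN
    rw [MP_comm hA]
    have := MP_flux (ω := ω) hA hζ hκ hp hp1 (N := N) (B := {a}) hN (fun x hx => by
      rw [Finset.mem_singleton] at hx
      rw [hx, ha])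
    rwa [Finset.sum_singleton] at this
  have hI0 : ∀ a : ι, Indep (Set.univ : Set (ι → SV)) a := fun a ω s => by simp
  have hone : ∀ a : ι, κ a = 0 → ∫⁻ ω, ENNReal.ofReal (‖Gr A (WL ζ κ ω) a a‖ ^ (p / 2))
      ∂(Measure.pi fun _ : ι => μ) ≤ ENNReal.ofReal K := by
    intro a ha
    have h1 := key a ∅ 0 Set.univ ha (Finset.notMem_empty a) MeasurableSet.univ (hI0 a)
    rw [Measure.restrict_univ, measure_univ, mul_one] at h1
    simp only [hmv0] at h1
    exact h1
  refine ⟨?_, ?_, ?_⟩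
  · intro a N ha hN
    exact (lintegral_mono fun ω => hflux a N ω ha hN).trans (hone a ha)
  · intro B N hB hN
    have hmb : ∀ b, Measurable fun ω : ι → SV =>
        ENNReal.ofReal (‖Gr A (WL ζ κ ω) b b‖ ^ (p / 2)) := by
      intro b
      have h1 : Measurable fun ω : ι → SV => Gr A (WL ζ κ ω) b b :=
        measurable_Gr (A := A) (fun ω : ι → SV => WL ζ κ ω) (fun z => measurable_WL z) b b
      exact (h1.norm.pow_const _).ennreal_ofReal
    calc ∫⁻ ω, MP A ζ κ p N B ω ∂(Measure.pi fun _ : ι => μ)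
        ≤ ∫⁻ ω, ∑ b ∈ B, ENNReal.ofReal (‖Gr A (WL ζ κ ω) b b‖ ^ (p / 2))
          ∂(Measure.pi fun _ : ι => μ) :=
          lintegral_mono fun ω => MP_flux hA hζ hκ hp hp1 hN hB
      _ = ∑ b ∈ B, ∫⁻ ω, ENNReal.ofReal (‖Gr A (WL ζ κ ω) b b‖ ^ (p / 2))
          ∂(Measure.pi fun _ : ι => μ) := lintegral_finset_sum _ fun b _ => hmb b
      _ ≤ ∑ b ∈ B, ENNReal.ofReal K := Finset.sum_le_sum fun b hb => hone b (hB b hb)
      _ = _ := by rw [Finset.sum_const, nsmul_eq_mul]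
  · intro a N L t Bd ha hN haL hBd hI
    refine le_trans (lintegral_mono fun ω => ?_) (key a L t Bd ha haL hBd hI)
    exact hflux a N (mv L t ω) ha hN

/-- (E4): bad event for the full operator -/
theorem LawP.est_bad_end {w C : ℝ} {μ : Measure SV} [IsProbabilityMeasure μ] {r : ℝ → ℝ → ℝ}
    (hLaw : LawP lam w C μ r) (hp : 0 < p) (hp4 : p < 1 / 4) (hlam : 0 < lam)
    {ι : Type} [Fintype ι] [DecidableEq ι] {A : Matrix ι ι ℝ} (hA : A.IsSymm) {ζ : ℂ}
    (hζ : 0 < ζ.im) (a : ι) (B L : Finset ι) (t : ℝ) {Bd : Set (ι → SV)} (ha : a ∉ L)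
    (hB : ∀ b ∈ B, b ∉ L) (hBd : MeasurableSet Bd) (hIa : Indep Bd a)
    (hIB : ∀ b ∈ B, Indep Bd b) :
    ∫⁻ ω in Bd, MP A ζ (0 : ι → ℝ) p {a} B (mv L t ω) ∂(Measure.pi fun _ : ι => μ) ≤
      B.card * (CL lam p * (Measure.pi fun _ : ι => μ) Bd) := by
  have hone : ∀ b ∈ B, ∫⁻ ω in Bd, gg A ζ p a b (vl (mv L t ω)) ∂(Measure.pi fun _ : ι => μ) ≤
      CL lam p * (Measure.pi fun _ : ι => μ) Bd := by
    intro b hb
    have h1 := hLaw.two_avg (hyp_unif hlam hp hp4) A hA hζ ha (hB b hb) t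
      (Φ := Bd.indicator fun _ => 1) (measurable_const.indicator hBd) (fun ω ω' h => by
        have e : ω' = update (update ω a (ω' a)) b (ω' b) := by
          funext x
          by_cases hxb : x = b
          · subst hxb
            rw [update_self]
          · rw [update_of_ne hxb]
            by_cases hxa : x = a
            · subst hxa
              rw [update_self]
            · rw [update_of_ne hxa]
              exact (h x hxa hxb).symm
        have e2 : ω' ∈ Bd ↔ ω ∈ Bd := by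
          rw [e]
          exact (hIB b hb _ _).trans (hIa _ _)
        by_cases h' : ω ∈ Bd
        · rw [Set.indicator_of_mem h', Set.indicator_of_mem (e2.2 h')]
        · rw [Set.indicator_of_notMem h', Set.indicator_of_notMem fun h'' => h' (e2.1 h'')])
    rw [lintegral_indicator hBd, lintegral_const, Measure.restrict_apply_univ, one_mul] at h1
    refine le_trans (le_of_eq ?_) h1
    rw [← lintegral_indicator hBd]
    refine lintegral_congr fun ω => ?_
    by_cases h : ω ∈ Bd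
    · rw [Set.indicator_of_mem h, Set.indicator_of_mem h, one_mul]
    · rw [Set.indicator_of_notMem h, Set.indicator_of_notMem h, zero_mul]
  have hmb : ∀ b, Measurable fun ω : ι → SV => gg A ζ p a b (vl (mv L t ω)) := by
    intro b
    have h0 : Measurable fun v : ι → ℝ => gg A ζ p a b v := measurable_gg p a b
    exact h0.comp (measurable_vl.comp (measurable_mv L t))
  calc ∫⁻ ω in Bd, MP A ζ (0 : ι → ℝ) p {a} B (mv L t ω) ∂(Measure.pi fun _ : ι => μ)
      ≤ ∫⁻ ω in Bd, ∑ b ∈ B, gg A ζ p a b (vl (mv L t ω)) ∂(Measure.pi fun _ : ι => μ) := by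
        refine lintegral_mono fun ω => ?_
        have := MP_real (A := A) (ζ := ζ) (ω := mv L t ω) hp (by linarith) (S := {a}) (B := B)
        rwa [Finset.sum_singleton] at this
    _ = ∑ b ∈ B, ∫⁻ ω in Bd, gg A ζ p a b (vl (mv L t ω)) ∂(Measure.pi fun _ : ι => μ) :=
        lintegral_finset_sum _ fun b _ => hmb b
    _ ≤ ∑ b ∈ B, CL lam p * (Measure.pi fun _ : ι => μ) Bd := Finset.sum_le_sum hone
    _ = _ := by rw [Finset.sum_const, nsmul_eq_mul]

end P365CUL
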