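import Vale.Agent.P365.CUL841.Tor740
import Vale.Agent.P365.CUL841.Est841
import Vale.Agent.P365.CUL841.Cut660

set_option linter.all false

/-!
# P365 / CUL841 / Chain740: the chain of ring steps, label version, additive bad events.
-/

namespace P365CUL

open MeasureTheory ProbabilityTheory Complex Matrix Function P365S6
open P365L hiding cut
open P365L.Comp P365X P365CU
open scoped ENNReal Real

/-! ### independence -/

section indep

variable {ι : Type*} [Fintype ι] [DecidableEq ι] {A A' : Matrix ι ι ℝ} {p : ℝ} {ζ : ℂ}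
  {κ κ' : ι → ℝ} {ω ω' : ι → SV}

/-- a function of the variables in `R` -/
def DepS (R : Finset ι) (f : (ι → SV) → ℝ≥0∞) : Prop :=
  ∀ ω ω' : ι → SV, (∀ x ∈ R, ω x = ω' x) → f ω = f ω'

/-- independence -/
theorem lint_indep {μ : Measure SV} [IsProbabilityMeasure μ] {R R' : Finset ι}
    (hR : ∀ x, x ∈ R' → x ∉ R) {f g : (ι → SV) → ℝ≥0∞} (hf : Measurable f) (hg : Measurable g)
    (hfR : DepS R f) (hgR : DepS R' g) :
    ∫⁻ ω, f ω * g ω ∂(Measure.pi fun _ : ι => μ) =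
      (∫⁻ ω, f ω ∂(Measure.pi fun _ : ι => μ)) * ∫⁻ ω, g ω ∂(Measure.pi fun _ : ι => μ) := by
  have hfg : Measurable fun ω => g ω * f ω := hg.mul hf
  have h0 : ∫⁻ ω, f ω * g ω ∂(Measure.pi fun _ : ι => μ) =
      ∫⁻ ω, g ω * f ω ∂(Measure.pi fun _ : ι => μ) := lintegral_congr fun ω => mul_comm _ _
  rw [h0, ← lint_lmarg μ R hfg]
  have h1 : ∀ ω, (∫⋯∫⁻_R, (fun ω => g ω * f ω) ∂fun _ => μ) ω =
      g ω * (∫⋯∫⁻_R, f ∂fun _ => μ) ω := fun ω => lmarg_mul_const μ R hf ω fun ω' hω' =>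
        hgR _ _ fun x hx => hω' x (hR x hx)
  have h2 : ∀ ω ω' : ι → SV, (∫⋯∫⁻_R, f ∂fun _ => μ) ω = (∫⋯∫⁻_R, f ∂fun _ => μ) ω' := by
    intro ω ω'
    unfold lmarginal
    refine lintegral_congr fun y => hfR _ _ fun x hx => ?_
    rw [updateFinset, updateFinset, dif_pos hx, dif_pos hx]
  have h3 : ∀ ω, (∫⋯∫⁻_R, f ∂fun _ => μ) ω = ∫⁻ ω, f ω ∂(Measure.pi fun _ : ι => μ) := by
    intro ω
    rw [← lint_lmarg μ R hf]
    have : ∀ ω', (∫⋯∫⁻_R, f ∂fun _ => μ) ω' = (∫⋯∫⁻_R, f ∂fun _ => μ) ω := fun ω' => h2 ω' ω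
    simp only [this]
    simp
  simp only [h1, h3]
  rw [lintegral_mul_const _ hg, mul_comm]

theorem MM_blk (hA : A.IsSymm) (hA' : A'.IsSymm) (hζ : 0 < ζ.im) (hκ : ∀ x, 0 ≤ κ x)
    (hκ' : ∀ x, 0 ≤ κ' x) {R : Finset ι}
    (hD : Dec A fun x => x ∈ R) (hD' : Dec A' fun x => x ∈ R)
    (hAA : ∀ x ∈ R, ∀ y ∈ R, A x y = A' x y) (hκκ : ∀ x ∈ R, κ x = κ' x)
    (hvv : ∀ x ∈ R, ω x = ω' x) {S B : Finset ι} (hS : S ⊆ R) (hB : B ⊆ R) :
    MM A ζ κ S B ω = MM A' ζ κ' S B ω' := by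
  have hW : ∀ x ∈ R, WL ζ κ ω x = WL ζ κ' ω' x := by
    intro x hx
    unfold WL
    rw [hκκ x hx, hvv x hx]
  have hd : ∀ x ∈ R, dL κ ω x = dL κ' ω' x := by
    intro x hx
    unfold dL
    rw [hκκ x hx, hvv x hx]
  unfold MM bl
  refine Finset.sum_congr rfl fun a ha => Finset.sum_congr rfl fun b hb => ?_
  beta_reduce
  rw [hd a (hS ha), hd b (hB hb), Gr_blk hA hA' (WL_neg hζ hκ) (WL_neg hζ hκ') hD hD' hAA hW
    (hS ha) (hB hb)]

theorem MP_blk (hA : A.IsSymm) (hA' : A'.IsSymm) (hζ : 0 < ζ.im) (hκ : ∀ x, 0 ≤ κ x)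
    (hκ' : ∀ x, 0 ≤ κ' x) {R : Finset ι}
    (hD : Dec A fun x => x ∈ R) (hD' : Dec A' fun x => x ∈ R)
    (hAA : ∀ x ∈ R, ∀ y ∈ R, A x y = A' x y) (hκκ : ∀ x ∈ R, κ x = κ' x)
    (hvv : ∀ x ∈ R, ω x = ω' x) {S B : Finset ι} (hS : S ⊆ R) (hB : B ⊆ R) :
    MP A ζ κ p S B ω = MP A' ζ κ' p S B ω' := by
  unfold MP
  rw [MM_blk hA hA' hζ hκ hκ' hD hD' hAA hκκ hvv hS hB]

theorem MP_dep (hA : A.IsSymm) (hζ : 0 < ζ.im) (hκ : ∀ x, 0 ≤ κ x) {R : Finset ι}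
    (hD : Dec A fun x => x ∈ R) {S B : Finset ι} (hS : S ⊆ R) (hB : B ⊆ R) :
    DepS R (MP A ζ κ p S B) := fun ω ω' hv =>
  MP_blk hA hA hζ hκ hκ hD hD (fun _ _ _ _ => rfl) (fun _ _ => rfl) hv hS hB

end indep

/-! ### the rings -/

variable {X : Finset Site} {lam w C c p : ℝ} {ζ : ℂ} {μ : Measure SV} [IsProbabilityMeasure μ]
  {r : ℝ → ℝ → ℝ}

/-- the bad label event of the ring `m` -/
def BdR (X : Finset Site) (m : ℕ) : Set (X → SV) :=
  {ω | BadL X (2 * m) m (fun x => (ω x).1 = true)} ∪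
    {ω | BadL X (3 * m) m (fun x => (ω x).1 = true)}

theorem meas_BdR (X : Finset Site) (m : ℕ) : MeasurableSet (BdR X m) :=
  meas_BadL.union meas_BadL

/-- the bound for its probability -/
noncomputable def bP (m : ℕ) : ℝ := (40 * m + 16) * (1 / 2) ^ m

theorem prob_BdR (h : LawP lam w C μ r) {m : ℕ} (hm : 8 ≤ m) :
    (Measure.pi fun _ : X => μ) (BdR X m) ≤ ENNReal.ofReal (bP m) := by
  refine (measure_union_le _ _).trans ((add_le_add (prob_BadL h hm) (prob_BadL h hm)).trans ?_)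
  rw [← ENNReal.ofReal_add (by positivity) (by positivity)]
  refine ENNReal.ofReal_le_ofReal (le_of_eq ?_)
  unfold bP
  push_cast
  ring

theorem indep_BadL {R m : ℕ} (hm : 0 < m) {a : X} (ha : nz (a : Site) < R ∨ R + m ≤ nz (a : Site))
    (ω : X → SV) (s : SV) : BadL X R m (fun x => (update ω a s x).1 = true) ↔
      BadL X R m (fun x => (ω x).1 = true) := by
  refine BadL_congr hm fun x h1 h2 => ?_
  rw [update_of_ne]
  rintro rfl
  omega

theorem indep_BdR {m : ℕ} (hm : 0 < m) {a : X} (ha : nz (a : Site) < 2 * m ∨ 4 * m ≤ nz (a : Site)) :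
    Indep (BdR X m) a := by
  intro ω s
  unfold BdR
  simp only [Set.mem_union, Set.mem_setOf_eq]
  rw [indep_BadL hm (by omega), indep_BadL hm (by omega)]

theorem prI_nonneg (hc : 0 < c) {m : ℕ} (x : X) : 0 ≤ prI X c m x := by
  unfold prI
  split_ifs
  · positivity
  · exact le_rfl

theorem prO_nonneg (hc : 0 < c) {m : ℕ} (x : X) : 0 ≤ prO X c m x := by
  unfold prO
  split_ifs
  · positivity
  · exact le_rfl

theorem prX_nn740 (hc : 0 < c) {m : ℕ} (x : X) : 0 ≤ prX X c m x := by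
  unfold prX
  split_ifs
  · positivity
  · positivity
  · exact le_rfl

/-- from the root to the inner contact of the ring `m` -/
noncomputable def Zin (μ : Measure SV) (X : Finset Site) (c p : ℝ) (ζ : ℂ) (S : Finset X)
    (m : ℕ) : ℝ≥0∞ :=
  ∫⁻ ω, MP (cut (AF X) (inn X (3 * m))) ζ (prI X c m) p S (sl X (2 * m) (3 * m)) ω
    ∂(Measure.pi fun _ : X => μ)

/-- from the outer contact of the ring `m` to the target -/
noncomputable def Zout (μ : Measure SV) (X : Finset Site) (c p : ℝ) (ζ : ℂ) (B : Finset X)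
    (m : ℕ) : ℝ≥0∞ :=
  ∫⁻ ω, MP (cut (AF X) (inn X (3 * m))) ζ (prO X c m) p (sl X (3 * m) (4 * m)) B ω
    ∂(Measure.pi fun _ : X => μ)

/-- the cut-offs of a ring, off the bad event -/
theorem ring_co {m : ℕ} (hm : 8 ≤ m) (hc : 0 < c) {A : Matrix X X ℝ}
    (hA : ∀ x y, |A x y| ≤ adj x y) {κ : X → ℝ} {ω : X → SV} (hω : ω ∉ BdR X m) {S B : Finset X}
    (hS : ∀ x ∈ S, nz (x : Site) < 2 * m) (hB : ∀ x ∈ B, 4 * m ≤ nz (x : Site)) :
    ∃ χ χ' : X → ℝ,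
      CO (scA (dQ (swOn κ (sl X (2 * m) (4 * m)) (c / m)) ω) A) (inn X (3 * m))
        ((sl X (2 * m) (3 * m)).filter fun x => (ω x).1 = true) χ (32 / c) ∧
      CO (scA (dQ (swOn κ (sl X (2 * m) (4 * m)) (c / m)) ω) A) (out X (3 * m))
        ((sl X (3 * m) (4 * m)).filter fun x => (ω x).1 = true) χ' (32 / c) ∧
      (∀ a ∈ S, χ a = 1) ∧ (∀ b ∈ B, χ' b = 1) ∧ (∀ b ∈ B, χ b = 0) := by
  have hm0 : 0 < m := by omega
  have hm' : (0 : ℝ) < m := by exact_mod_cast hm0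
  have hκ0 : 0 < c / m := by positivity
  unfold BdR at hω
  simp only [Set.mem_union, Set.mem_setOf_eq, not_or] at hω
  obtain ⟨χ, h1⟩ := cut_exists hm hω.1
  obtain ⟨χ', h2⟩ := cut_exists hm hω.2
  have hsw : ∀ x ∈ sl X (2 * m) (4 * m), swOn κ (sl X (2 * m) (4 * m)) (c / m) x = c / m := by
    intro x hx
    unfold swOn
    rw [if_pos hx]
  refine ⟨χ, fun x => 1 - χ' x, ?_, ?_, fun a ha => h1.one a (hS a ha).le, fun b hb => ?_,
    fun b hb => ?_⟩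
  · rw [← const_eq (c := c) hm0]
    refine h1.co_in hm0 hA hκ0 (fun x hx => hsw x ?_) (fun x => ?_) fun x => ?_
    · rw [mem_sl] at hx ⊢
      omega
    · rw [mem_sl]
      omega
    · rw [mem_inn]
      omega
  · rw [← const_eq (c := c) hm0]
    refine h2.co_out hm0 hA hκ0 (fun x hx => hsw x ?_) (fun x => ?_) fun x => ?_
    · rw [mem_sl] at hx ⊢
      omega
    · rw [mem_sl]
      omega
    · rw [mem_out]
  · have := hB b hb
    simp only
    rw [h2.zero b (by omega), sub_zero]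
  · have := hB b hb
    exact h1.zero b (by omega)

theorem S_inn {m : ℕ} (hm : 0 < m) {S : Finset X} (hS : ∀ x ∈ S, nz (x : Site) < 2 * m) :
    S ⊆ inn X (3 * m) := fun x hx => by
  rw [mem_inn]
  have := hS x hx
  omega

theorem sl_inn (X : Finset Site) (m : ℕ) : sl X (2 * m) (3 * m) ⊆ inn X (3 * m) := fun x hx => by
  rw [mem_sl] at hx
  rw [mem_inn]
  omega

theorem sl_out (X : Finset Site) (m : ℕ) : sl X (3 * m) (4 * m) ⊆ out X (3 * m) := fun x hx => by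
  rw [mem_sl] at hx
  rw [mem_out]
  omega

theorem sl_out' (X : Finset Site) (m : ℕ) : sl X (8 * m) (12 * m) ⊆ out X (3 * m) := fun x hx => by
  rw [mem_sl] at hx
  rw [mem_out]
  omega

theorem B_out {m : ℕ} {B : Finset X} (hB : ∀ x ∈ B, 4 * m ≤ nz (x : Site)) :
    B ⊆ out X (3 * m) := fun x hx => by
  rw [mem_out]
  have := hB x hx
  omega

/-- the two factors are independent -/
theorem split_fac {m : ℕ} (hζ : 0 < ζ.im) {A2 : Matrix X X ℝ} (hA2s : A2.IsSymm)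
    (hD2 : Dec A2 fun x => x ∈ inn X (3 * m)) {κs : X → ℝ} (hκs : ∀ x, 0 ≤ κs x)
    {S B N N' : Finset X} (hSi : S ⊆ inn X (3 * m)) (hNi : N ⊆ inn X (3 * m))
    (hNo : N' ⊆ out X (3 * m)) (hBo : B ⊆ out X (3 * m)) :
    ∫⁻ ω, MP A2 ζ κs p S N ω * MP A2 ζ κs p N' B ω ∂(Measure.pi fun _ : X => μ) =
      (∫⁻ ω, MP A2 ζ κs p S N ω ∂(Measure.pi fun _ : X => μ)) *
        ∫⁻ ω, MP A2 ζ κs p N' B ω ∂(Measure.pi fun _ : X => μ) := by
  have hD3 : Dec A2 fun x => x ∈ out X (3 * m) := dec_compl (fun x => by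
    rw [mem_out, mem_inn]
    omega) hD2
  exact lint_indep (μ := μ) (R := inn X (3 * m)) (R' := out X (3 * m)) (fun x hx => by
    rw [mem_out] at hx
    rw [mem_inn]
    omega)
    (f := MP A2 ζ κs p S N) (g := MP A2 ζ κs p N' B)
    (measurable_MP _ _) (measurable_MP _ _) (MP_dep hA2s hζ hκs hD2 hSi hNi)
    (MP_dep hA2s hζ hκs hD3 hNo hBo)

/-- the inner factor -/
theorem fac_in {m : ℕ} (hm : 0 < m) (hc : 0 < c) (hζ : 0 < ζ.im) {A2 : Matrix X X ℝ}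
    (hA2s : A2.IsSymm) (hD2 : Dec A2 fun x => x ∈ inn X (3 * m))
    (hAA : ∀ x ∈ inn X (3 * m), ∀ y ∈ inn X (3 * m), A2 x y = AF X x y) {κ : X → ℝ}
    (hκ : ∀ x, 0 ≤ κ x) (hκi : ∀ x ∈ inn X (2 * m), κ x = 0) {S : Finset X}
    (hS : ∀ x ∈ S, nz (x : Site) < 2 * m) (ω : X → SV) :
    MP A2 ζ (swOn κ (sl X (2 * m) (4 * m)) (c / m)) p S (sl X (2 * m) (3 * m)) ω =
      MP (cut (AF X) (inn X (3 * m))) ζ (prI X c m) p S (sl X (2 * m) (3 * m)) ω := by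
  have hm' : (0 : ℝ) < m := by exact_mod_cast hm
  have hcm0 : 0 < c / m := by positivity
  refine MP_blk (R := inn X (3 * m)) hA2s (cut_symm (AF_symm X) _) hζ (swOn_nonneg hcm0 hκ)
    (prI_nonneg hc) hD2 (cut_dec _ _) (fun x hx y hy => ?_) (fun x hx => ?_) (fun _ _ => rfl)
    (S_inn hm hS) (sl_inn X m)
  · rw [hAA x hx y hy]
    unfold P365L.Comp.cut
    rw [if_pos (iff_of_true hx hy)]
  · unfold swOn prI
    rw [mem_inn] at hx
    simp only [mem_sl]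
    by_cases h1 : 2 * m ≤ nz (x : Site)
    · rw [if_pos (by omega), if_pos (by omega)]
    · rw [if_neg (by omega), if_neg (by omega)]
      exact hκi x (by rw [mem_inn]; omega)

/-- the outer factor of the gap -/
theorem fac_gap {m : ℕ} (hm : 0 < m) (hc : 0 < c) (hζ : 0 < ζ.im) {A2 : Matrix X X ℝ}
    (hA2s : A2.IsSymm) (hD2 : Dec A2 fun x => x ∈ inn X (3 * m)) (ω : X → SV) :
    MP A2 ζ (swOn (prI X c (4 * m)) (sl X (2 * m) (4 * m)) (c / m)) p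
      (sl X (3 * m) (4 * m)) (sl X (8 * m) (12 * m)) ω = MP A2 ζ (prX X c m) p
      (sl X (3 * m) (4 * m)) (sl X (8 * m) (12 * m)) ω := by
  have hm' : (0 : ℝ) < m := by exact_mod_cast hm
  have hcm0 : 0 < c / m := by positivity
  have hD3 : Dec A2 fun x => x ∈ out X (3 * m) := dec_compl (fun x => by
    rw [mem_out, mem_inn]
    omega) hD2
  refine MP_blk (R := out X (3 * m)) hA2s hA2s hζ (swOn_nonneg hcm0 (prI_nonneg hc))
    (prX_nn740 hc) hD3 hD3 (fun x hx y hy => rfl) (fun x hx => ?_) (fun _ _ => rfl)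
    (sl_out X m) (sl_out' X m)
  unfold swOn prI prX
  rw [mem_out] at hx
  simp only [mem_sl]
  by_cases h1 : nz (x : Site) < 4 * m
  · rw [if_pos (by omega), if_pos (by omega)]
  · by_cases h2 : 8 * m ≤ nz (x : Site) ∧ nz (x : Site) < 12 * m
    · rw [if_neg (by omega), if_pos (by omega), if_neg (by omega), if_pos h2]
    · rw [if_neg (by omega), if_neg (by omega), if_neg (by omega), if_neg h2]

/-- the outer factor of the last step -/
theorem fac_out {m : ℕ} (hm : 0 < m) (hc : 0 < c) (hζ : 0 < ζ.im) {A2 : Matrix X X ℝ}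
    (hA2s : A2.IsSymm) (hD2 : Dec A2 fun x => x ∈ inn X (3 * m)) {B : Finset X}
    (hB : ∀ x ∈ B, 4 * m ≤ nz (x : Site)) (ω : X → SV) :
    MP A2 ζ (swOn (0 : X → ℝ) (sl X (2 * m) (4 * m)) (c / m)) p
      (sl X (3 * m) (4 * m)) B ω = MP A2 ζ (prO X c m) p (sl X (3 * m) (4 * m)) B ω := by
  have hm' : (0 : ℝ) < m := by exact_mod_cast hm
  have hcm0 : 0 < c / m := by positivity
  have hD3 : Dec A2 fun x => x ∈ out X (3 * m) := dec_compl (fun x => by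
    rw [mem_out, mem_inn]
    omega) hD2
  refine MP_blk (R := out X (3 * m)) hA2s hA2s hζ (swOn_nonneg hcm0 fun x => le_rfl)
    (prO_nonneg hc) hD3 hD3 (fun x hx y hy => rfl) (fun x hx => ?_) (fun _ _ => rfl)
    (sl_out X m) (B_out hB)
  unfold swOn prO
  rw [mem_out] at hx
  simp only [mem_sl, Pi.zero_apply]
  by_cases h1 : nz (x : Site) < 4 * m
  · rw [if_pos (by omega), if_pos (by omega)]
  · rw [if_neg (by omega), if_neg (by omega)]

/-- the ring step for a general matrix dominated by the adjacency matrix -/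
theorem step_main (hLaw : LawP lam w C μ r) (hlam : 0 < lam) (hζ : 0 < ζ.im) (hp : 0 < p)
    (hp1 : p < 1) {m : ℕ} (hm : 8 ≤ m) (hc : 0 < c) (hcw : c / m ≤ w) (hC : C * (c / m) ^ 2 < 1)
    {A : Matrix X X ℝ} (hA : A.IsSymm) (hAadj : ∀ x y, |A x y| ≤ adj x y) {κ : X → ℝ}
    (hκ : ∀ x, 0 ≤ κ x) (hκL : ∀ x ∈ sl X (2 * m) (4 * m), κ x = 0) {S B : Finset X}
    (hS : ∀ x ∈ S, nz (x : Site) < 2 * m) (hB : ∀ x ∈ B, 4 * m ≤ nz (x : Site)) {D : ℝ≥0∞}
    (hD : ∀ t, ∫⁻ ω in BdR X m, MP A ζ κ p S B (mv (sl X (2 * m) (4 * m)) t ω)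
      ∂(Measure.pi fun _ : X => μ) ≤ D) :
    ∫⁻ ω, MP A ζ κ p S B ω ∂(Measure.pi fun _ : X => μ) ≤
      ENNReal.ofReal (CRL p C (c / m) (sl X (2 * m) (4 * m)).card) *
        (ENNReal.ofReal ((1 + 32 / c) ^ p * (1 + 32 / c) ^ p) *
          ∫⁻ ω, (MP (cut A (inn X (3 * m))) ζ (swOn κ (sl X (2 * m) (4 * m)) (c / m)) p S
            (sl X (2 * m) (3 * m)) ω *
            MP (cut A (inn X (3 * m))) ζ (swOn κ (sl X (2 * m) (4 * m)) (c / m)) p
            (sl X (3 * m) (4 * m)) B ω) ∂(Measure.pi fun _ : X => μ) + D) := by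
  have hm0 : 0 < m := by omega
  have hm' : (0 : ℝ) < m := by exact_mod_cast hm0
  have hcm0 : 0 < c / m := by positivity
  have hk0 : (0 : ℝ) ≤ 32 / c := by positivity
  refine hLaw.ring_exp hlam hA hζ hp hp1 hκ hcm0 hcw hC hκL
    (fun x hx => ?_) (fun x hx => ?_) (R' := out X (3 * m)) (fun x => ?_) (fun x => ?_)
    hk0 hk0 (meas_BdR X m) (fun ω hω => ring_co hm hc hAadj hω hS hB) (fun t _ => hD t)
  · rw [mem_sl]
    have := hS x hx
    omega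
  · rw [mem_sl]
    have := hB x hx
    omega
  · rw [mem_out, mem_inn]
    omega
  · rw [mem_sl, mem_sl, mem_sl]
    omega

/-- THE CHAIN STEP -/
theorem chain_step (hLaw : LawP lam w C μ r) (hlam : 0 < lam) (hζ : 0 < ζ.im) (hp : 0 < p)
    (hp1 : p < 1) {m : ℕ} (hm : 8 ≤ m) (hc : 0 < c) (hcw : c / m ≤ w) (hC : C * (c / m) ^ 2 < 1)
    {S : Finset X} (hS : ∀ x ∈ S, nz (x : Site) < 2 * m) {D : ℝ≥0∞}
    (hD : ∀ t, ∫⁻ ω in BdR X m, MP (cut (AF X) (inn X (12 * m))) ζ (prI X c (4 * m)) p S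
      (sl X (8 * m) (12 * m)) (mv (sl X (2 * m) (4 * m)) t ω) ∂(Measure.pi fun _ : X => μ) ≤ D) :
    Zin μ X c p ζ S (4 * m) ≤
      ENNReal.ofReal (CRL p C (c / m) (sl X (2 * m) (4 * m)).card) *
        (ENNReal.ofReal ((1 + 32 / c) ^ p * (1 + 32 / c) ^ p) *
          (Zin μ X c p ζ S m * TX μ X c p ζ m) + D) := by
  have hm0 : 0 < m := by omega
  have hm' : (0 : ℝ) < m := by exact_mod_cast hm0
  have hcm0 : 0 < c / m := by positivity
  have hA : (cut (AF X) (inn X (12 * m))).IsSymm := cut_symm (AF_symm X) _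
  have hκ : ∀ x, 0 ≤ prI X c (4 * m) x := prI_nonneg hc
  have hκL : ∀ x ∈ sl X (2 * m) (4 * m), prI X c (4 * m) x = 0 := fun x hx => by
    rw [mem_sl] at hx
    unfold prI
    rw [if_neg]
    rw [mem_sl]
    omega
  have hBo : ∀ x ∈ sl X (8 * m) (12 * m), 4 * m ≤ nz (x : Site) := fun x hx => by
    rw [mem_sl] at hx
    omega
  have hmain := step_main hLaw hlam hζ hp hp1 hm hc hcw hC hA
    (fun x y => abs_cut_le abs_AF_le _ x y) hκ hκL hS hBo hD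
  have hZ : Zin μ X c p ζ S (4 * m) = ∫⁻ ω, MP (cut (AF X) (inn X (12 * m))) ζ
      (prI X c (4 * m)) p S (sl X (8 * m) (12 * m)) ω ∂(Measure.pi fun _ : X => μ) := by
    unfold Zin
    rw [show 3 * (4 * m) = 12 * m by ring, show 2 * (4 * m) = 8 * m by ring]
  rw [hZ]
  refine hmain.trans (mul_le_mul' le_rfl (add_le_add (mul_le_mul' le_rfl (le_of_eq ?_)) le_rfl))
  obtain ⟨A2, hA2⟩ : ∃ A2 : Matrix X X ℝ,
    A2 = cut (cut (AF X) (inn X (12 * m))) (inn X (3 * m)) := ⟨_, rfl⟩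
  have hA2s : A2.IsSymm := by
    rw [hA2]
    exact cut_symm hA _
  have hD2 : Dec A2 fun x => x ∈ inn X (3 * m) := by
    rw [hA2]
    exact cut_dec _ _
  rw [← hA2, split_fac hζ hA2s hD2 (swOn_nonneg hcm0 hκ) (S_inn hm0 hS) (sl_inn X m) (sl_out X m)
    (sl_out' X m)]
  have f1 : ∀ x ∈ inn X (3 * m), ∀ y ∈ inn X (3 * m), A2 x y = AF X x y := by
    intro x hx y hy
    rw [hA2]
    unfold P365L.Comp.cut
    rw [if_pos (iff_of_true hx hy)]
    rw [mem_inn] at hx hy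
    rw [if_pos (by rw [mem_inn, mem_inn]; omega)]
  have f2 : ∀ x ∈ inn X (2 * m), prI X c (4 * m) x = 0 := by
    intro x hx
    rw [mem_inn] at hx
    unfold prI
    rw [if_neg]
    rw [mem_sl]
    omega
  have g1 : ∫⁻ ω, MP A2 ζ (swOn (prI X c (4 * m)) (sl X (2 * m) (4 * m)) (c / m)) p S
      (sl X (2 * m) (3 * m)) ω ∂(Measure.pi fun _ : X => μ) = Zin μ X c p ζ S m := by
    unfold Zin
    exact lintegral_congr fun ω => fac_in hm0 hc hζ hA2s hD2 f1 hκ f2 hS ω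
  have g2 : ∫⁻ ω, MP A2 ζ (swOn (prI X c (4 * m)) (sl X (2 * m) (4 * m)) (c / m)) p
      (sl X (3 * m) (4 * m)) (sl X (8 * m) (12 * m)) ω ∂(Measure.pi fun _ : X => μ) =
      TX μ X c p ζ m := by
    unfold TX
    rw [← hA2]
    exact lintegral_congr fun ω => fac_gap hm0 hc hζ hA2s hD2 ω
  rw [g1, g2]

/-- THE LAST STEP: from the full operator -/
theorem chain_end (hLaw : LawP lam w C μ r) (hlam : 0 < lam) (hζ : 0 < ζ.im) (hp : 0 < p)
    (hp1 : p < 1) {m : ℕ} (hm : 8 ≤ m) (hc : 0 < c) (hcw : c / m ≤ w) (hC : C * (c / m) ^ 2 < 1)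
    {S B : Finset X} (hS : ∀ x ∈ S, nz (x : Site) < 2 * m) (hB : ∀ x ∈ B, 4 * m ≤ nz (x : Site))
    {D : ℝ≥0∞}
    (hD : ∀ t, ∫⁻ ω in BdR X m, MP (AF X) ζ (0 : X → ℝ) p S B (mv (sl X (2 * m) (4 * m)) t ω)
      ∂(Measure.pi fun _ : X => μ) ≤ D) :
    ∫⁻ ω, MP (AF X) ζ (0 : X → ℝ) p S B ω ∂(Measure.pi fun _ : X => μ) ≤
      ENNReal.ofReal (CRL p C (c / m) (sl X (2 * m) (4 * m)).card) *
        (ENNReal.ofReal ((1 + 32 / c) ^ p * (1 + 32 / c) ^ p) *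
          (Zin μ X c p ζ S m * Zout μ X c p ζ B m) + D) := by
  have hm0 : 0 < m := by omega
  have hm' : (0 : ℝ) < m := by exact_mod_cast hm0
  have hcm0 : 0 < c / m := by positivity
  have hκ : ∀ x, 0 ≤ (0 : X → ℝ) x := fun x => le_rfl
  have hmain := step_main hLaw hlam hζ hp hp1 hm hc hcw hC (AF_symm X) abs_AF_le hκ
    (fun _ _ => rfl) hS hB hD
  refine hmain.trans (mul_le_mul' le_rfl (add_le_add (mul_le_mul' le_rfl (le_of_eq ?_)) le_rfl))
  obtain ⟨A2, hA2⟩ : ∃ A2 : Matrix X X ℝ, A2 = cut (AF X) (inn X (3 * m)) := ⟨_, rfl⟩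
  have hA2s : A2.IsSymm := by
    rw [hA2]
    exact cut_symm (AF_symm X) _
  have hD2 : Dec A2 fun x => x ∈ inn X (3 * m) := by
    rw [hA2]
    exact cut_dec _ _
  rw [← hA2, split_fac hζ hA2s hD2 (swOn_nonneg hcm0 hκ) (S_inn hm0 hS) (sl_inn X m) (sl_out X m)
    (B_out hB)]
  have f1 : ∀ x ∈ inn X (3 * m), ∀ y ∈ inn X (3 * m), A2 x y = AF X x y := by
    intro x hx y hy
    rw [hA2]
    unfold P365L.Comp.cut
    rw [if_pos (iff_of_true hx hy)]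
  have g1 : ∫⁻ ω, MP A2 ζ (swOn (0 : X → ℝ) (sl X (2 * m) (4 * m)) (c / m)) p S
      (sl X (2 * m) (3 * m)) ω ∂(Measure.pi fun _ : X => μ) = Zin μ X c p ζ S m := by
    unfold Zin
    exact lintegral_congr fun ω => fac_in hm0 hc hζ hA2s hD2 f1 hκ (fun _ _ => rfl) hS ω
  have g2 : ∫⁻ ω, MP A2 ζ (swOn (0 : X → ℝ) (sl X (2 * m) (4 * m)) (c / m)) p
      (sl X (3 * m) (4 * m)) B ω ∂(Measure.pi fun _ : X => μ) = Zout μ X c p ζ B m := by
    unfold Zout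
    refine lintegral_congr fun ω => ?_
    rw [fac_out hm0 hc hζ hA2s hD2 hB, hA2]
  rw [g1, g2]

end P365CUL
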