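import Vale.Agent.P365.CUL841.Cut660
import Vale.Agent.P365.T2.H694.Geo

set_option linter.all false

/-!
# P365 / CUL841 / CutT660: the first passage cut-off with label defects on the torus.

`nzT N y` = the half-open norm `nz` of the representative `lft (N / 2) y` of `y`.
Same statements as `Cut660` with `X → Tor N`, `adj → AT N`, `nz → nzT N`.
-/

namespace P365CUL

open MeasureTheory ProbabilityTheory Complex Matrix Function P365S6
open P365L P365L.Comp P365X P365CU P365T2.H694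
open scoped ENNReal Real

section geoT

variable {N : ℕ} [NeZero N]

/-- half-open norm on the torus -/
def nzT (N : ℕ) (y : Tor N) : ℕ := nz (lft (N / 2) y)

theorem nzT_eq (y : Tor N) : nzT N y = nz (lft (N / 2) y) := rfl

theorem val_succ (a : ZMod N) : (a + 1).val = if a.val + 1 = N then 0 else a.val + 1 := by
  have ha : a.val < N := ZMod.val_lt a
  have h1 : (a + 1).val = (a.val + 1) % N := by
    rw [ZMod.val_add, ZMod.val_one_eq_one_mod, Nat.add_mod_mod]
  rw [h1]
  split_ifs with h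
  · rw [h, Nat.mod_self]
  · exact Nat.mod_eq_of_lt (by omega)

theorem hz_succ (a : ZMod N) :
    hz (((a + 1).val : ℤ) - (N / 2 : ℕ)) ≤ hz ((a.val : ℤ) - (N / 2 : ℕ)) + 1 ∧
      hz ((a.val : ℤ) - (N / 2 : ℕ)) ≤ hz (((a + 1).val : ℤ) - (N / 2 : ℕ)) + 1 := by
  have ha : a.val < N := ZMod.val_lt a
  rw [val_succ]
  obtain ⟨K, hK⟩ : ∃ K, K = N / 2 := ⟨_, rfl⟩
  have h2 : 2 * K ≤ N ∧ N ≤ 2 * K + 1 := by omega
  rw [← hK]
  split_ifs with h
  · unfold hz
    constructor
    · split_ifs <;> omega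
    · split_ifs <;> omega
  · unfold hz
    push_cast
    constructor
    · split_ifs <;> omega
    · split_ifs <;> omega

theorem AT_cases {x y : Tor N} (h : AT N x y ≠ 0) :
    (y.1 = x.1 + 1 ∧ y.2 = x.2) ∨ (x.1 = y.1 + 1 ∧ y.2 = x.2) ∨
      (y.1 = x.1 ∧ y.2 = x.2 + 1) ∨ (y.1 = x.1 ∧ x.2 = y.2 + 1) := by
  have h1 : y - x ∈ nbs N := by
    unfold AT at h
    by_contra h2
    exact h (if_neg h2)
  unfold nbs at h1
  simp only [Finset.mem_insert, Finset.mem_singleton, Prod.ext_iff, Prod.fst_sub,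
    Prod.snd_sub] at h1
  rcases h1 with ⟨e1, e2⟩ | ⟨e1, e2⟩ | ⟨e1, e2⟩ | ⟨e1, e2⟩
  · left
    exact ⟨by rw [← e1]; ring, sub_eq_zero.1 e2⟩
  · right; left
    refine ⟨?_, sub_eq_zero.1 e2⟩
    have : y.1 = x.1 + -1 := by rw [← e1]; ring
    rw [this]
    ring
  · right; right; left
    exact ⟨sub_eq_zero.1 e1, by rw [← e2]; ring⟩
  · right; right; right
    refine ⟨sub_eq_zero.1 e1, ?_⟩
    have : y.2 = x.2 + -1 := by rw [← e2]; ring
    rw [this]
    ring

theorem nzT_step {x y : Tor N} (h : AT N x y ≠ 0) : nzT N y ≤ nzT N x + 1 ∧ nzT N x ≤ nzT N y + 1 := by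
  unfold nzT nz lft
  simp only
  rcases AT_cases h with ⟨e1, e2⟩ | ⟨e1, e2⟩ | ⟨e1, e2⟩ | ⟨e1, e2⟩
  · have h1 := hz_succ x.1
    rw [e1, e2]
    omega
  · have h1 := hz_succ y.1
    rw [e1, e2]
    omega
  · have h1 := hz_succ x.2
    rw [e1, e2]
    omega
  · have h1 := hz_succ y.2
    rw [e1, e2]
    omega

theorem lft_inj (K : ℕ) : Function.Injective (lft K : Tor N → Site) := by
  intro x y h
  rw [← emb_lft K x, ← emb_lft K y, h]

/-- the graph -/
def GT (N : ℕ) (x y : Tor N) : Prop := AT N x y ≠ 0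

theorem GT_symm {x y : Tor N} (h : GT N x y) : GT N y x := by
  unfold GT at h ⊢
  rwa [(AT_symm N).apply]

open Classical in
theorem geoT (N : ℕ) [NeZero N] : FPG.Geo (GT N) (nzT N) where
  symm := fun {x y} h => GT_symm h
  step := fun {x y} h => nzT_step h
  deg := by
    intro x
    refine le_trans (Finset.card_le_card_of_injOn (fun y => y - x) (t := nbs N) ?_ ?_)
      card_nbs_le
    · intro y hy
      have h := (Finset.mem_filter.1 hy).2
      unfold GT AT at h
      by_contra h2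
      exact h (if_neg h2)
    · intro y _ z _ h
      exact sub_left_injective h
  shell := by
    intro R
    refine le_trans (Finset.card_le_card_of_injOn (fun y => lft (N / 2) y) (t := NS R) ?_ ?_)
      (card_NS R)
    · intro y hy
      exact mem_NS.2 (Finset.mem_filter.1 hy).2
    · intro y _ z _ h
      exact lft_inj _ h

end geoT

variable {N : ℕ} [NeZero N] {R m : ℕ} {b b' : Tor N → Prop}

/-- the bad event -/
def BadT (N : ℕ) [NeZero N] (R m : ℕ) (b : Tor N → Prop) : Prop :=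
  FPG.Bad (GT N) (nzT N) R m fun x => ¬ b x

/-- a cut-off in the strip `R ≤ nzT < R + m` along good edges -/
structure CutT (N : ℕ) [NeZero N] (R m : ℕ) (b : Tor N → Prop) (χ : Tor N → ℝ) : Prop where
  one : ∀ x : Tor N, nzT N x ≤ R → χ x = 1
  zero : ∀ x : Tor N, R + m ≤ nzT N x + 1 → χ x = 0
  nonneg : ∀ x, 0 ≤ χ x
  le_one : ∀ x, χ x ≤ 1
  lip : ∀ x y : Tor N, AT N x y ≠ 0 → χ x ≠ χ y →
    (R ≤ nzT N x ∧ nzT N x < R + m) ∧ (R ≤ nzT N y ∧ nzT N y < R + m) ∧ b x ∧ b y ∧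
      |χ x - χ y| ≤ 8 / m

theorem cutT_exists (hm : 8 ≤ m) (h : ¬ BadT N R m b) : ∃ χ, CutT N R m b χ := by
  refine ⟨FPG.chi (GT N) (nzT N) R m fun x => ¬ b x, ⟨fun x hx => FPG.chi_one hx,
    fun x hx => FPG.chi_far (geoT N) hm hx, fun x => (FPG.chi_mem hm x).1,
    fun x => (FPG.chi_mem hm x).2, ?_⟩⟩
  intro x y ha hne
  obtain ⟨h1, h2, h3, h4, h5⟩ := FPG.chi_lip (geoT N) hm h ha hne
  exact ⟨h1, h2, not_not.1 h3, not_not.1 h4, h5⟩

theorem BadT_dep (hm : 0 < m)
    (h : ∀ x : Tor N, R ≤ nzT N x → nzT N x < R + m → (b x ↔ b' x)) :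
    BadT N R m b → BadT N R m b' :=
  FPG.bad_mono hm fun x h1 h2 h3 h4 => h3 ((h x h1 h2).2 h4)

theorem BadT_congr (hm : 0 < m)
    (h : ∀ x : Tor N, R ≤ nzT N x → nzT N x < R + m → (b x ↔ b' x)) :
    BadT N R m b ↔ BadT N R m b' :=
  ⟨BadT_dep hm h, BadT_dep hm fun x h1 h2 => (h x h1 h2).symm⟩

theorem meas_BadT : MeasurableSet {ω : Tor N → SV | BadT N R m (fun x => (ω x).1 = true)} :=
  FPG.meas_bad (D0 := {a : SV | ¬ a.1 = true}) measurableSet_rest

theorem prob_BadT {lam w C : ℝ} {μ : Measure SV} [IsProbabilityMeasure μ] {r : ℝ → ℝ → ℝ}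
    (h : LawP lam w C μ r) (hm : 8 ≤ m) :
    (Measure.pi fun _ : Tor N => μ) {ω | BadT N R m (fun x => (ω x).1 = true)} ≤
      ENNReal.ofReal ((8 * R + 8) * (1 / 2) ^ m) := by
  refine FPG.bad_le (D0 := {a : SV | ¬ a.1 = true}) (geoT N) ?_ (by omega)
  have h1 : {a : SV | ¬ a.1 = true} = {a : SV | a.1 = false} := by
    ext a
    simp
  rw [h1]
  exact h.rest

/-! ### commutator data -/

section co

variable {ω : Tor N → SV} {A : Matrix (Tor N) (Tor N) ℝ} {κ : Tor N → ℝ} {κ0 : ℝ}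
  {χ : Tor N → ℝ} {Rs M : Finset (Tor N)}

theorem dQ_movT (hκ0 : 0 < κ0) {x : Tor N} (hx : κ x = κ0) (hb : (ω x).1 = true) :
    dQ κ ω x = Real.sqrt κ0 := by
  unfold dQ
  rw [if_neg (by rw [hx]; exact hκ0.ne'), if_pos hb, hx]

theorem CutT.row (h : CutT N R m (fun x => (ω x).1 = true) χ) (hm : 0 < m)
    (hA : ∀ x y, |A x y| ≤ AT N x y) (hκ0 : 0 < κ0) (hκ : ∀ x ∈ M, κ x = κ0) {x : Tor N}
    (hx : x ∈ M.filter fun x => (ω x).1 = true) :
    ∑ y ∈ M.filter fun x => (ω x).1 = true, |scA (dQ κ ω) A x y * (χ y - χ x)| ≤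
      32 / (m * κ0) := by
  have hm' : (0 : ℝ) < m := by exact_mod_cast hm
  have hx' := Finset.mem_filter.1 hx
  calc ∑ y ∈ M.filter fun x => (ω x).1 = true, |scA (dQ κ ω) A x y * (χ y - χ x)|
      ≤ ∑ y ∈ M.filter fun x => (ω x).1 = true, |AT N x y| * (8 / m / κ0) := by
        refine Finset.sum_le_sum fun y hy => ?_
        have hy' := Finset.mem_filter.1 hy
        have hAF : |AT N x y| = AT N x y := abs_of_nonneg (AT_nonneg _ _)
        by_cases h2 : AT N x y = 0
        · have h3 : A x y = 0 := by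
            have := hA x y
            rw [h2] at this
            exact abs_eq_zero.1 (le_antisymm this (abs_nonneg _))
          unfold scA
          rw [h3, zero_div, zero_mul, abs_zero]
          positivity
        by_cases h3 : χ x = χ y
        · rw [h3, sub_self, mul_zero, abs_zero]
          positivity
        · have h4 := (h.lip x y h2 h3).2.2.2.2
          unfold scA
          rw [dQ_movT hκ0 (hκ x hx'.1) hx'.2, dQ_movT hκ0 (hκ y hy'.1) hy'.2,
            Real.mul_self_sqrt hκ0.le, abs_mul, abs_div, abs_of_pos hκ0,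
            abs_sub_comm, hAF]
          calc |A x y| / κ0 * |χ x - χ y|
              ≤ AT N x y / κ0 * (8 / m) := by
                refine mul_le_mul ?_ h4 (abs_nonneg _) ?_
                · exact div_le_div_of_nonneg_right (hA x y) hκ0.le
                · exact div_nonneg (AT_nonneg _ _) hκ0.le
            _ = _ := by ring
    _ = (∑ y ∈ M.filter fun x => (ω x).1 = true, |AT N x y|) * (8 / m / κ0) := by
        rw [Finset.sum_mul]
    _ ≤ (∑ y, |AT N x y|) * (8 / m / κ0) := by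
        refine mul_le_mul_of_nonneg_right ?_ (by positivity)
        exact Finset.sum_le_sum_of_subset_of_nonneg (Finset.subset_univ _) fun _ _ _ =>
          abs_nonneg _
    _ ≤ 4 * (8 / m / κ0) := by
        refine mul_le_mul_of_nonneg_right ?_ (by positivity)
        refine le_trans (le_of_eq (Finset.sum_congr rfl fun y _ => abs_of_nonneg
          (AT_nonneg x y))) (row_sum_le x)
    _ = _ := by
        field_simp
        norm_num

theorem AT_of_scA (hA : ∀ x y, |A x y| ≤ AT N x y) {d : Tor N → ℝ} {x y : Tor N}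
    (h : scA d A x y ≠ 0) : AT N x y ≠ 0 := by
  intro h'
  have h1 := hA x y
  rw [h'] at h1
  have h2 : A x y = 0 := abs_eq_zero.1 (le_antisymm h1 (abs_nonneg _))
  apply h
  unfold scA
  rw [h2, zero_div]

/-- **inner cut-off**, `Rs = {nzT < R + m}` -/
theorem CutT.co_in (h : CutT N R m (fun x => (ω x).1 = true) χ) (hm : 0 < m)
    (hA : ∀ x y, |A x y| ≤ AT N x y) (hκ0 : 0 < κ0) (hκ : ∀ x ∈ M, κ x = κ0)
    (hM : ∀ x : Tor N, x ∈ M ↔ R ≤ nzT N x ∧ nzT N x < R + m)
    (hR : ∀ x : Tor N, x ∈ Rs ↔ nzT N x < R + m) :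
    CO (scA (dQ κ ω) A) Rs (M.filter fun x => (ω x).1 = true) χ (32 / (m * κ0)) where
  sub := by
    intro x hx
    rw [Finset.mem_filter, hM] at hx
    rw [hR]
    exact hx.1.2
  zero := by
    intro x hx
    rw [hR] at hx
    exact h.zero x (by omega)
  nonneg := h.nonneg
  le_one := h.le_one
  supp := by
    intro x y h2 h3
    obtain ⟨h4, h5, h6, h7, _⟩ := h.lip x y (AT_of_scA hA h2) h3
    exact ⟨Finset.mem_filter.2 ⟨(hM x).2 h4, h6⟩, Finset.mem_filter.2 ⟨(hM y).2 h5, h7⟩⟩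
  k0 := by positivity
  row := fun x hx => h.row hm hA hκ0 hκ hx

/-- **outer cut-off**, `Rs = {R ≤ nzT}` -/
theorem CutT.co_out (h : CutT N R m (fun x => (ω x).1 = true) χ) (hm : 0 < m)
    (hA : ∀ x y, |A x y| ≤ AT N x y) (hκ0 : 0 < κ0) (hκ : ∀ x ∈ M, κ x = κ0)
    (hM : ∀ x : Tor N, x ∈ M ↔ R ≤ nzT N x ∧ nzT N x < R + m)
    (hR : ∀ x : Tor N, x ∈ Rs ↔ R ≤ nzT N x) :
    CO (scA (dQ κ ω) A) Rs (M.filter fun x => (ω x).1 = true) (fun x => 1 - χ x)
      (32 / (m * κ0)) where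
  sub := by
    intro x hx
    rw [Finset.mem_filter, hM] at hx
    rw [hR]
    exact hx.1.1
  zero := by
    intro x hx
    rw [hR] at hx
    rw [h.one x (by omega), sub_self]
  nonneg := fun x => by
    have := h.le_one x
    linarith
  le_one := fun x => by
    have := h.nonneg x
    linarith
  supp := by
    intro x y h2 h3
    obtain ⟨h4, h5, h6, h7, _⟩ := h.lip x y (AT_of_scA hA h2) fun h => h3 (by rw [h])
    exact ⟨Finset.mem_filter.2 ⟨(hM x).2 h4, h6⟩, Finset.mem_filter.2 ⟨(hM y).2 h5, h7⟩⟩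
  k0 := by positivity
  row := by
    intro x hx
    refine (le_of_eq ?_).trans (h.row hm hA hκ0 hκ hx)
    refine Finset.sum_congr rfl fun y _ => ?_
    rw [← abs_neg]
    congr 1
    ring

end co

end P365CUL
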