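import Vale.Agent.P365.CUL841.Tor740

set_option linter.all false

/-!
# P365 / CUL841 / EmbT782: the half-open annulus of the square lattice inside the torus.

* `AnnN m = {3m ≤ nz < 12m}`;
* `nT N y = nz` of the representative of `y` in `[-K, N-K)²`, `K = N/2` (Tor740);
* `embA : AnnN m ↪ Tor N` for `24 m < N`, `nT (embA x) = nz x`, range `{3m ≤ nT < 12m}`;
* the block of `AT N` and of the twice cut matrix is `AF (AnnN m)`.
-/

namespace P365CUL.E782

open MeasureTheory ProbabilityTheory Function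
open P365L P365L.Comp P365X P365CU P365T1 P365O P365T2.H694 P365CUL
open scoped ENNReal

/-- half-open annulus -/
noncomputable def AnnN (m : ℕ) : Finset Site :=
  (Bl 0 (12 * m)).filter fun x => 3 * m ≤ nz x ∧ nz x < 12 * m

theorem mem_AnnN {m : ℕ} {x : Site} : x ∈ AnnN m ↔ 3 * m ≤ nz x ∧ nz x < 12 * m := by
  unfold AnnN
  rw [Finset.mem_filter, mem_Bl]
  constructor
  · exact fun h => h.2
  · intro h
    have h1 := ds_le_nz x
    exact ⟨by omega, h⟩

theorem box_of_nz {x : Site} {a : ℕ} (h : nz x < a) : Box a x := by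
  have h1 := nz_lt.1 h
  exact ⟨h1.1.1, h1.1.2, h1.2.1, h1.2.2⟩

theorem box_mono {x : Site} {a b : ℕ} (h : Box a x) (hab : a ≤ b) : Box b x := by
  obtain ⟨h1, h2, h3, h4⟩ := h
  exact ⟨by omega, by omega, by omega, by omega⟩

section tor

variable {N : ℕ} [NeZero N]

theorem nT_emb {x : Site} (h : 2 * nz x + 2 ≤ N) : nT N (emb N (N / 2) x) = nz x := by
  unfold nT
  rw [lft_emb (by omega) (box_of_nz (show nz x < N / 2 by omega))]

/-- adjacency is preserved, any position of the grid -/
theorem AT_emb' {K K' : ℕ} (hN : 2 * K' < N) {a b : Site} (ha : Box K' a) (hb : Box K' b) :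
    AT N (emb N K a) (emb N K b) = adj a b := by
  rw [← AT_emb hN ha hb]
  have e1 : emb N K b - emb N K a = emb N K' b - emb N K' a := by
    unfold emb
    ext
    · simp
    · simp
  unfold AT
  rw [e1]

/-- the embedding of the annulus -/
def embA {m : ℕ} (hN : 24 * m < N) : AnnN m ↪ Tor N where
  toFun x := emb N (N / 2) x
  inj' x y h := by
    have hx := (mem_AnnN.1 x.2).2
    have hy := (mem_AnnN.1 y.2).2
    exact Subtype.ext (emb_inj (by omega) (box_mono (box_of_nz hx) (by omega))
      (box_mono (box_of_nz hy) (by omega)) h)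

variable {m : ℕ}

theorem embA_apply (hN : 24 * m < N) (x : AnnN m) : embA hN x = emb N (N / 2) x := rfl

theorem nT_embA (hN : 24 * m < N) (x : AnnN m) : nT N (embA hN x) = nz (x : Site) := by
  rw [embA_apply]
  have hx := (mem_AnnN.1 x.2).2
  exact nT_emb (by omega)

theorem mem_range_embA (hN : 24 * m < N) (y : Tor N) :
    y ∈ Set.range (embA (m := m) hN) ↔ 3 * m ≤ nT N y ∧ nT N y < 12 * m := by
  constructor
  · rintro ⟨x, rfl⟩
    rw [nT_embA]
    exact mem_AnnN.1 x.2
  · intro h
    refine ⟨⟨lft (N / 2) y, mem_AnnN.2 h⟩, ?_⟩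
    rw [embA_apply]
    exact emb_lft _ y

/-- the block of `AT N` on the annulus -/
theorem AT_submatrix (hN : 24 * m < N) :
    (AT N).submatrix (embA (m := m) hN) (embA hN) = AF (AnnN m) := by
  ext x y
  rw [Matrix.submatrix_apply, embA_apply, embA_apply]
  exact AT_emb' (K' := 12 * m) (by omega) (box_of_nz (mem_AnnN.1 x.2).2)
    (box_of_nz (mem_AnnN.1 y.2).2)

/-- sites of the torus at norm `< a` -/
def innT (N : ℕ) [NeZero N] (a : ℕ) : Finset (Tor N) := Finset.univ.filter fun y => nT N y < a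

theorem mem_innT {a : ℕ} {y : Tor N} : y ∈ innT N a ↔ nT N y < a := by simp [innT]

/-- the torus adjacency, cut at the two circles -/
noncomputable def ATcc (N : ℕ) [NeZero N] (m : ℕ) : Matrix (Tor N) (Tor N) ℝ :=
  cut (cut (AT N) (innT N (12 * m))) (innT N (3 * m))

theorem ATcc_symm : (ATcc N m).IsSymm := cut_symm (cut_symm (AT_symm N) _) _

theorem ATcc_dec (hN : 24 * m < N) : Dec (ATcc N m) fun x => x ∈ Set.range (embA (m := m) hN) := by
  intro x y h
  simp only [mem_range_embA] at h
  unfold ATcc P365L.Comp.cut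
  by_cases h1 : x ∈ innT N (3 * m) ↔ y ∈ innT N (3 * m)
  · rw [if_pos h1]
    rw [mem_innT, mem_innT] at h1
    rw [if_neg]
    rw [mem_innT, mem_innT]
    omega
  · rw [if_neg h1]

theorem ATcc_submatrix (hN : 24 * m < N) :
    (ATcc N m).submatrix (embA (m := m) hN) (embA hN) = AF (AnnN m) := by
  rw [← AT_submatrix hN]
  ext x y
  rw [Matrix.submatrix_apply, Matrix.submatrix_apply]
  have hx := (mem_range_embA hN (embA hN x)).1 ⟨x, rfl⟩
  have hy := (mem_range_embA hN (embA hN y)).1 ⟨y, rfl⟩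
  unfold ATcc P365L.Comp.cut
  rw [if_pos, if_pos]
  · rw [mem_innT, mem_innT]
    exact iff_of_true hx.2 hy.2
  · rw [mem_innT, mem_innT]
    exact iff_of_false (not_lt.2 hx.1) (not_lt.2 hy.1)

theorem slT_eq_map (hN : 24 * m < N) {a b : ℕ} (ha : 3 * m ≤ a) (hb : b ≤ 12 * m) :
    slT N a b = (sl (AnnN m) a b).map (embA hN) := by
  ext y
  rw [mem_slT, Finset.mem_map]
  constructor
  · intro h
    obtain ⟨x, rfl⟩ := (mem_range_embA hN y).2 ⟨ha.trans h.1, h.2.trans_le hb⟩
    rw [nT_embA] at h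
    exact ⟨x, mem_sl.2 h, rfl⟩
  · rintro ⟨x, hx, rfl⟩
    rw [nT_embA]
    exact mem_sl.1 hx

/-- the profile of the torus restricted to the annulus -/
theorem prT_embA (hN : 24 * m < N) (c : ℝ) (x : AnnN m) :
    prT N c m (embA hN x) = prX (AnnN m) c m x := by
  unfold prT prX
  simp only [nT_embA, mem_sl]

theorem ATcc_abs_le (x y : Tor N) : |ATcc N m x y| ≤ AT N x y := by
  unfold ATcc P365L.Comp.cut
  split_ifs
  · rw [abs_of_nonneg (AT_nonneg x y)]
  · rw [abs_zero]; exact AT_nonneg x y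
  · rw [abs_zero]; exact AT_nonneg x y

/-- `nT` is 1-Lipschitz along edges as long as one end point is away from the seam -/
theorem nT_adj {x y : Tor N} (h : AT N x y ≠ 0) (hx : 2 * nT N x + 4 ≤ N) :
    nT N y ≤ nT N x + 1 ∧ nT N x ≤ nT N y + 1 := by
  obtain ⟨u, hu⟩ : ∃ u, u = lft (N / 2) x := ⟨_, rfl⟩
  have hux : emb N (N / 2) u = x := by rw [hu]; exact emb_lft _ x
  have hnu : nT N x = nz u := by unfold nT; rw [← hu]
  have h1 : y - x ∈ nbs N := by
    by_contra hc
    exact h (by simp [AT, hc])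
  -- a neighbour `w` of `u` with image `y`
  have h2 : ∃ w : Site, adj u w ≠ 0 ∧ emb N (N / 2) w = y := by
    have key : ∀ d1 d2 : ℤ, d1.natAbs + d2.natAbs = 1 →
        y - x = ((d1 : ZMod N), (d2 : ZMod N)) →
        ∃ w : Site, adj u w ≠ 0 ∧ emb N (N / 2) w = y := by
      intro d1 d2 hd hyx
      refine ⟨(u.1 + d1, u.2 + d2), ?_, ?_⟩
      · have : adj u (u.1 + d1, u.2 + d2) = 1 := by
          unfold adj
          rw [if_pos]
          simp only
          omega
        rw [this]
        exact one_ne_zero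
      · have : y = x + ((d1 : ZMod N), (d2 : ZMod N)) := by rw [← hyx]; abel
        rw [this, ← hux]
        unfold emb
        ext
        · push_cast; simp; ring
        · push_cast; simp; ring
    unfold nbs at h1
    simp only [Finset.mem_insert, Finset.mem_singleton] at h1
    rcases h1 with h1 | h1 | h1 | h1
    · exact key 1 0 (by simp) (by rw [h1]; simp)
    · exact key (-1) 0 (by simp) (by rw [h1]; simp)
    · exact key 0 1 (by simp) (by rw [h1]; simp)
    · exact key 0 (-1) (by simp) (by rw [h1]; simp)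
  obtain ⟨w, hw, rfl⟩ := h2
  have h3 := nz_adj hw
  rw [hnu] at hx ⊢
  have h4 : nT N (emb N (N / 2) w) = nz w := nT_emb (by omega)
  rw [h4]
  exact h3

end tor

end P365CUL.E782
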