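import Vale.Agent.P365.CUL841.Step841
import Vale.Agent.P365.T2.H694.Geo

set_option linter.all false

/-!
# P365 / CUL841 / Tor740: concentric rings (half-open norm `nz`), the crossing quantity in a region of
the square lattice and on the torus.
-/

namespace P365CUL

open MeasureTheory ProbabilityTheory Complex Matrix Function P365S6
open P365L P365L.Comp P365X P365CU
open scoped ENNReal Real

section lattice

variable {X : Finset Site} {c p : ℝ} {ζ : ℂ}

/-- inside -/
noncomputable def inn (X : Finset Site) (a : ℕ) : Finset X :=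
  Finset.univ.filter fun x => nz (x : Site) < a

/-- outside -/
noncomputable def out (X : Finset Site) (a : ℕ) : Finset X :=
  Finset.univ.filter fun x => a ≤ nz (x : Site)

/-- shell -/
noncomputable def sl (X : Finset Site) (a b : ℕ) : Finset X :=
  Finset.univ.filter fun x => a ≤ nz (x : Site) ∧ nz (x : Site) < b

theorem mem_inn {a : ℕ} {x : X} : x ∈ inn X a ↔ nz (x : Site) < a := by simp [inn]
theorem mem_out {a : ℕ} {x : X} : x ∈ out X a ↔ a ≤ nz (x : Site) := by simp [out]
theorem mem_sl {a b : ℕ} {x : X} :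
    x ∈ sl X a b ↔ a ≤ nz (x : Site) ∧ nz (x : Site) < b := by simp [sl]

/-- profile of the inner contact -/
noncomputable def prI (X : Finset Site) (c : ℝ) (m : ℕ) : X → ℝ :=
  fun x => if x ∈ sl X (2 * m) (3 * m) then c / m else 0

/-- profile of the outer contact -/
noncomputable def prO (X : Finset Site) (c : ℝ) (m : ℕ) : X → ℝ :=
  fun x => if x ∈ sl X (3 * m) (4 * m) then c / m else 0

/-- profile of the gap: contacts on both sides -/
noncomputable def prX (X : Finset Site) (c : ℝ) (m : ℕ) : X → ℝ :=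
  fun x => if x ∈ sl X (3 * m) (4 * m) then c / m else
    if x ∈ sl X (8 * m) (12 * m) then c / (4 * m : ℕ) else 0

/-- the crossing quantity of the gap in the region `X`: Dirichlet circles at `3m` and `12m` -/
noncomputable def TX (μ : Measure SV) (X : Finset Site) (c p : ℝ) (ζ : ℂ) (m : ℕ) : ℝ≥0∞ :=
  ∫⁻ ω, MP (cut (cut (AF X) (inn X (12 * m))) (inn X (3 * m))) ζ
    (prX X c m) p (sl X (3 * m) (4 * m)) (sl X (8 * m) (12 * m)) ω
      ∂(Measure.pi fun _ : X => μ)

end lattice

section torus

variable {N : ℕ} [NeZero N]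

/-- centred norm on the torus, centre at `(N/2, N/2)` (`N` even) -/
def nT (N : ℕ) (y : Tor N) : ℕ := nz (P365T2.H694.lft (N / 2) y)

/-- shells of the torus -/
noncomputable def slT (N a b : ℕ) [NeZero N] : Finset (Tor N) :=
  Finset.univ.filter fun y => a ≤ nT N y ∧ nT N y < b

theorem mem_slT {a b : ℕ} {y : Tor N} : y ∈ slT N a b ↔ a ≤ nT N y ∧ nT N y < b := by
  simp [slT]

/-- the profile of the two contacts on the torus -/
noncomputable def prT (N : ℕ) (c : ℝ) (m : ℕ) (y : Tor N) : ℝ :=
  if 3 * m ≤ nT N y ∧ nT N y < 4 * m then c / m else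
    if 8 * m ≤ nT N y ∧ nT N y < 12 * m then c / (4 * m : ℕ) else 0

/-- **the crossing quantity on the torus** (no Dirichlet circles) -/
noncomputable def TTor (μ : Measure SV) (N : ℕ) [NeZero N] (c p : ℝ) (ζ : ℂ) (m : ℕ) : ℝ≥0∞ :=
  ∫⁻ ω, MP (AT N) ζ (prT N c m) p (slT N (3 * m) (4 * m)) (slT N (8 * m) (12 * m)) ω
      ∂(Measure.pi fun _ : Tor N => μ)

open Classical in
/-- the crossing quantity in label form, 692's / 694's `Crs` -/
noncomputable def TLt {Λ : Type*} [Fintype Λ] (pl : Λ → ℝ) (ν : Λ → Measure ℝ) (mov : Λ → Prop)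
    (N : ℕ) [NeZero N] (c p E η : ℝ) (m : ℕ) : ℝ≥0∞ :=
  P365T2.H694.Crs (AT N) pl ν E
    (fun l y => η + if mov (l y) then prT N c m y else 0)
    (fun l y => if mov (l y) then prT N c m y else 0)
    (slT N (3 * m) (4 * m)) (slT N (8 * m) (12 * m)) p

end torus

end P365CUL
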