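import Vale.Agent.P365.CUL841.TorAnn841
import Vale.Agent.P365.CUL841.CutT660
import Vale.Agent.P365.CUL841.Tor740

set_option linter.all false

/-!
# P365 / CUL841 / Gap755: the crossing quantity of a gap in a region of the square lattice is bounded
by the crossing quantity on the torus.
-/

namespace P365CUL

open MeasureTheory ProbabilityTheory Complex Matrix Function P365S6
open P365L P365L.Comp P365X P365CU P365T2.H694
open scoped ENNReal Real

variable {c p : ℝ} {ζ : ℂ} {m : ℕ} {μ : Measure SV}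

/-! ### the annulus -/

/-- the annulus `3m ≤ nz < 12m` -/
noncomputable def An755 (m : ℕ) : Finset Site :=
  ((Finset.Icc (-(12 * m : ℤ)) (12 * m) ×ˢ Finset.Icc (-(12 * m : ℤ)) (12 * m))).filter
    fun x => 3 * m ≤ nz x ∧ nz x < 12 * m

theorem mem_An755 {x : Site} : x ∈ An755 m ↔ 3 * m ≤ nz x ∧ nz x < 12 * m := by
  unfold An755
  rw [Finset.mem_filter, Finset.mem_product, Finset.mem_Icc, Finset.mem_Icc]
  constructor
  · exact fun h => h.2
  · intro h
    have h1 := nz_lt.1 h.2
    push_cast at h1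
    exact ⟨by omega, h⟩

/-- the crossing quantity of the annulus -/
noncomputable def TA755 (μ : Measure SV) (c p : ℝ) (ζ : ℂ) (m : ℕ) : ℝ≥0∞ :=
  ∫⁻ ω, MP (AF (An755 m)) ζ (prX (An755 m) c m) p (sl (An755 m) (3 * m) (4 * m))
    (sl (An755 m) (8 * m) (12 * m)) ω ∂(Measure.pi fun _ : An755 m => μ)

theorem prX_nonneg755 (hc : 0 < c) {X : Finset Site} (x : X) : 0 ≤ prX X c m x := by
  unfold prX
  split_ifs
  · positivity
  · positivity
  · exact le_rfl

theorem prT_nonneg (hc : 0 < c) {N : ℕ} (y : Tor N) : 0 ≤ prT N c m y := by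
  unfold prT
  split_ifs
  · positivity
  · positivity
  · exact le_rfl

/-! ### the region of the lattice -/

theorem TX_eq755 [IsProbabilityMeasure μ] (hζ : 0 < ζ.im) (hc : 0 < c) {X : Finset Site}
    (hX : ∀ x : Site, 3 * m ≤ nz x → nz x < 12 * m → x ∈ X) :
    TX μ X c p ζ m = TA755 μ c p ζ m := by
  have hR : An755 m ⊆ X := fun x hx => hX x (mem_An755.1 hx).1 (mem_An755.1 hx).2
  obtain ⟨A, hA⟩ : ∃ A, A = cut (cut (AF X) (inn X (12 * m))) (inn X (3 * m)) := ⟨_, rfl⟩
  have hsym : A.IsSymm := by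
    rw [hA]
    exact cut_symm (cut_symm (AF_symm X) _) _
  have hr : ∀ x : X, x ∈ Set.range (incl hR) ↔ 3 * m ≤ nz (x : Site) ∧ nz (x : Site) < 12 * m := by
    intro x
    constructor
    · rintro ⟨y, rfl⟩
      exact mem_An755.1 y.2
    · intro h
      exact ⟨⟨x, mem_An755.2 h⟩, rfl⟩
  have hD : Dec A (fun x => x ∈ Set.range (incl hR)) := by
    intro x y h
    simp only [hr] at h
    rw [hA]
    unfold P365L.Comp.cut
    by_cases h1 : x ∈ inn X (3 * m) ↔ y ∈ inn X (3 * m)
    · rw [if_pos h1]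
      rw [mem_inn, mem_inn] at h1
      rw [if_neg]
      rw [mem_inn, mem_inn]
      omega
    · rw [if_neg h1]
  have hmap : ∀ a b : ℕ, 3 * m ≤ a → b ≤ 12 * m →
      sl X a b = (sl (An755 m) a b).map (incl hR) := by
    intro a b ha hb
    ext x
    rw [mem_sl, Finset.mem_map]
    constructor
    · intro h
      exact ⟨⟨x, mem_An755.2 (by omega)⟩, mem_sl.2 h, rfl⟩
    · rintro ⟨y, hy, rfl⟩
      have h1 := mem_sl.1 hy
      exact h1
  unfold TX TA755
  rw [← hA, hmap (3 * m) (4 * m) le_rfl (by omega), hmap (8 * m) (12 * m) (by omega) le_rfl,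
    int_block hsym hζ (incl hR) hD (prX_nonneg755 hc)]
  have h1 : A.submatrix (incl hR) (incl hR) = AF (An755 m) := by
    ext x y
    rw [Matrix.submatrix_apply, hA]
    have hx := mem_An755.1 x.2
    have hy := mem_An755.1 y.2
    unfold P365L.Comp.cut
    rw [if_pos, if_pos]
    · rfl
    · rw [mem_inn, mem_inn]
      exact iff_of_true hx.2 hy.2
    · rw [mem_inn, mem_inn]
      exact iff_of_false (not_lt.2 hx.1) (not_lt.2 hy.1)
  have h2 : (fun x : An755 m => prX X c m (incl hR x)) = prX (An755 m) c m := by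
    funext x
    unfold prX
    simp only [mem_sl]
    rfl
  rw [h1, h2]

/-! ### the torus -/

section torus

variable {N : ℕ} [NeZero N]

theorem box_of_lt {x : Site} {a : ℕ} (h : nz x < a) : Box a x := by
  have h1 := nz_lt.1 h
  exact ⟨h1.1.1, h1.1.2, h1.2.1, h1.2.2⟩

theorem Box.mono755 {K K' : ℕ} (h : K ≤ K') {x : Site} (hx : Box K x) : Box K' x := by
  obtain ⟨h1, h2, h3, h4⟩ := hx
  exact ⟨by omega, by omega, by omega, by omega⟩

/-- adjacency is preserved, any shift -/
theorem AT_emb755 {K K' : ℕ} (hN : 2 * K < N) {a b : Site} (ha : Box K a) (hb : Box K b) :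
    AT N (emb N K' a) (emb N K' b) = adj a b := by
  rw [← AT_emb hN ha hb]
  have e : emb N K' b - emb N K' a = emb N K b - emb N K a := by
    unfold emb
    ext
    · simp
    · simp
  unfold AT
  rw [e]

/-- the embedding of the annulus -/
def eA755 (m N : ℕ) [NeZero N] (hN : 24 * m ≤ N) : An755 m ↪ Tor N where
  toFun x := emb N (N / 2) x
  inj' x y h := Subtype.ext (emb_inj (K := N / 2) (by omega)
    (Box.mono755 (by omega) (box_of_lt (mem_An755.1 x.2).2))
    (Box.mono755 (by omega) (box_of_lt (mem_An755.1 y.2).2)) h)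

theorem nT_eA755 (hN : 24 * m ≤ N) (x : An755 m) : nT N (eA755 m N hN x) = nz (x : Site) := by
  unfold nT
  have h1 : lft (N / 2) (eA755 m N hN x) = (x : Site) :=
    lft_emb (K := N / 2) (by omega) (Box.mono755 (by omega) (box_of_lt (mem_An755.1 x.2).2))
  rw [h1]

theorem mem_range755 (hN : 24 * m ≤ N) (y : Tor N) :
    y ∈ Set.range (eA755 m N hN) ↔ 3 * m ≤ nT N y ∧ nT N y < 12 * m := by
  constructor
  · rintro ⟨x, rfl⟩
    rw [nT_eA755]
    exact mem_An755.1 x.2
  · intro h
    refine ⟨⟨lft (N / 2) y, mem_An755.2 h⟩, ?_⟩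
    exact emb_lft (N / 2) y

/-- sites inside -/
noncomputable def inT755 (N a : ℕ) [NeZero N] : Finset (Tor N) :=
  Finset.univ.filter fun y => nT N y < a

/-- sites outside -/
noncomputable def ouT755 (N a : ℕ) [NeZero N] : Finset (Tor N) :=
  Finset.univ.filter fun y => a ≤ nT N y

theorem mem_inT755 {a : ℕ} {y : Tor N} : y ∈ inT755 N a ↔ nT N y < a := by simp [inT755]
theorem mem_ouT755 {a : ℕ} {y : Tor N} : y ∈ ouT755 N a ↔ a ≤ nT N y := by simp [ouT755]

theorem tor_eq755 [IsProbabilityMeasure μ] (hζ : 0 < ζ.im) (hc : 0 < c) (hN : 24 * m < N) :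
    ∫⁻ ω, MP (cut (cut (AT N) (ouT755 N (3 * m))) (inT755 N (12 * m))) ζ (prT N c m) p
      (slT N (3 * m) (4 * m)) (slT N (8 * m) (12 * m)) ω ∂(Measure.pi fun _ : Tor N => μ) =
      TA755 μ c p ζ m := by
  obtain ⟨A, hA⟩ : ∃ A, A = cut (cut (AT N) (ouT755 N (3 * m))) (inT755 N (12 * m)) := ⟨_, rfl⟩
  have hsym : A.IsSymm := by
    rw [hA]
    exact cut_symm (cut_symm (AT_symm N) _) _
  have hD : Dec A (fun x => x ∈ Set.range (eA755 m N hN.le)) := by
    intro x y h
    simp only [mem_range755] at h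
    rw [hA]
    unfold P365L.Comp.cut
    by_cases h1 : x ∈ inT755 N (12 * m) ↔ y ∈ inT755 N (12 * m)
    · rw [if_pos h1]
      rw [mem_inT755, mem_inT755] at h1
      rw [if_neg]
      rw [mem_ouT755, mem_ouT755]
      omega
    · rw [if_neg h1]
  have hmap : ∀ a b : ℕ, 3 * m ≤ a → b ≤ 12 * m →
      slT N a b = (sl (An755 m) a b).map (eA755 m N hN.le) := by
    intro a b ha hb
    ext y
    rw [mem_slT, Finset.mem_map]
    constructor
    · intro h
      obtain ⟨x, hx⟩ := (mem_range755 hN.le y).2 (by omega)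
      refine ⟨x, mem_sl.2 ?_, hx⟩
      rw [← nT_eA755 hN.le, hx]
      exact h
    · rintro ⟨x, hx, rfl⟩
      rw [nT_eA755]
      exact mem_sl.1 hx
  unfold TA755
  rw [← hA, hmap (3 * m) (4 * m) le_rfl (by omega), hmap (8 * m) (12 * m) (by omega) le_rfl,
    int_block hsym hζ (eA755 m N hN.le) hD (prT_nonneg hc)]
  have h1 : A.submatrix (eA755 m N hN.le) (eA755 m N hN.le) = AF (An755 m) := by
    ext x y
    rw [Matrix.submatrix_apply, hA]
    have hx := mem_An755.1 x.2
    have hy := mem_An755.1 y.2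
    unfold P365L.Comp.cut
    rw [if_pos, if_pos]
    · exact AT_emb755 (K := 12 * m) (by omega) (box_of_lt hx.2) (box_of_lt hy.2)
    · rw [mem_ouT755, mem_ouT755, nT_eA755, nT_eA755]
      exact iff_of_true hx.1 hy.1
    · rw [mem_inT755, mem_inT755, nT_eA755, nT_eA755]
      exact iff_of_true hx.2 hy.2
  have h2 : (fun x : An755 m => prT N c m (eA755 m N hN.le x)) = prX (An755 m) c m := by
    funext x
    unfold prX prT
    simp only [mem_sl, nT_eA755]
  rw [h1, h2]

theorem abs_AT_le755 (x y : Tor N) : |AT N x y| ≤ AT N x y := by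
  rw [abs_of_nonneg (AT_nonneg _ _)]

theorem abs_cutT_le755 (R : Finset (Tor N)) (x y : Tor N) : |cut (AT N) R x y| ≤ AT N x y := by
  unfold P365L.Comp.cut
  split_ifs
  · exact abs_AT_le755 x y
  · rw [abs_zero]
    exact AT_nonneg _ _

theorem card_slT755 (a b : ℕ) : (slT N a b).card ≤ (2 * b) ^ 2 := by
  refine le_trans (Finset.card_le_card_of_injOn (fun y => lft (N / 2) y)
    (t := Finset.Ico (-(b : ℤ)) b ×ˢ Finset.Ico (-(b : ℤ)) b) ?_ ?_) ?_
  · intro y hy
    have h := (mem_slT.1 (Finset.mem_coe.1 hy)).2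
    have h1 := nz_lt.1 h
    refine Finset.mem_coe.2 ?_
    rw [Finset.mem_product, Finset.mem_Ico, Finset.mem_Ico]
    exact h1
  · intro y _ z _ h
    exact lft_inj _ h
  · rw [Finset.card_product, Int.card_Ico]
    have : ((b : ℤ) - (-(b : ℤ))).toNat = 2 * b := by omega
    rw [this, sq]

/-- **LATTICE GAP AGAINST TORUS GAP** -/
theorem gap_le {lam w C : ℝ} [IsProbabilityMeasure μ] {r : ℝ → ℝ → ℝ} (hLaw : LawP lam w C μ r)
    (hζ : 0 < ζ.im) (hc : 0 < c) (hp : 0 < p) (hp1 : p < 1) (hm : 8 ≤ m) (hN : 24 * m < N)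
    {X : Finset Site} (hX : ∀ x : Site, 3 * m ≤ nz x → nz x < 12 * m → x ∈ X) :
    TX μ X c p ζ m ≤ ENNReal.ofReal ((1 + 32 / c) ^ (2 * p)) * TTor μ N c p ζ m +
      ENNReal.ofReal (81 * m ^ 2 * ((24 * m + 8) * (1 / 2) ^ m +
        (64 * m + 8) * (1 / 2) ^ (4 * m))) := by
  have hm0 : 0 < m := by omega
  have hm' : (1 : ℝ) ≤ m := by exact_mod_cast hm0
  have hm1 : (0 : ℝ) < m := by linarith
  have hm4 : (0 : ℝ) < (4 * m : ℕ) := by exact_mod_cast (by omega : 0 < 4 * m)
  have hS : ∀ x ∈ slT N (3 * m) (4 * m), prT N c m x = c / m := by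
    intro x hx
    unfold prT
    rw [if_pos (mem_slT.1 hx)]
  have hB : ∀ x ∈ slT N (8 * m) (12 * m), prT N c m x = c / (4 * m : ℕ) := by
    intro x hx
    have h1 := mem_slT.1 hx
    unfold prT
    rw [if_neg (by omega), if_pos h1]
  rw [TX_eq755 hζ hc hX, ← tor_eq755 (N := N) hζ hc hN]
  obtain ⟨Bd, hBd⟩ : ∃ Bd : Set (Tor N → SV), Bd =
      {ω | BadT N (3 * m) m (fun x => (ω x).1 = true)} ∪
        {ω | BadT N (8 * m) (4 * m) (fun x => (ω x).1 = true)} := ⟨_, rfl⟩
  have hBdm : MeasurableSet Bd := by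
    rw [hBd]
    exact meas_BadT.union meas_BadT
  have h1 := int_cut2 (μ := μ) (A := AT N) (κ := prT N c m) (ζ := ζ) (p := p) (AT_symm N) hζ
    (prT_nonneg hc) hp hp1 (S := slT N (3 * m) (4 * m)) (B := slT N (8 * m) (12 * m))
    (R1 := ouT755 N (3 * m)) (R2 := inT755 N (12 * m))
    (fun x hx => by
      rw [hS x hx]
      positivity)
    (fun x hx => by
      rw [hB x hx]
      positivity) (k1 := 32 / c) (k2 := 32 / c) (by positivity) (by positivity) hBdm
    (fun ω hω => by
      rw [hBd, Set.mem_union, not_or] at hω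
      obtain ⟨χ, hχ⟩ := cutT_exists hm hω.1
      obtain ⟨χ', hχ'⟩ := cutT_exists (by omega : 8 ≤ 4 * m) hω.2
      have e1 := hχ.co_out (A := AT N) (κ := prT N c m) (κ0 := c / m)
        (M := slT N (3 * m) (4 * m)) (Rs := ouT755 N (3 * m)) hm0 abs_AT_le755 (by positivity) hS
        (fun x => by
          rw [mem_slT]
          have : 3 * m + m = 4 * m := by ring
          rw [this]
          rfl)
        (fun x => mem_ouT755)
      have e2 := hχ'.co_in (A := cut (AT N) (ouT755 N (3 * m))) (κ := prT N c m)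
        (κ0 := c / (4 * m : ℕ))
        (M := slT N (8 * m) (12 * m)) (Rs := inT755 N (12 * m)) (by omega)
        (abs_cutT_le755 _) (by positivity) hB
        (fun x => by
          rw [mem_slT]
          have : 8 * m + 4 * m = 12 * m := by ring
          rw [this]
          rfl)
        (fun x => by
          rw [mem_inT755]
          have : 8 * m + 4 * m = 12 * m := by ring
          rw [this]
          rfl)
      rw [const_eq hm0] at e1
      rw [const_eq (by omega : 0 < 4 * m)] at e2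
      refine ⟨_, χ', e1, e2, fun b hb => ?_, fun a ha => ?_⟩
      · have h2 := mem_slT.1 hb
        have h3 : nzT N b = nT N b := rfl
        rw [hχ.zero b (by rw [h3]; omega), sub_zero]
      · have h2 := mem_slT.1 ha
        have h3 : nzT N a = nT N a := rfl
        exact hχ'.one a (by rw [h3]; omega))
    (Q := 81 * m ^ 2) (by nlinarith) (by
      have h2 := card_slT755 (N := N) (3 * m) (4 * m)
      have h3 : ((slT N (3 * m) (4 * m)).card : ℝ) ≤ ((2 * (4 * m)) ^ 2 : ℕ) := by
        exact_mod_cast h2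
      refine h3.trans ?_
      push_cast
      nlinarith)
  refine h1.trans ?_
  have hprob : (Measure.pi fun _ : Tor N => μ) Bd ≤ ENNReal.ofReal ((24 * m + 8) * (1 / 2) ^ m +
      (64 * m + 8) * (1 / 2) ^ (4 * m)) := by
    rw [hBd]
    refine (measure_union_le _ _).trans ?_
    rw [ENNReal.ofReal_add (by positivity) (by positivity)]
    refine add_le_add ?_ ?_
    · refine (prob_BadT hLaw hm).trans (le_of_eq ?_)
      congr 1
      push_cast
      ring
    · refine (prob_BadT hLaw (by omega : 8 ≤ 4 * m)).trans (le_of_eq ?_)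
      congr 1
      push_cast
      ring
  refine add_le_add ?_ ?_
  · refine mul_le_mul' (le_of_eq ?_) le_rfl
    congr 1
    rw [Real.mul_rpow (by positivity) (by positivity), ← Real.rpow_add (by positivity)]
    congr 1
    ring
  · rw [ENNReal.ofReal_mul (p := 81 * (m : ℝ) ^ 2) (by positivity)]
    exact mul_le_mul' le_rfl hprob

end torus

end P365CUL
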