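import Vale.Agent.P365.CUL841.Est841

set_option linter.all false

/-!
# P365 / CUL841 / Num841: the scalar part of the chain with additive errors.
-/

namespace P365CUL

open MeasureTheory ProbabilityTheory Complex Matrix Function P365S6 Filter Topology
open P365L P365L.Comp P365X P365CU
open scoped ENNReal Real

variable {lam p : ℝ}

/-- (N1) -/
theorem rec_bound {z e : ℕ → ℝ≥0∞} {n : ℕ}
    (h : ∀ j < n, z (j + 1) ≤ ENNReal.ofReal (1 / 512) * z j + e j)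
    (he : ∀ j < n, e j ≤ ENNReal.ofReal ((1 / 1024) ^ (j + 1))) :
    z n ≤ ENNReal.ofReal ((1 / 512) ^ n) * (z 0 + 1) := by
  have key : ∀ j ≤ n, z j ≤ ENNReal.ofReal ((1 / 512) ^ j) *
      (z 0 + ENNReal.ofReal (1 - (1 / 2) ^ j)) := by
    intro j
    induction j with
    | zero =>
      intro _
      simp
    | succ j ih =>
      intro hj
      have h1 := ih (by omega)
      have h2 := h j (by omega)
      have h3 := he j (by omega)
      have e1 : ENNReal.ofReal ((1 / 1024) ^ (j + 1)) = ENNReal.ofReal ((1 / 512) ^ (j + 1)) *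
          ENNReal.ofReal ((1 / 2) ^ (j + 1)) := by
        rw [← ENNReal.ofReal_mul (by positivity), ← mul_pow]
        norm_num
      have e2 : ENNReal.ofReal (1 / 512) * ENNReal.ofReal ((1 / 512) ^ j) =
          ENNReal.ofReal ((1 / 512) ^ (j + 1)) := by
        rw [← ENNReal.ofReal_mul (by norm_num), pow_succ]
        ring_nf
      have e3 : ENNReal.ofReal (1 - (1 / 2) ^ (j + 1)) =
          ENNReal.ofReal (1 - (1 / 2) ^ j) + ENNReal.ofReal ((1 / 2) ^ (j + 1)) := by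
        rw [← ENNReal.ofReal_add _ (by positivity)]
        · congr 1
          rw [pow_succ]
          ring
        · have : ((1 : ℝ) / 2) ^ j ≤ 1 := pow_le_one₀ (by norm_num) (by norm_num)
          linarith
      calc z (j + 1) ≤ ENNReal.ofReal (1 / 512) * z j + e j := h2
        _ ≤ ENNReal.ofReal (1 / 512) * (ENNReal.ofReal ((1 / 512) ^ j) *
            (z 0 + ENNReal.ofReal (1 - (1 / 2) ^ j))) + ENNReal.ofReal ((1 / 512) ^ (j + 1)) *
          ENNReal.ofReal ((1 / 2) ^ (j + 1)) := by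
            rw [← e1]
            gcongr
        _ = _ := by
            rw [← mul_assoc, e2, e3]
            ring
  refine (key n le_rfl).trans ?_
  gcongr
  rw [← ENNReal.ofReal_one]
  refine ENNReal.ofReal_le_ofReal ?_
  have : (0 : ℝ) ≤ (1 / 2) ^ n := by positivity
  linarith

/-- (N2) -/
theorem bad_small (B : ℝ) (k : ℕ) : ∃ M : ℕ, ∀ m0 ≥ M, ∀ j : ℕ,
    B * ((4 ^ j * m0 : ℕ) : ℝ) ^ k * (1 / 2) ^ (4 ^ j * m0) ≤ (1 / 1024) ^ (j + 1) := by
  have h1 : Tendsto (fun m : ℕ => (m : ℝ) ^ k * (3 / 4 : ℝ) ^ m) atTop (𝓝 0) :=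
    tendsto_pow_const_mul_const_pow_of_abs_lt_one k (by norm_num [abs_of_pos])
  have h2 : ∀ᶠ m : ℕ in atTop, |B| * ((m : ℝ) ^ k * (3 / 4 : ℝ) ^ m) < 1 := by
    have := h1.const_mul |B|
    rw [mul_zero] at this
    exact this.eventually_lt_const one_pos
  obtain ⟨M, hM⟩ := eventually_atTop.1 h2
  refine ⟨max M 20, fun m0 hm0 j => ?_⟩
  obtain ⟨m, hm⟩ : ∃ m, m = 4 ^ j * m0 := ⟨_, rfl⟩
  rw [← hm]
  have hm1 : M ≤ m := by
    rw [hm]
    exact ((le_max_left _ _).trans hm0).trans (Nat.le_mul_of_pos_left _ (by positivity))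
  have hm2 : 20 * (j + 1) ≤ m := by
    rw [hm]
    have h3 : j + 1 ≤ 4 ^ j := by
      have : j < 4 ^ j := Nat.lt_pow_self (by norm_num)
      omega
    have h4 : 20 ≤ m0 := (le_max_right _ _).trans hm0
    calc 20 * (j + 1) ≤ m0 * 4 ^ j := Nat.mul_le_mul h4 h3
      _ = _ := mul_comm _ _
  have h5 := hM m hm1
  have e1 : ((1 : ℝ) / 2) ^ m = (3 / 4) ^ m * (2 / 3) ^ m := by
    rw [← mul_pow]
    norm_num
  have e2 : ((2 : ℝ) / 3) ^ m ≤ (1 / 1024) ^ (j + 1) := by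
    calc ((2 : ℝ) / 3) ^ m ≤ (2 / 3) ^ (20 * (j + 1)) :=
          pow_le_pow_of_le_one (by norm_num) (by norm_num) hm2
      _ = ((2 / 3) ^ 20) ^ (j + 1) := by rw [pow_mul]
      _ ≤ _ := pow_le_pow_left₀ (by positivity) (by norm_num) _
  calc B * (m : ℝ) ^ k * (1 / 2) ^ m ≤ |B| * (m : ℝ) ^ k * (1 / 2) ^ m := by
        gcongr
        exact le_abs_self B
    _ = |B| * ((m : ℝ) ^ k * (3 / 4) ^ m) * (2 / 3) ^ m := by
        rw [e1]
        ring
    _ ≤ 1 * (2 / 3) ^ m := by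
        gcongr
    _ ≤ _ := by
        rw [one_mul]
        exact e2

/-- (N3) -/
theorem close_num (hp4 : p < 1 / 4) {K' : ℝ} (hK' : 0 ≤ K') {m0 : ℕ} (hm0 : 1 ≤ m0) :
    ∃ n0 : ℕ, ∀ n ≥ n0, ∀ r : ℕ, 1 ≤ r → r ≤ 5 * 4 ^ n * m0 →
      TH (CL lam p) r * ENNReal.ofReal (K' * (8 * r + 20) ^ 2 * (1 / 512) ^ n) ≤ 1 / 2 := by
  obtain ⟨Cr, hCr⟩ : ∃ Cr, Cr = (CL lam p).toReal := ⟨_, rfl⟩
  have hCr0 : 0 ≤ Cr := by
    rw [hCr]
    exact ENNReal.toReal_nonneg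
  obtain ⟨K4, hK4⟩ : ∃ K4, K4 = 16 * Cr * (1 + 4 * Cr) * (140 * (m0 : ℝ)) ^ 4 * K' := ⟨_, rfl⟩
  have hK40 : 0 ≤ K4 := by
    rw [hK4]
    positivity
  obtain ⟨n0, hn0⟩ := exists_pow_lt_of_lt_one (show (0 : ℝ) < 1 / (2 * (K4 + 1)) by positivity)
    (show (1 / 2 : ℝ) < 1 by norm_num)
  refine ⟨n0, fun n hn r hr hr2 => ?_⟩
  have hnn : (1 / 2 : ℝ) ^ n ≤ 1 / (2 * (K4 + 1)) :=
    (pow_le_pow_of_le_one (by norm_num) (by norm_num) hn).trans hn0.le
  have hTH := TH_le (CL_ne_top (lam := lam) hp4) r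
  rw [← hCr] at hTH
  have hr1 : (1 : ℝ) ≤ r := by exact_mod_cast hr
  have hr3 : (r : ℝ) ≤ 5 * 4 ^ n * m0 := by exact_mod_cast hr2
  calc TH (CL lam p) r * ENNReal.ofReal (K' * (8 * r + 20) ^ 2 * (1 / 512) ^ n)
      ≤ ENNReal.ofReal (16 * Cr * (1 + 4 * Cr) * (8 * r + 20) ^ 2) *
        ENNReal.ofReal (K' * (8 * r + 20) ^ 2 * (1 / 512) ^ n) := by gcongr
    _ = ENNReal.ofReal (16 * Cr * (1 + 4 * Cr) * (8 * r + 20) ^ 4 * (1 / 512) ^ n * K') := by
        rw [← ENNReal.ofReal_mul (by positivity)]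
        congr 1
        ring
    _ ≤ ENNReal.ofReal (1 / 2) := by
        refine ENNReal.ofReal_le_ofReal ?_
        have h1 : (8 * (r : ℝ) + 20) ≤ 140 * m0 * 4 ^ n := by
          have : (8 * (r : ℝ) + 20) ≤ 28 * r := by linarith
          calc (8 * (r : ℝ) + 20) ≤ 28 * r := this
            _ ≤ 28 * (5 * 4 ^ n * m0) := by gcongr
            _ = _ := by ring
        have h3 : (8 * (r : ℝ) + 20) ^ 4 ≤ (140 * m0 * 4 ^ n) ^ 4 := by gcongr
        have h4 : ((4 : ℝ) ^ n) ^ 4 * (1 / 512) ^ n = (1 / 2) ^ n := by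
          rw [← pow_mul, mul_comm n 4, pow_mul, ← mul_pow]
          norm_num
        calc 16 * Cr * (1 + 4 * Cr) * (8 * (r : ℝ) + 20) ^ 4 * (1 / 512) ^ n * K'
            ≤ 16 * Cr * (1 + 4 * Cr) * (140 * m0 * 4 ^ n) ^ 4 * (1 / 512) ^ n * K' := by gcongr
          _ = K4 * (((4 : ℝ) ^ n) ^ 4 * (1 / 512) ^ n) := by
              rw [hK4]
              ring
          _ = K4 * (1 / 2) ^ n := by rw [h4]
          _ ≤ (K4 + 1) * (1 / 2) ^ n := by
              have : (0 : ℝ) < (1 / 2) ^ n := by positivity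
              linarith
          _ ≤ (K4 + 1) * (1 / (2 * (K4 + 1))) := by gcongr
          _ = 1 / 2 := by field_simp
    _ = 1 / 2 := by
        rw [ENNReal.ofReal_div_of_pos (by norm_num)]
        norm_num

/-- (N4) the loss per ring is bounded -/
theorem CRL_le {C c : ℝ} (hp : 0 < p) (hp1 : p < 1) (hC : 0 ≤ C) {m N : ℕ}
    (hm : 0 < m) (hcm : 2 * (C * c ^ 2) ≤ (m : ℝ) ^ 2) (hN : (N : ℝ) ≤ 81 * m ^ 2) :
    CRL p C (c / m) N ≤ π * (1 + CK p * 2 ^ p) * Real.exp (162 * (C * c ^ 2)) := by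
  have hm' : (0 : ℝ) < m := by exact_mod_cast hm
  obtain ⟨x, hx⟩ : ∃ x, x = C * (c / m) ^ 2 := ⟨_, rfl⟩
  have hx0 : 0 ≤ x := by
    rw [hx]
    positivity
  have hx1 : x = C * c ^ 2 / m ^ 2 := by
    rw [hx, div_pow]
    ring
  have hx2 : x ≤ 1 / 2 := by
    rw [hx1, div_le_iff₀ (by positivity)]
    linarith
  have h1 := exp_le_one_sub hx0 hx2
  unfold CRL
  rw [← hx]
  have h2 : Real.exp (-(162 * (C * c ^ 2))) ≤ (1 - x) ^ N := by
    calc Real.exp (-(162 * (C * c ^ 2))) ≤ Real.exp (N * -(2 * x)) := by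
          refine Real.exp_le_exp.2 ?_
          have h3 : (N : ℝ) * x ≤ 81 * m ^ 2 * x := mul_le_mul_of_nonneg_right hN hx0
          have h4 : 81 * (m : ℝ) ^ 2 * x = 81 * (C * c ^ 2) := by
            rw [hx1]
            field_simp
          linarith
      _ = Real.exp (-(2 * x)) ^ N := Real.exp_nat_mul _ _
      _ ≤ _ := pow_le_pow_left₀ (Real.exp_pos _).le h1 N
  have h3 := CK_nonneg hp hp1
  have h4 := Real.pi_pos
  rw [div_le_iff₀ (lt_of_lt_of_le (Real.exp_pos _) h2)]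
  have h5 : Real.exp (162 * (C * c ^ 2)) * Real.exp (-(162 * (C * c ^ 2))) = 1 := by
    rw [← Real.exp_add, add_neg_cancel, Real.exp_zero]
  calc π * (1 + CK p * 2 ^ p) = π * (1 + CK p * 2 ^ p) *
        (Real.exp (162 * (C * c ^ 2)) * Real.exp (-(162 * (C * c ^ 2)))) := by rw [h5, mul_one]
    _ ≤ π * (1 + CK p * 2 ^ p) * (Real.exp (162 * (C * c ^ 2)) * (1 - x) ^ N) := by gcongr
    _ = _ := by ring

end P365CUL
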