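import Vale.Agent.P365.CUL841.Chain740
import Vale.Agent.P365.CUL841.Num841
import Vale.Agent.P365.CUL841.Gap755

set_option linter.all false

/-!
# P365 / CUL841 / Final740: the composition theorem, label version: smallness of the crossing
quantity on tori at finitely many consecutive scales implies exponential decay of the fractional
moments.
-/

namespace P365CUL

open MeasureTheory ProbabilityTheory Complex Matrix Function P365S6 Filter Topology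
open P365L hiding cut
open P365L.Comp P365X P365CU
open scoped ENNReal Real

variable {X : Finset Site} {lam w C c p : ℝ} {ζ : ℂ} {μ : Measure SV} [IsProbabilityMeasure μ]
  {r : ℝ → ℝ → ℝ}

/-- the crossing quantity of the scale `m` is at most `th`, on some torus, for all small `η` -/
def SmTor (μ : Measure SV) (c p th E : ℝ) (m : ℕ) : Prop :=
  ∃ N : ℕ, ∃ _ : NeZero N, Even N ∧ 32 * m ≤ N ∧ ∃ e0 : ℝ, 0 < e0 ∧ ∀ e : ℝ, 0 < e → e ≤ e0 →
    TTor μ N c p (E + e * I) m ≤ ENNReal.ofReal th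

/-- the law of the values of a product law -/
theorem LawP.map_vl (hLaw : LawP lam w C μ r) {ι : Type*} [Fintype ι] {G : (ι → ℝ) → ℝ≥0∞}
    (hG : Measurable G) : ∫⁻ v, G v ∂(Measure.pi fun _ : ι => scl lam uni) =
      ∫⁻ ω, G (vl ω) ∂(Measure.pi fun _ : ι => μ) := by
  have h2 : (Measure.pi fun _ : ι => scl lam uni) = (Measure.pi fun _ : ι => μ).map vl := by
    rw [← hLaw.marg]
    have : ∀ _ : ι, SigmaFinite (μ.map Prod.snd) := fun _ => by
      have : IsProbabilityMeasure (μ.map Prod.snd) :=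
        Measure.isProbabilityMeasure_map measurable_snd.aemeasurable
      infer_instance
    exact (Measure.pi_map_pi (μ := fun _ : ι => μ) (f := fun _ a => a.2)
      fun _ => measurable_snd.aemeasurable).symm
  rw [h2, lintegral_map hG measurable_vl]

/-- from the boundary sum to the block norm -/
theorem LawP.tau_le (hLaw : LawP lam w C μ r) (hp : 0 < p) (ζ : ℂ) (R : ℕ)
    (h0 : (0 : Site) ∈ Bl 0 R) :
    tau (scl lam uni) ζ p R ≤ (sub (Bl 0 R) (Sh 0 R)).card *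
      ∫⁻ ω, MP (AF (Bl 0 R)) ζ (0 : Bl 0 R → ℝ) p {⟨0, h0⟩} (sub (Bl 0 R) (Sh 0 R)) ω
        ∂(Measure.pi fun _ : Bl 0 R => μ) := by
  have hs : sub (Bl 0 R) {(0 : Site)} = {⟨0, h0⟩} := by
    ext v
    rw [mem_sub, Finset.mem_singleton, Finset.mem_singleton, Subtype.ext_iff]
  unfold tau ER
  rw [hs, Finset.sum_singleton, ← nsmul_eq_mul]
  refine Finset.sum_le_card_nsmul _ _ _ fun b hb => ?_
  unfold EG
  rw [hLaw.map_vl (measurable_H p _ b)]
  refine lintegral_mono fun ω => ?_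
  unfold MP
  refine ENNReal.ofReal_le_ofReal ?_
  have hW : WL ζ (0 : Bl 0 R → ℝ) ω = Wv ζ (vl ω) := by
    funext x
    unfold WL Wv vl
    simp
  have h1 : ‖Gr (AF (Bl 0 R)) (Wv ζ (vl ω)) ⟨0, h0⟩ b‖ ^ 2 ≤
      MM (AF (Bl 0 R)) ζ (0 : Bl 0 R → ℝ) {⟨0, h0⟩} (sub (Bl 0 R) (Sh 0 R)) ω := by
    unfold MM bl
    rw [Finset.sum_singleton, hW]
    refine le_trans (le_of_eq ?_) (Finset.single_le_sum (f := fun b =>
      ‖(dL (0 : Bl 0 R → ℝ) ω ⟨0, h0⟩ : ℂ) * Gr (AF (Bl 0 R)) (Wv ζ (vl ω)) ⟨0, h0⟩ b *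
        dL (0 : Bl 0 R → ℝ) ω b‖ ^ 2) (fun _ _ => sq_nonneg _) hb)
    have hd : ∀ x : Bl 0 R, dL (0 : Bl 0 R → ℝ) ω x = 1 := fun x => dL_zero rfl
    rw [hd, hd, ofReal_one, one_mul, mul_one]
  rw [← P365S6.sq_rpow_half (norm_nonneg _)]
  exact Real.rpow_le_rpow (sq_nonneg _) h1 (by positivity)

theorem card_slN (X : Finset Site) (a m : ℕ) (hm : 8 ≤ m) :
    ((sl X a (4 * m)).card : ℝ) ≤ 81 * m ^ 2 := by
  have h1 : (sl X a (4 * m)).card ≤ (Bl 0 (4 * m)).card := by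
    refine Finset.card_le_card_of_injOn (fun x => (x : Site)) ?_ ?_
    · intro x hx
      have h2 := mem_sl.1 (Finset.mem_coe.1 hx)
      refine Finset.mem_coe.2 (mem_Bl.2 ?_)
      show ds (x : Site) 0 ≤ 4 * m
      have := ds_le_nz (x : Site)
      omega
    · intro x _ y _ h
      exact Subtype.ext h
  have h4 : (Bl 0 (4 * m)).card = (2 * (4 * m) + 1) ^ 2 := by
    unfold Bl
    rw [Finset.card_product]
    simp only [Int.card_Icc]
    have h2 : ((0 : Site).1 + ((4 * m : ℕ) : ℤ) + 1 - ((0 : Site).1 - ((4 * m : ℕ) : ℤ))).toNat =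
        2 * (4 * m) + 1 := by
      have : (0 : Site).1 = 0 := rfl
      rw [this]
      omega
    have h3 : ((0 : Site).2 + ((4 * m : ℕ) : ℤ) + 1 - ((0 : Site).2 - ((4 * m : ℕ) : ℤ))).toNat =
        2 * (4 * m) + 1 := by
      have : (0 : Site).2 = 0 := rfl
      rw [this]
      omega
    rw [h2, h3, sq]
  rw [h4] at h1
  have h5 : (2 * (4 * m) + 1) ^ 2 ≤ 81 * m ^ 2 := by nlinarith
  exact_mod_cast h1.trans h5

theorem bP_le {m : ℕ} (hm : 8 ≤ m) : bP m ≤ 56 * (m : ℝ) ^ 1 * (1 / 2) ^ m := by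
  unfold bP
  refine mul_le_mul_of_nonneg_right ?_ (by positivity)
  have : (8 : ℝ) ≤ m := by exact_mod_cast hm
  linarith

theorem gap_num {m : ℕ} (hm : 8 ≤ m) : 81 * (m : ℝ) ^ 2 * ((24 * m + 8) * (1 / 2) ^ m +
    (64 * m + 8) * (1 / 2) ^ (4 * m)) ≤ 8424 * (m : ℝ) ^ 3 * (1 / 2) ^ m := by
  have h8 : (8 : ℝ) ≤ m := by exact_mod_cast hm
  have h1 : (1 / 2 : ℝ) ^ (4 * m) ≤ (1 / 2) ^ m :=
    pow_le_pow_of_le_one (by norm_num) (by norm_num) (by omega)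
  have h2 : (0 : ℝ) < (1 / 2) ^ m := by positivity
  have h3 : (64 * (m : ℝ) + 8) * (1 / 2) ^ (4 * m) ≤ (64 * m + 8) * (1 / 2) ^ m :=
    mul_le_mul_of_nonneg_left h1 (by positivity)
  have h4 : (24 * (m : ℝ) + 8) * (1 / 2) ^ m + (64 * m + 8) * (1 / 2) ^ (4 * m) ≤
      104 * m * (1 / 2) ^ m := by
    have h5 : (24 * (m : ℝ) + 8) + (64 * m + 8) ≤ 104 * m := by linarith
    have h6 := mul_le_mul_of_nonneg_right h5 h2.le
    nlinarith
  calc 81 * (m : ℝ) ^ 2 * ((24 * m + 8) * (1 / 2) ^ m + (64 * m + 8) * (1 / 2) ^ (4 * m))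
      ≤ 81 * (m : ℝ) ^ 2 * (104 * m * (1 / 2) ^ m) := mul_le_mul_of_nonneg_left h4 (by positivity)
    _ = _ := by ring

/-- iteration of the chain step -/
theorem chain_iter (hLaw : LawP lam w C μ r) (hlam : 0 < lam) (hζ : 0 < ζ.im) (hp : 0 < p)
    (hp1 : p < 1) (hc : 0 < c) {K : ℝ} (hK : 0 < K)
    (HK : ∀ {ι : Type} [Fintype ι] [DecidableEq ι] (A : Matrix ι ι ℝ), A.IsSymm → ∀ ζ : ℂ,
      0 < ζ.im → ∀ (κ : ι → ℝ), (∀ x, 0 ≤ κ x) → ∀ (a : ι) (N L : Finset ι) (t : ℝ)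
      (Bd : Set (ι → SV)), κ a = 0 → (∀ x ∈ N, κ x ≠ 0) → a ∉ L → MeasurableSet Bd → Indep Bd a →
        ∫⁻ ω in Bd, MP A ζ κ p {a} N (mv L t ω) ∂(Measure.pi fun _ : ι => μ) ≤
          ENNReal.ofReal K * (Measure.pi fun _ : ι => μ) Bd)
    {m0 : ℕ} (hm0 : 8 ≤ m0) {B0 θ : ℝ} (hB0 : 0 < B0) {o : X} (ho : nz (o : Site) = 0) {n : ℕ}
    (hX : ∀ j < n, ∀ x : Site, 3 * (4 ^ j * m0) ≤ nz x → nz x < 12 * (4 ^ j * m0) → x ∈ X)
    (hcw : ∀ j, c / (4 ^ j * m0 : ℕ) ≤ w) (hC : ∀ j, C * (c / (4 ^ j * m0 : ℕ)) ^ 2 < 1)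
    (hCR : ∀ j, CRL p C (c / (4 ^ j * m0 : ℕ))
      (sl X (2 * (4 ^ j * m0)) (4 * (4 ^ j * m0))).card ≤ B0)
    (hT : ∀ j < n, ∃ N : ℕ, ∃ _ : NeZero N, 24 * (4 ^ j * m0) < N ∧
      TTor μ N c p ζ (4 ^ j * m0) ≤ ENNReal.ofReal θ) (hθ0 : 0 ≤ θ)
    (hθ : B0 * ((1 + 32 / c) ^ p * (1 + 32 / c) ^ p) * ((1 + 32 / c) ^ (2 * p) * θ) ≤ 1 / 1024)
    (herr : ∀ j, B0 * ((1 + 32 / c) ^ p * (1 + 32 / c) ^ p) *
      (8424 * ((4 ^ j * m0 : ℕ) : ℝ) ^ 3 * (1 / 2) ^ (4 ^ j * m0)) ≤ 1 / 1024)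
    (hbad : ∀ j, B0 * K * 56 * ((4 ^ j * m0 : ℕ) : ℝ) ^ 1 * (1 / 2) ^ (4 ^ j * m0) ≤
      (1 / 1024) ^ (j + 1)) :
    Zin μ X c p ζ {o} (4 ^ n * m0) ≤
      ENNReal.ofReal ((1 / 512) ^ n) * (Zin μ X c p ζ {o} (4 ^ 0 * m0) + 1) := by
  obtain ⟨z, hz⟩ : ∃ z : ℕ → ℝ≥0∞, z = fun j => Zin μ X c p ζ {o} (4 ^ j * m0) := ⟨_, rfl⟩
  obtain ⟨e, he⟩ : ∃ e : ℕ → ℝ≥0∞, e = fun j => ENNReal.ofReal
    (B0 * K * 56 * ((4 ^ j * m0 : ℕ) : ℝ) ^ 1 * (1 / 2) ^ (4 ^ j * m0)) := ⟨_, rfl⟩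
  have hrec := rec_bound (z := z) (e := e) (n := n) (fun j hj => ?_) (fun j hj => ?_)
  · rw [hz] at hrec
    exact hrec
  · have hm1 : m0 ≤ 4 ^ j * m0 := Nat.le_mul_of_pos_left _ (by positivity)
    have hcw' := hcw j
    have hC' := hC j
    have hCR' := hCR j
    have herr' := herr j
    have hXj := hX j hj
    obtain ⟨N, hN0, hN, hTN⟩ := hT j hj
    rw [hz, he]
    beta_reduce
    rw [show 4 ^ (j + 1) * m0 = 4 * (4 ^ j * m0) by ring]
    obtain ⟨m, hm⟩ : ∃ m, m = 4 ^ j * m0 := ⟨_, rfl⟩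
    rw [← hm] at hm1 hcw' hC' hCR' herr' hXj hN hTN ⊢
    have hm8 : 8 ≤ m := hm0.trans hm1
    have hm00 : 0 < m := by omega
    have hmr : (0 : ℝ) < m := by exact_mod_cast hm00
    have hG : (0 : ℝ) ≤ (1 + 32 / c) ^ p * (1 + 32 / c) ^ p := by positivity
    have hS : ∀ x ∈ ({o} : Finset X), nz (x : Site) < 2 * m := fun x hx => by
      rw [Finset.mem_singleton] at hx
      rw [hx, ho]
      omega
    have hD : ∀ t, ∫⁻ ω in BdR X m, MP (P365L.Comp.cut (AF X) (inn X (12 * m))) ζ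
        (prI X c (4 * m)) p {o} (sl X (8 * m) (12 * m)) (mv (sl X (2 * m) (4 * m)) t ω)
        ∂(Measure.pi fun _ : X => μ) ≤ ENNReal.ofReal (K * bP m) := by
      intro t
      refine (HK _ (cut_symm (AF_symm X) _) ζ hζ (prI X c (4 * m)) (prI_nonneg hc) o
        (sl X (8 * m) (12 * m)) (sl X (2 * m) (4 * m)) t (BdR X m) ?_ (fun x hx => ?_) ?_
        (meas_BdR X m) (indep_BdR hm00 (Or.inl ?_))).trans ?_
      · unfold prI
        rw [if_neg]
        rw [mem_sl, ho]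
        omega
      · unfold prI
        rw [if_pos]
        · have : (0 : ℝ) < (4 * m : ℕ) := by exact_mod_cast (by omega : 0 < 4 * m)
          positivity
        · rw [mem_sl] at hx ⊢
          omega
      · rw [mem_sl, ho]
        omega
      · rw [ho]
        omega
      · rw [ENNReal.ofReal_mul hK.le]
        exact mul_le_mul' le_rfl (prob_BdR hLaw hm8)
    have hstep := chain_step hLaw hlam hζ hp hp1 hm8 hc hcw' hC' hS hD
    have hgap := gap_le (X := X) hLaw hζ hc hp hp1 hm8 hN hXj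
    have hTX : TX μ X c p ζ m ≤ ENNReal.ofReal ((1 + 32 / c) ^ (2 * p) * θ +
        8424 * (m : ℝ) ^ 3 * (1 / 2) ^ m) := by
      refine hgap.trans ?_
      have e1 : ENNReal.ofReal ((1 + 32 / c) ^ (2 * p) * θ + 8424 * (m : ℝ) ^ 3 * (1 / 2) ^ m) =
          ENNReal.ofReal ((1 + 32 / c) ^ (2 * p)) * ENNReal.ofReal θ +
            ENNReal.ofReal (8424 * (m : ℝ) ^ 3 * (1 / 2) ^ m) := by
        rw [ENNReal.ofReal_add (by positivity) (by positivity),
          ENNReal.ofReal_mul (by positivity)]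
      rw [e1]
      exact add_le_add (mul_le_mul' le_rfl hTN) (ENNReal.ofReal_le_ofReal (gap_num hm8))
    have hbPm := bP_le hm8
    have hbP0 : 0 ≤ bP m := by
      unfold bP
      positivity
    calc Zin μ X c p ζ {o} (4 * m) ≤ _ := hstep
      _ ≤ ENNReal.ofReal B0 * (ENNReal.ofReal ((1 + 32 / c) ^ p * (1 + 32 / c) ^ p) *
          (Zin μ X c p ζ {o} m * ENNReal.ofReal ((1 + 32 / c) ^ (2 * p) * θ +
            8424 * (m : ℝ) ^ 3 * (1 / 2) ^ m)) + ENNReal.ofReal (K * bP m)) :=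
          mul_le_mul' (ENNReal.ofReal_le_ofReal hCR') (add_le_add (mul_le_mul' le_rfl
            (mul_le_mul' le_rfl hTX)) le_rfl)
      _ = ENNReal.ofReal (B0 * (((1 + 32 / c) ^ p * (1 + 32 / c) ^ p) *
            ((1 + 32 / c) ^ (2 * p) * θ + 8424 * (m : ℝ) ^ 3 * (1 / 2) ^ m))) *
            Zin μ X c p ζ {o} m + ENNReal.ofReal (B0 * (K * bP m)) := by
          rw [ENNReal.ofReal_mul hB0.le, ENNReal.ofReal_mul hG, ENNReal.ofReal_mul hB0.le]
          ring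
      _ ≤ ENNReal.ofReal (1 / 512) * Zin μ X c p ζ {o} m + ENNReal.ofReal
            (B0 * K * 56 * (m : ℝ) ^ 1 * (1 / 2) ^ m) := by
          refine add_le_add (mul_le_mul' (ENNReal.ofReal_le_ofReal ?_) le_rfl)
            (ENNReal.ofReal_le_ofReal ?_)
          · calc B0 * (((1 + 32 / c) ^ p * (1 + 32 / c) ^ p) *
                ((1 + 32 / c) ^ (2 * p) * θ + 8424 * (m : ℝ) ^ 3 * (1 / 2) ^ m)) =
                B0 * ((1 + 32 / c) ^ p * (1 + 32 / c) ^ p) * ((1 + 32 / c) ^ (2 * p) * θ) +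
                B0 * ((1 + 32 / c) ^ p * (1 + 32 / c) ^ p) *
                  (8424 * (m : ℝ) ^ 3 * (1 / 2) ^ m) := by ring
              _ ≤ 1 / 1024 + 1 / 1024 := add_le_add hθ herr'
              _ = 1 / 512 := by norm_num
          · calc B0 * (K * bP m) = B0 * K * bP m := by ring
              _ ≤ B0 * K * (56 * (m : ℝ) ^ 1 * (1 / 2) ^ m) :=
                  mul_le_mul_of_nonneg_left hbPm (by positivity)
              _ = _ := by ring
  · rw [he]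
    exact ENNReal.ofReal_le_ofReal (hbad j)

/-- **COMPOSITION THEOREM, label version** (213's F1) -/
theorem comp_mainL (hlam : 0 < lam) (hLaw : LawP lam w C μ r) (hc : 0 < c) (hp : 0 < p)
    (hp4 : p < 1 / 4) :
    ∃ th0 : ℝ, 0 < th0 ∧ ∃ M1 : ℕ, ∀ m0 ≥ M1, ∃ n : ℕ, ∀ E : ℝ,
      (∀ j < n, SmTor μ c p th0 E (4 ^ j * m0)) → P365L.InfB.FMboxR (scl lam uni) E := by
  have hp1 : p < 1 := by linarith
  have hC0 := hLaw.C_nonneg
  have hw0 := hLaw.w_pos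
  obtain ⟨K, hK, HK⟩ := est_all (p := p) (lam := lam) hp hp1 hlam
  have hCK := CK_nonneg hp hp1
  have hπ := Real.pi_pos
  obtain ⟨B0, hB0⟩ : ∃ B0, B0 = π * (1 + CK p * 2 ^ p) * Real.exp (162 * (C * c ^ 2)) := ⟨_, rfl⟩
  have hB0p : 0 < B0 := by
    rw [hB0]
    positivity
  obtain ⟨G2, hG2⟩ : ∃ G2, G2 = (1 + 32 / c) ^ p * (1 + 32 / c) ^ p := ⟨_, rfl⟩
  have hG2p : 0 < G2 := by
    rw [hG2]
    positivity
  obtain ⟨Gg, hGg⟩ : ∃ Gg, Gg = (1 + 32 / c) ^ (2 * p) := ⟨_, rfl⟩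
  have hGgp : 0 < Gg := by
    rw [hGg]
    positivity
  refine ⟨1 / (1024 * B0 * G2 * Gg), by positivity, ?_⟩
  obtain ⟨Ma, hMa⟩ := bad_small (B0 * G2 * 8424) 3
  obtain ⟨Mb, hMb⟩ := bad_small (B0 * K * 56) 1
  obtain ⟨Mc, hMc⟩ := bad_small 56 1
  have hev : ∀ᶠ m : ℕ in atTop, c ≤ w * m ∧ 2 * (C * c ^ 2) ≤ (m : ℝ) ^ 2 ∧
      C * c ^ 2 < (m : ℝ) ^ 2 := by
    have h1 : ∀ᶠ m : ℕ in atTop, c / w ≤ m := tendsto_natCast_atTop_atTop.eventually_ge_atTop _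
    have h2 : ∀ᶠ m : ℕ in atTop, 2 * (C * c ^ 2) + 1 ≤ m :=
      tendsto_natCast_atTop_atTop.eventually_ge_atTop _
    filter_upwards [h1, h2] with m a1 a2
    have hx : 0 ≤ C * c ^ 2 := by positivity
    have a3 : (m : ℝ) ≤ (m : ℝ) ^ 2 := by nlinarith
    refine ⟨?_, by linarith, by linarith⟩
    rw [div_le_iff₀ hw0] at a1
    linarith
  obtain ⟨Md, hMd⟩ := eventually_atTop.1 hev
  refine ⟨max (max Ma Mb) (max (max Mc Md) 8), fun m0 hm0 => ?_⟩
  have hm0a : Ma ≤ m0 := (le_max_left _ _).trans ((le_max_left _ _).trans hm0)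
  have hm0b : Mb ≤ m0 := (le_max_right _ _).trans ((le_max_left _ _).trans hm0)
  have hm0c : Mc ≤ m0 :=
    (le_max_left _ _).trans ((le_max_left _ _).trans ((le_max_right _ _).trans hm0))
  have hm0d : Md ≤ m0 :=
    (le_max_right _ _).trans ((le_max_left _ _).trans ((le_max_right _ _).trans hm0))
  have hm08 : 8 ≤ m0 := (le_max_right _ _).trans ((le_max_right _ _).trans hm0)
  have ha := hMa m0 hm0a
  have hb := hMb m0 hm0b
  have hcc := hMc m0 hm0c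
  obtain ⟨Cr, hCr⟩ : ∃ Cr, Cr = (CL lam p).toReal := ⟨_, rfl⟩
  have hCr0 : 0 ≤ Cr := by
    rw [hCr]
    exact ENNReal.toReal_nonneg
  have hCL : CL lam p = ENNReal.ofReal Cr := by
    rw [hCr, ENNReal.ofReal_toReal (CL_ne_top hp4)]
  obtain ⟨K', hK'⟩ : ∃ K', K' = B0 * (G2 * ((K + 1) * K) + Cr) := ⟨_, rfl⟩
  have hK'0 : 0 ≤ K' := by
    rw [hK']
    positivity
  obtain ⟨n, hn⟩ := close_num (lam := lam) hp4 hK'0 (m0 := m0) (by omega)
  refine ⟨n, fun E hE => ?_⟩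
  obtain ⟨η₀, hη₀, HT⟩ := common_eta (P := fun j η => ∃ N : ℕ, ∃ _ : NeZero N,
      24 * (4 ^ j * m0) < N ∧ TTor μ N c p (E + η * I) (4 ^ j * m0) ≤
        ENNReal.ofReal (1 / (1024 * B0 * G2 * Gg))) n (fun j hj => by
    obtain ⟨N, hN0, _, hN, e0, he0, h⟩ := hE j hj
    have hm1 : 0 < 4 ^ j * m0 := by positivity
    exact ⟨e0, he0, fun η h1 h2 => ⟨N, hN0, by omega, h η h1 h2⟩⟩)
  obtain ⟨mn, hmn⟩ : ∃ mn, mn = 4 ^ n * m0 := ⟨_, rfl⟩
  have hmn1 : m0 ≤ mn := by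
    rw [hmn]
    exact Nat.le_mul_of_pos_left _ (by positivity)
  have hmn8 : 8 ≤ mn := hm08.trans hmn1
  refine FMboxR_of_hyp (CL_ne_top hp4) (hyp_unif hlam hp hp4) hp hp4 E (4 * mn + 1) hη₀
    fun η hη hη1 => ?_
  have hζ : (0 : ℝ) < ((E : ℂ) + η * I).im := by simpa using hη
  obtain ⟨ζ, hζd⟩ : ∃ ζ : ℂ, ζ = (E : ℂ) + η * I := ⟨_, rfl⟩
  have HT' := HT η hη hη1
  rw [← hζd] at hζ ⊢
  simp only [← hζd] at HT'
  obtain ⟨R, hR⟩ : ∃ R, R = 4 * mn + 1 := ⟨_, rfl⟩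
  rw [← hR]
  have h0X : (0 : Site) ∈ Bl 0 R := by
    rw [mem_Bl, ds_self]
    exact Nat.zero_le _
  obtain ⟨o, ho⟩ : ∃ o : Bl 0 R, o = ⟨0, h0X⟩ := ⟨_, rfl⟩
  have ho0 : nz (o : Site) = 0 := by
    rw [ho]
    exact nz_zero
  have hmj : ∀ j, m0 ≤ 4 ^ j * m0 := fun j => Nat.le_mul_of_pos_left _ (by positivity)
  have hmjr : ∀ j, (0 : ℝ) < (4 ^ j * m0 : ℕ) := fun j => by
    have : 0 < 4 ^ j * m0 := by have := hmj j; omega
    exact_mod_cast this
  have hcw : ∀ j, c / (4 ^ j * m0 : ℕ) ≤ w := fun j => by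
    rw [div_le_iff₀ (hmjr j)]
    exact (hMd _ (hm0d.trans (hmj j))).1
  have hCC : ∀ j, C * (c / (4 ^ j * m0 : ℕ)) ^ 2 < 1 := fun j => by
    have h1 := (hMd _ (hm0d.trans (hmj j))).2.2
    have h2 := hmjr j
    rw [div_pow, ← mul_div_assoc, div_lt_one (by positivity)]
    exact h1
  have hCR : ∀ j, CRL p C (c / (4 ^ j * m0 : ℕ))
      (sl (Bl 0 R) (2 * (4 ^ j * m0)) (4 * (4 ^ j * m0))).card ≤ B0 := fun j => by
    rw [hB0]
    refine CRL_le hp hp1 hC0 (by have := hmj j; omega) (hMd _ (hm0d.trans (hmj j))).2.1 ?_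
    exact card_slN _ _ _ (hm08.trans (hmj j))
  -- the chain
  have hiter := chain_iter (X := Bl 0 R) (ζ := ζ) (o := o) (θ := 1 / (1024 * B0 * G2 * Gg)) hLaw
    hlam hζ hp hp1 hc hK (fun A hA ζ hζ κ hκ => (HK hLaw A hA ζ hζ κ hκ).2.2) hm08 hB0p ho0
    (n := n) (fun j hj x _ hx => by
      rw [mem_Bl, hR, hmn]
      have h1 : 4 ^ (j + 1) ≤ 4 ^ n := Nat.pow_le_pow_right (by norm_num) hj
      have h2 : 4 ^ (j + 1) * m0 ≤ 4 ^ n * m0 := Nat.mul_le_mul_right _ h1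
      have h3 : 4 ^ (j + 1) * m0 = 4 * (4 ^ j * m0) := by ring
      have h4 := ds_le_nz x
      omega)
    hcw hCC hCR HT' (by positivity) (by
      rw [← hG2, ← hGg]
      refine le_of_eq ?_
      field_simp)
    (fun j => by
      rw [← hG2]
      have h1 := ha j
      have h2 : ((1 : ℝ) / 1024) ^ (j + 1) ≤ 1 / 1024 := by
        have h3 : ((1 : ℝ) / 1024) ^ (j + 1) ≤ (1 / 1024) ^ 1 :=
          pow_le_pow_of_le_one (by norm_num) (by norm_num) (by omega)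
        rwa [pow_one] at h3
      refine le_trans (le_of_eq ?_) (h1.trans h2)
      ring)
    hb
  rw [← hmn] at hiter
  have hin0 : Zin μ (Bl 0 R) c p ζ {o} (4 ^ 0 * m0) ≤ ENNReal.ofReal K := by
    have hm00 : (0 : ℝ) < (4 ^ 0 * m0 : ℕ) := hmjr 0
    refine (HK hLaw _ (cut_symm (AF_symm _) _) ζ hζ _ (prI_nonneg hc)).1 o _ ?_ fun x hx => ?_
    · unfold prI
      rw [if_neg]
      rw [mem_sl, ho0]
      omega
    · unfold prI
      rw [if_pos hx]
      positivity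
  have hZin : Zin μ (Bl 0 R) c p ζ {o} mn ≤ ENNReal.ofReal ((1 / 512) ^ n * (K + 1)) := by
    refine hiter.trans ?_
    rw [ENNReal.ofReal_mul (by positivity), ENNReal.ofReal_add hK.le zero_le_one,
      ENNReal.ofReal_one]
    exact mul_le_mul' le_rfl (add_le_add hin0 le_rfl)
  obtain ⟨B, hB⟩ : ∃ B : Finset (Bl 0 R), B = sub (Bl 0 R) (Sh 0 R) := ⟨_, rfl⟩
  have hBd : ∀ b ∈ B, 4 * mn ≤ nz (b : Site) := by
    intro b hb
    rw [hB, mem_sub, mem_Sh] at hb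
    have := ds_le_nz (b : Site)
    omega
  have hBc : (B.card : ℝ) ≤ 8 * R + 20 := by
    have h1 : B.card ≤ 8 * R + 4 := by
      rw [hB]
      exact (card_sub_le _ _).trans (card_Sh_le _ _)
    have h2 : (B.card : ℝ) ≤ 8 * R + 4 := by exact_mod_cast h1
    linarith
  have hmnr : (0 : ℝ) < (mn : ℝ) := by
    have := hmjr n
    rwa [← hmn] at this
  have hZout : Zout μ (Bl 0 R) c p ζ B mn ≤ B.card * ENNReal.ofReal K := by
    refine (HK hLaw _ (cut_symm (AF_symm _) _) ζ hζ _ (prO_nonneg hc)).2.1 B _ (fun b hb => ?_)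
      fun x hx => ?_
    · unfold prO
      rw [if_neg]
      have := hBd b hb
      rw [mem_sl]
      omega
    · unfold prO
      rw [if_pos hx]
      positivity
  have hcwn := hcw n
  have hCCn := hCC n
  have hCRn := hCR n
  rw [← hmn] at hcwn hCCn hCRn
  have hbadn := hcc n
  rw [← hmn] at hbadn
  have hend := chain_end (X := Bl 0 R) (ζ := ζ) (S := {o}) (B := B)
    (D := B.card * (CL lam p * ENNReal.ofReal (bP mn))) hLaw hlam hζ hp hp1 hmn8 hc hcwn hCCn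
    (fun x hx => by
      rw [Finset.mem_singleton] at hx
      rw [hx, ho0]
      omega) hBd (fun t => by
      refine (hLaw.est_bad_end hp hp4 hlam (AF_symm _) hζ o B _ t ?_ (fun b hb => ?_)
        (meas_BdR _ _) (indep_BdR (by omega) (Or.inl ?_)) (fun b hb =>
          indep_BdR (by omega) (Or.inr (hBd b hb)))).trans ?_
      · rw [mem_sl, ho0]
        omega
      · have := hBd b hb
        rw [mem_sl]
        omega
      · rw [ho0]
        omega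
      · exact mul_le_mul' le_rfl (mul_le_mul' le_rfl (prob_BdR hLaw hmn8)))
  have htau := hLaw.tau_le hp ζ R h0X
  rw [← hB, ← ho] at htau
  -- numbers
  have hq : (1 / 1024 : ℝ) ^ (n + 1) ≤ (1 / 512) ^ n := by
    calc (1 / 1024 : ℝ) ^ (n + 1) ≤ (1 / 1024) ^ n :=
          pow_le_pow_of_le_one (by norm_num) (by norm_num) (by omega)
      _ ≤ (1 / 512) ^ n := pow_le_pow_left₀ (by norm_num) (by norm_num) n
  have hbP : bP mn ≤ (1 / 512) ^ n := (bP_le hmn8).trans (hbadn.trans hq)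
  obtain ⟨b, hbdef⟩ : ∃ b : ℝ≥0∞, b = ENNReal.ofReal (8 * R + 20) := ⟨_, rfl⟩
  have hBb : (B.card : ℝ≥0∞) ≤ b := by
    rw [hbdef, ← ENNReal.ofReal_natCast]
    exact ENNReal.ofReal_le_ofReal hBc
  have hfin : tau (scl lam uni) ζ p R ≤
      ENNReal.ofReal (K' * (8 * R + 20) ^ 2 * (1 / 512) ^ n) := by
    calc tau (scl lam uni) ζ p R ≤ B.card * ∫⁻ ω, MP (AF (Bl 0 R)) ζ (0 : Bl 0 R → ℝ) p {o} B ω
          ∂(Measure.pi fun _ : Bl 0 R => μ) := htau
      _ ≤ b * (ENNReal.ofReal B0 * (ENNReal.ofReal G2 *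
          (ENNReal.ofReal ((1 / 512) ^ n * (K + 1)) * (b * ENNReal.ofReal K)) +
            b * (ENNReal.ofReal Cr * ENNReal.ofReal ((1 / 512) ^ n)))) := by
          refine mul_le_mul' hBb (hend.trans ?_)
          rw [← hG2]
          refine mul_le_mul' (ENNReal.ofReal_le_ofReal hCRn) (add_le_add (mul_le_mul' le_rfl
            (mul_le_mul' hZin (hZout.trans (mul_le_mul' hBb le_rfl)))) (mul_le_mul' hBb ?_))
          rw [hCL]
          exact mul_le_mul' le_rfl (ENNReal.ofReal_le_ofReal hbP)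
      _ = _ := by
          have hR0 : (0 : ℝ) ≤ 8 * R + 20 := by positivity
          rw [hbdef, hK']
          rw [← ENNReal.ofReal_mul hR0, ← ENNReal.ofReal_mul (by positivity),
            ← ENNReal.ofReal_mul (by positivity), ← ENNReal.ofReal_mul (by positivity),
            ← ENNReal.ofReal_mul (by positivity), ← ENNReal.ofReal_add (by positivity)
              (by positivity), ← ENNReal.ofReal_mul (by positivity),
            ← ENNReal.ofReal_mul (by positivity)]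
          congr 1
          ring
  have hRle : R ≤ 5 * 4 ^ n * m0 := by
    have h1 : 4 ^ n * m0 = mn := hmn.symm
    have h2 : 5 * 4 ^ n * m0 = 5 * mn := by rw [mul_assoc, h1]
    omega
  exact (mul_le_mul' le_rfl hfin).trans (hn n le_rfl R (by omega) hRle)

end P365CUL
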