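import Vale.Agent.P365.CUL841.Chain740
import Vale.Agent.P365.CUL841.Gap755
import Vale.Agent.P365.CUL841.Num841

set_option linter.all false

/-!
# P365 / CUL841 / Final841: the composition theorem with label leads (shadow of Final740).
-/

namespace P365CUL.F841

open MeasureTheory ProbabilityTheory Complex Matrix Function P365S6 Filter Topology
open P365L P365L.Comp P365X P365CU P365CUL
open scoped ENNReal Real

variable {lam w C c p : ℝ} {ζ : ℂ} {μ : Measure SV} [IsProbabilityMeasure μ] {r : ℝ → ℝ → ℝ}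

/-- smallness of the crossing quantity on some torus of side `≥ 32 m` -/
def SmTor (μ : Measure SV) (c p θ E : ℝ) (m : ℕ) : Prop :=
  ∃ N : ℕ, ∃ _ : NeZero N, Even N ∧ 32 * m ≤ N ∧ ∃ e0 : ℝ, 0 < e0 ∧ ∀ e : ℝ, 0 < e → e ≤ e0 →
    TTor μ N c p (E + e * I) m ≤ ENNReal.ofReal θ

omit [IsProbabilityMeasure μ] in
theorem card_sl841 (X : Finset Site) (a b : ℕ) : (sl X a b).card ≤ (2 * b) ^ 2 := by
  have h1 : (sl X a b).card ≤
      (Finset.Ico (-(b : ℤ)) b ×ˢ Finset.Ico (-(b : ℤ)) b).card := by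
    refine Finset.card_le_card_of_injOn (fun x => (x : Site)) ?_ ?_
    · intro x hx
      have h2 := (mem_sl.1 (Finset.mem_coe.1 hx)).2
      rw [nz_lt] at h2
      rw [Finset.mem_coe, Finset.mem_product, Finset.mem_Ico, Finset.mem_Ico]
      exact h2
    · intro x _ y _ h
      exact Subtype.ext h
  refine h1.trans (le_of_eq ?_)
  rw [Finset.card_product, Int.card_Ico, sq]
  have h2 : ((b : ℤ) - -(b : ℤ)).toNat = 2 * b := by omega
  rw [h2]

theorem card_le841 (X : Finset Site) (a m : ℕ) : ((sl X a (4 * m)).card : ℝ) ≤ 81 * m ^ 2 := by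
  have h1 := card_sl841 X a (4 * m)
  have h2 : (2 * (4 * m)) ^ 2 ≤ 81 * m ^ 2 := by nlinarith
  have h3 : (sl X a (4 * m)).card ≤ 81 * m ^ 2 := h1.trans h2
  exact_mod_cast h3

/-- marginal law of the values -/
theorem lint_vl (hLaw : LawP lam w C μ r) {ι : Type} [Fintype ι] [DecidableEq ι]
    {F : (ι → ℝ) → ℝ≥0∞} (hF : Measurable F) :
    ∫⁻ v, F v ∂(Measure.pi fun _ : ι => scl lam uni) =
      ∫⁻ ω, F (vl ω) ∂(Measure.pi fun _ : ι => μ) := by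
  have h1 : (Measure.pi fun _ : ι => scl lam uni) =
      (Measure.pi fun _ : ι => μ).map (vl : (ι → SV) → ι → ℝ) := by
    have h2 := Measure.pi_map_pi (μ := fun _ : ι => μ) (f := fun _ : ι => (Prod.snd : SV → ℝ))
      (fun _ => measurable_snd.aemeasurable)
    rw [← hLaw.marg]
    exact h2.symm
  rw [h1, lintegral_map hF measurable_vl]

/-- from the boundary sum to the weighted norm -/
theorem tau_le841 (hLaw : LawP lam w C μ r) (hp : 0 < p) (ζ : ℂ) (R : ℕ)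
    (h0 : (0 : Site) ∈ Bl 0 R) :
    tau (scl lam uni) ζ p R ≤ (sub (Bl 0 R) (Sh 0 R)).card *
      ∫⁻ ω, MP (AF (Bl 0 R)) ζ (0 : Bl 0 R → ℝ) p {⟨0, h0⟩} (sub (Bl 0 R) (Sh 0 R)) ω
        ∂(Measure.pi fun _ : Bl 0 R => μ) := by
  have hs : sub (Bl 0 R) {(0 : Site)} = {⟨0, h0⟩} := by
    ext v
    rw [mem_sub, Finset.mem_singleton, Finset.mem_singleton, Subtype.ext_iff]
  unfold tau ER
  rw [hs, Finset.sum_singleton, ← nsmul_eq_mul]
  refine Finset.sum_le_card_nsmul _ _ _ fun b hb => ?_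
  unfold EG
  rw [lint_vl hLaw (measurable_H p _ b)]
  refine lintegral_mono fun ω => ?_
  unfold MP
  refine ENNReal.ofReal_le_ofReal ?_
  have hW : Wv ζ (vl ω) = WL ζ (0 : Bl 0 R → ℝ) ω := by
    funext x
    unfold Wv WL vl
    simp
  rw [hW]
  have h1 : ‖Gr (AF (Bl 0 R)) (WL ζ (0 : Bl 0 R → ℝ) ω) ⟨0, h0⟩ b‖ ^ 2 ≤
      MM (AF (Bl 0 R)) ζ (0 : Bl 0 R → ℝ) {⟨0, h0⟩} (sub (Bl 0 R) (Sh 0 R)) ω := by
    unfold MM bl
    rw [Finset.sum_singleton]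
    refine le_trans (le_of_eq ?_) (Finset.single_le_sum (f := fun b =>
      ‖(dL (0 : Bl 0 R → ℝ) ω ⟨0, h0⟩ : ℂ) * Gr (AF (Bl 0 R)) (WL ζ (0 : Bl 0 R → ℝ) ω) ⟨0, h0⟩ b *
        dL (0 : Bl 0 R → ℝ) ω b‖ ^ 2) (fun _ _ => sq_nonneg _) hb)
    have hd : ∀ x : Bl 0 R, dL (0 : Bl 0 R → ℝ) ω x = 1 := fun x => by
      unfold dL
      rw [Pi.zero_apply, if_pos rfl]
    rw [hd, hd, ofReal_one, one_mul, mul_one]
  rw [← P365S6.sq_rpow_half (norm_nonneg _)]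
  exact Real.rpow_le_rpow (sq_nonneg _) h1 (by positivity)

omit [IsProbabilityMeasure μ] in
theorem fin_num {B0 G K Cr b T P q K' : ℝ} (h1 : 0 ≤ B0) (h2 : 0 ≤ G) (h3 : 0 ≤ K) (h4 : 0 ≤ Cr)
    (h5 : 0 ≤ b) (h6 : b ≤ T) (h7 : 0 ≤ P) (h8 : 0 ≤ q) (h9 : B0 * Cr * P ≤ q)
    (hK' : K' = B0 * G * (K + 1) * K + 1) :
    ENNReal.ofReal b * (ENNReal.ofReal B0 *
          (ENNReal.ofReal G * (ENNReal.ofReal (q * (K + 1)) *
            (ENNReal.ofReal b * ENNReal.ofReal K)) +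
            ENNReal.ofReal b * (ENNReal.ofReal Cr * ENNReal.ofReal P))) ≤
      ENNReal.ofReal (K' * T ^ 2 * q) := by
  rw [← ENNReal.ofReal_mul h5, ← ENNReal.ofReal_mul h4, ← ENNReal.ofReal_mul h5,
    ← ENNReal.ofReal_mul (by positivity), ← ENNReal.ofReal_mul h2,
    ← ENNReal.ofReal_add (by positivity) (by positivity), ← ENNReal.ofReal_mul h1,
    ← ENNReal.ofReal_mul h5]
  refine ENNReal.ofReal_le_ofReal ?_
  calc b * (B0 * (G * (q * (K + 1) * (b * K)) + b * (Cr * P)))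
      = b ^ 2 * (B0 * G * (K + 1) * K * q + B0 * Cr * P) := by ring
    _ ≤ T ^ 2 * (B0 * G * (K + 1) * K * q + q) := by
        gcongr
    _ = _ := by
        rw [hK']
        ring

/-- **COMPOSITION WITH LABEL LEADS** -/
theorem comp_mainL (hlam : 0 < lam) (hLaw : LawP lam w C μ r) (hc : 0 < c) (hp : 0 < p)
    (hp4 : p < 1 / 4) : ∃ θ0 : ℝ, 0 < θ0 ∧ ∃ M1 : ℕ, ∀ m0 ≥ M1, ∃ n : ℕ, ∀ E : ℝ,
      (∀ j < n, SmTor μ c p θ0 E (4 ^ j * m0)) → P365L.InfB.FMboxR (scl lam uni) E := by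
  have hp1 : p < 1 := by linarith
  obtain ⟨K, hK, HK⟩ := est_all hp hp1 hlam
  obtain ⟨G, hG⟩ : ∃ G : ℝ, G = (1 + 32 / c) ^ p * (1 + 32 / c) ^ p := ⟨_, rfl⟩
  have hG0 : 0 < G := by
    rw [hG]
    positivity
  obtain ⟨H, hH⟩ : ∃ H : ℝ, H = (1 + 32 / c) ^ (2 * p) := ⟨_, rfl⟩
  have hH0 : 0 < H := by
    rw [hH]
    positivity
  have hC0 := hLaw.C_nonneg
  have hw := hLaw.w_pos
  obtain ⟨B0, hB0⟩ : ∃ B0 : ℝ, B0 = π * (1 + CK p * 2 ^ p) * Real.exp (162 * (C * c ^ 2)) :=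
    ⟨_, rfl⟩
  have hB0p : 0 < B0 := by
    rw [hB0]
    have := CK_nonneg hp hp1
    have := Real.pi_pos
    positivity
  obtain ⟨Cr, hCr⟩ : ∃ Cr, Cr = (CL lam p).toReal := ⟨_, rfl⟩
  have hCr0 : 0 ≤ Cr := by
    rw [hCr]
    exact ENNReal.toReal_nonneg
  have hCL : CL lam p = ENNReal.ofReal Cr := by
    rw [hCr]
    exact (ENNReal.ofReal_toReal (CL_ne_top hp4)).symm
  refine ⟨1 / (1024 * B0 * G * H), by positivity, ?_⟩
  obtain ⟨Ma, hMa⟩ := bad_small (8424 * B0 * G) 3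
  obtain ⟨Mb, hMb⟩ := bad_small (56 * B0 * (K + Cr)) 1
  obtain ⟨Mc, hMc⟩ := exists_nat_ge (c / w)
  obtain ⟨Md, hMd⟩ := exists_nat_ge (2 * (C * c ^ 2))
  refine ⟨Ma + Mb + Mc + Md + 8, fun m0 hm0 => ?_⟩
  -- the scale
  have hmj : ∀ j, m0 ≤ 4 ^ j * m0 := fun j => Nat.le_mul_of_pos_left _ (by positivity)
  have hscale : ∀ j, 8 ≤ 4 ^ j * m0 ∧ c / (4 ^ j * m0 : ℕ) ≤ w ∧
      2 * (C * c ^ 2) ≤ ((4 ^ j * m0 : ℕ) : ℝ) ^ 2 := by
    intro j
    obtain ⟨m, hm⟩ : ∃ m, m = 4 ^ j * m0 := ⟨_, rfl⟩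
    have h1 := hmj j
    rw [← hm] at h1 ⊢
    have h2 : 8 ≤ m := by omega
    have h3 : Mc ≤ m := by omega
    have h4 : Md ≤ m := by omega
    have h5 : (0 : ℝ) < m := by exact_mod_cast (by omega : 0 < m)
    have h3' : (Mc : ℝ) ≤ m := by exact_mod_cast h3
    have h4' : (Md : ℝ) ≤ m := by exact_mod_cast h4
    have h6 : (1 : ℝ) ≤ m := by exact_mod_cast (by omega : 1 ≤ m)
    refine ⟨h2, ?_, ?_⟩
    · rw [div_le_iff₀ h5]
      have h7 : c / w ≤ m := hMc.trans h3'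
      rw [div_le_iff₀ hw] at h7
      linarith
    · nlinarith
  have hCc : ∀ j, C * (c / (4 ^ j * m0 : ℕ)) ^ 2 < 1 := by
    intro j
    obtain ⟨h1, _, h3⟩ := hscale j
    obtain ⟨m, hm⟩ : ∃ m, m = 4 ^ j * m0 := ⟨_, rfl⟩
    rw [← hm] at h1 h3 ⊢
    have h5 : (0 : ℝ) < m := by exact_mod_cast (by omega : 0 < m)
    rw [div_pow, ← mul_div_assoc, div_lt_one (by positivity)]
    nlinarith
  have hCRL : ∀ (X : Finset Site) (j : ℕ), CRL p C (c / (4 ^ j * m0 : ℕ))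
      (sl X (2 * (4 ^ j * m0)) (4 * (4 ^ j * m0))).card ≤ B0 := by
    intro X j
    obtain ⟨h1, _, h3⟩ := hscale j
    rw [hB0]
    exact CRL_le hp hp1 hC0 (by omega) h3 (card_le841 X _ _)
  have hbP : ∀ j, B0 * (K + Cr) * bP (4 ^ j * m0) ≤ (1 / 1024) ^ (j + 1) := by
    intro j
    refine le_trans ?_ (hMb m0 (by omega) j)
    obtain ⟨h1, _, _⟩ := hscale j
    obtain ⟨m, hm⟩ : ∃ m, m = 4 ^ j * m0 := ⟨_, rfl⟩
    rw [← hm] at h1 ⊢
    have h6 : (1 : ℝ) ≤ m := by exact_mod_cast (by omega : 1 ≤ m)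
    unfold bP
    rw [pow_one]
    have h7 : (40 * (m : ℝ) + 16) ≤ 56 * m := by linarith
    calc B0 * (K + Cr) * ((40 * (m : ℝ) + 16) * (1 / 2) ^ m)
        ≤ B0 * (K + Cr) * (56 * m * (1 / 2) ^ m) := by gcongr
      _ = _ := by ring
  have hbP0 : ∀ m : ℕ, 0 ≤ bP m := fun m => by
    unfold bP
    positivity
  have hgap : ∀ j, B0 * G * (81 * ((4 ^ j * m0 : ℕ) : ℝ) ^ 2 *
      ((24 * ((4 ^ j * m0 : ℕ) : ℝ) + 8) * (1 / 2) ^ (4 ^ j * m0) +
        (64 * ((4 ^ j * m0 : ℕ) : ℝ) + 8) * (1 / 2) ^ (4 * (4 ^ j * m0)))) ≤ 1 / 1024 := by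
    intro j
    have h0 : ((1 : ℝ) / 1024) ^ (j + 1) ≤ 1 / 1024 := by
      calc ((1 : ℝ) / 1024) ^ (j + 1) ≤ (1 / 1024) ^ 1 :=
            pow_le_pow_of_le_one (by norm_num) (by norm_num) (by omega)
        _ = _ := pow_one _
    refine le_trans ?_ ((hMa m0 (by omega) j).trans h0)
    obtain ⟨h1, _, _⟩ := hscale j
    obtain ⟨m, hm⟩ : ∃ m, m = 4 ^ j * m0 := ⟨_, rfl⟩
    rw [← hm] at h1 ⊢
    have h6 : (1 : ℝ) ≤ m := by exact_mod_cast (by omega : 1 ≤ m)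
    have h7 : ((1 : ℝ) / 2) ^ (4 * m) ≤ (1 / 2) ^ m :=
      pow_le_pow_of_le_one (by norm_num) (by norm_num) (by omega)
    calc B0 * G * (81 * (m : ℝ) ^ 2 * ((24 * (m : ℝ) + 8) * (1 / 2) ^ m +
          (64 * (m : ℝ) + 8) * (1 / 2) ^ (4 * m)))
        ≤ B0 * G * (81 * (m : ℝ) ^ 2 * ((32 * (m : ℝ)) * (1 / 2) ^ m +
          (72 * (m : ℝ)) * (1 / 2) ^ m)) := by
          gcongr
          · linarith
          · linarith
      _ = 8424 * B0 * G * (m : ℝ) ^ 3 * (1 / 2) ^ m := by ring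
  -- the number of scales
  obtain ⟨K', hK'⟩ : ∃ K' : ℝ, K' = B0 * G * (K + 1) * K + 1 := ⟨_, rfl⟩
  have hK'0 : 0 ≤ K' := by
    rw [hK']
    positivity
  obtain ⟨n, hn⟩ := close_num (lam := lam) hp4 hK'0 (m0 := m0) (by omega)
  refine ⟨n, fun E hE => ?_⟩
  have hE' : ∀ j < n, ∃ η₀ : ℝ, 0 < η₀ ∧ ∀ η : ℝ, 0 < η → η ≤ η₀ →
      ∃ N : ℕ, ∃ _ : NeZero N, 24 * (4 ^ j * m0) < N ∧
        TTor μ N c p (E + η * I) (4 ^ j * m0) ≤ ENNReal.ofReal (1 / (1024 * B0 * G * H)) := by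
    intro j hj
    obtain ⟨N, hN, _, h2, e0, he0, h3⟩ := hE j hj
    obtain ⟨h1, _, _⟩ := hscale j
    exact ⟨e0, he0, fun η hη hη1 => ⟨N, hN, by omega, h3 η hη hη1⟩⟩
  obtain ⟨η₀, hη₀, HT⟩ := common_eta (P := fun j η => ∃ N : ℕ, ∃ _ : NeZero N,
    24 * (4 ^ j * m0) < N ∧ TTor μ N c p (E + η * I) (4 ^ j * m0) ≤
      ENNReal.ofReal (1 / (1024 * B0 * G * H))) n hE'
  obtain ⟨R, hR⟩ : ∃ R, R = 4 * (4 ^ n * m0) + 1 := ⟨_, rfl⟩
  haveI : IsProbabilityMeasure (scl lam uni) := by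
    rw [← hLaw.marg]
    exact Measure.isProbabilityMeasure_map measurable_snd.aemeasurable
  refine FMboxR_of_hyp (CL_ne_top hp4) (hyp_unif hlam hp hp4) hp hp4 E R hη₀
    fun η hη hη1 => ?_
  have hζ : (0 : ℝ) < ((E : ℂ) + η * I).im := by simpa using hη
  have HT1 := HT η hη hη1
  obtain ⟨ζ, hζd⟩ : ∃ ζ : ℂ, ζ = (E : ℂ) + η * I := ⟨_, rfl⟩
  rw [← hζd] at hζ HT1 ⊢
  have h0X : (0 : Site) ∈ Bl 0 R := by
    rw [mem_Bl, ds_self]
    exact Nat.zero_le _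
  obtain ⟨o, ho⟩ : ∃ o : Bl 0 R, o = ⟨0, h0X⟩ := ⟨_, rfl⟩
  have ho0 : nz (o : Site) = 0 := by
    rw [ho]
    exact nz_zero
  obtain ⟨B, hB⟩ : ∃ B : Finset (Bl 0 R), B = sub (Bl 0 R) (Sh 0 R) := ⟨_, rfl⟩
  have hBd : ∀ b ∈ B, 4 * (4 ^ n * m0) ≤ nz (b : Site) := by
    intro b hb
    rw [hB, mem_sub, mem_Sh] at hb
    have := ds_le_nz (b : Site)
    omega
  have hBc : (B.card : ℝ) ≤ 8 * R + 20 := by
    have h1 : B.card ≤ 8 * R + 4 := by
      rw [hB]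
      exact (card_sub_le _ _).trans (card_Sh_le _ _)
    have h2 : (B.card : ℝ) ≤ 8 * R + 4 := by exact_mod_cast h1
    linarith
  -- the gap factors
  have hTX : ∀ j < n, TX μ (Bl 0 R) c p ζ (4 ^ j * m0) ≤ ENNReal.ofReal (1 / (512 * B0 * G)) := by
    intro j hj
    obtain ⟨N, hN, h1, h2⟩ := HT1 j hj
    obtain ⟨h8, _, _⟩ := hscale j
    have h3 := gap_le (X := Bl 0 R) hLaw hζ hc hp hp1 h8 h1 (fun x h4 h5 => by
      rw [mem_Bl, hR]
      have h6 := ds_le_nz x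
      have h7 : 4 ^ (j + 1) ≤ 4 ^ n := Nat.pow_le_pow_right (by norm_num) hj
      have h9 : 4 ^ (j + 1) * m0 ≤ 4 ^ n * m0 := Nat.mul_le_mul_right _ h7
      have h10 : 4 ^ (j + 1) * m0 = 4 * (4 ^ j * m0) := by ring
      omega)
    rw [← hH] at h3
    refine h3.trans ?_
    have h4 := hgap j
    obtain ⟨e, he⟩ : ∃ e : ℝ, e = 81 * ((4 ^ j * m0 : ℕ) : ℝ) ^ 2 *
      ((24 * ((4 ^ j * m0 : ℕ) : ℝ) + 8) * (1 / 2) ^ (4 ^ j * m0) +
        (64 * ((4 ^ j * m0 : ℕ) : ℝ) + 8) * (1 / 2) ^ (4 * (4 ^ j * m0))) := ⟨_, rfl⟩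
    have he0 : 0 ≤ e := by
      rw [he]
      positivity
    rw [← he] at h4 ⊢
    calc ENNReal.ofReal H * TTor μ N c p ζ (4 ^ j * m0) + ENNReal.ofReal e
        ≤ ENNReal.ofReal H * ENNReal.ofReal (1 / (1024 * B0 * G * H)) + ENNReal.ofReal e := by
          gcongr
      _ = ENNReal.ofReal (H * (1 / (1024 * B0 * G * H)) + e) := by
          rw [← ENNReal.ofReal_mul hH0.le, ← ENNReal.ofReal_add (by positivity) he0]
      _ ≤ _ := by
          refine ENNReal.ofReal_le_ofReal ?_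
          have h5 : H * (1 / (1024 * B0 * G * H)) = 1 / (1024 * (B0 * G)) := by
            field_simp
          have h6 : e ≤ 1 / (1024 * (B0 * G)) := by
            rw [le_div_iff₀ (by positivity)]
            linarith
          have h7 : (1 : ℝ) / (512 * B0 * G) = 1 / (1024 * (B0 * G)) + 1 / (1024 * (B0 * G)) := by
            field_simp
            norm_num
          rw [h5, h7]
          linarith
  have hprob : ∀ j, (Measure.pi fun _ : Bl 0 R => μ) (BdR (Bl 0 R) (4 ^ j * m0)) ≤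
      ENNReal.ofReal (bP (4 ^ j * m0)) := fun j => prob_BdR hLaw (hscale j).1
  -- the recursion
  obtain ⟨z, hz⟩ : ∃ z : ℕ → ℝ≥0∞, z = fun j => Zin μ (Bl 0 R) c p ζ {o} (4 ^ j * m0) := ⟨_, rfl⟩
  have hSo : ∀ j, ∀ x ∈ ({o} : Finset (Bl 0 R)), nz (x : Site) < 2 * (4 ^ j * m0) := by
    intro j x hx
    have h1 := (hscale j).1
    rw [Finset.mem_singleton] at hx
    rw [hx, ho0]
    omega
  have hstep : ∀ j < n, z (j + 1) ≤ ENNReal.ofReal (1 / 512) * z j +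
      ENNReal.ofReal (B0 * (K + Cr) * bP (4 ^ j * m0)) := by
    intro j hj
    obtain ⟨h8, hcw, _⟩ := hscale j
    have e : 4 ^ (j + 1) * m0 = 4 * (4 ^ j * m0) := by ring
    have h1 := chain_step (X := Bl 0 R) hLaw hlam hζ hp hp1 h8 hc hcw (hCc j) (S := {o}) (hSo j)
      (D := ENNReal.ofReal K * ENNReal.ofReal (bP (4 ^ j * m0))) (fun t => by
        refine ((HK hLaw (cut (AF (Bl 0 R)) (inn (Bl 0 R) (12 * (4 ^ j * m0))))
          (cut_symm (AF_symm _) _) ζ hζ (prI (Bl 0 R) c (4 * (4 ^ j * m0))) (prI_nonneg hc)).2.2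
          o (sl (Bl 0 R) (8 * (4 ^ j * m0)) (12 * (4 ^ j * m0)))
          (sl (Bl 0 R) (2 * (4 ^ j * m0)) (4 * (4 ^ j * m0))) t (BdR (Bl 0 R) (4 ^ j * m0))
          ?_ ?_ ?_ (meas_BdR _ _) (indep_BdR (by omega) (by omega))).trans ?_
        · unfold prI
          rw [if_neg]
          rw [mem_sl]
          omega
        · intro x hx
          unfold prI
          rw [mem_sl] at hx
          rw [if_pos (by rw [mem_sl]; omega)]
          have : (0 : ℝ) < (4 * (4 ^ j * m0) : ℕ) := by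
            exact_mod_cast (by omega : 0 < 4 * (4 ^ j * m0))
          positivity
        · rw [mem_sl]
          omega
        · gcongr
          exact hprob j)
    rw [hz]
    beta_reduce
    rw [e]
    refine h1.trans ?_
    have h2 : ENNReal.ofReal (CRL p C (c / (4 ^ j * m0 : ℕ))
      (sl (Bl 0 R) (2 * (4 ^ j * m0)) (4 * (4 ^ j * m0))).card) ≤ ENNReal.ofReal B0 :=
      ENNReal.ofReal_le_ofReal (hCRL _ j)
    have h3 := hTX j hj
    rw [← hG]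
    calc ENNReal.ofReal (CRL p C (c / (4 ^ j * m0 : ℕ))
          (sl (Bl 0 R) (2 * (4 ^ j * m0)) (4 * (4 ^ j * m0))).card) *
          (ENNReal.ofReal G * (Zin μ (Bl 0 R) c p ζ {o} (4 ^ j * m0) *
            TX μ (Bl 0 R) c p ζ (4 ^ j * m0)) +
          ENNReal.ofReal K * ENNReal.ofReal (bP (4 ^ j * m0)))
        ≤ ENNReal.ofReal B0 * (ENNReal.ofReal G * (Zin μ (Bl 0 R) c p ζ {o} (4 ^ j * m0) *
            ENNReal.ofReal (1 / (512 * B0 * G))) +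
          ENNReal.ofReal (K + Cr) * ENNReal.ofReal (bP (4 ^ j * m0))) := by
          gcongr
          linarith
      _ = (ENNReal.ofReal B0 * ENNReal.ofReal G * ENNReal.ofReal (1 / (512 * B0 * G))) *
            Zin μ (Bl 0 R) c p ζ {o} (4 ^ j * m0) +
          ENNReal.ofReal B0 * ENNReal.ofReal (K + Cr) * ENNReal.ofReal (bP (4 ^ j * m0)) := by
          ring
      _ = _ := by
          rw [← ENNReal.ofReal_mul hB0p.le, ← ENNReal.ofReal_mul (by positivity),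
            ← ENNReal.ofReal_mul hB0p.le, ← ENNReal.ofReal_mul (by positivity)]
          congr 3
          field_simp
  have hz0 : z 0 ≤ ENNReal.ofReal K := by
    rw [hz]
    beta_reduce
    unfold Zin
    refine (HK hLaw (cut (AF (Bl 0 R)) (inn (Bl 0 R) (3 * (4 ^ 0 * m0))))
      (cut_symm (AF_symm _) _) ζ hζ (prI (Bl 0 R) c (4 ^ 0 * m0)) (prI_nonneg hc)).1
      o (sl (Bl 0 R) (2 * (4 ^ 0 * m0)) (3 * (4 ^ 0 * m0))) ?_ ?_
    · unfold prI
      rw [if_neg]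
      rw [mem_sl]
      have := (hscale 0).1
      omega
    · intro x hx
      unfold prI
      rw [if_pos hx]
      have : (0 : ℝ) < (4 ^ 0 * m0 : ℕ) := by
        have := (hscale 0).1
        exact_mod_cast (by omega : 0 < 4 ^ 0 * m0)
      positivity
  have hrec := rec_bound hstep fun j _ => ENNReal.ofReal_le_ofReal (hbP j)
  have hzn : z n ≤ ENNReal.ofReal ((1 / 512) ^ n * (K + 1)) := by
    refine hrec.trans ?_
    rw [ENNReal.ofReal_mul (by positivity), ENNReal.ofReal_add hK.le zero_le_one,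
      ENNReal.ofReal_one]
    gcongr
  -- the last step
  obtain ⟨h8, hcw, _⟩ := hscale n
  have hZout : Zout μ (Bl 0 R) c p ζ B (4 ^ n * m0) ≤ B.card * ENNReal.ofReal K := by
    unfold Zout
    refine (HK hLaw (cut (AF (Bl 0 R)) (inn (Bl 0 R) (3 * (4 ^ n * m0))))
      (cut_symm (AF_symm _) _) ζ hζ (prO (Bl 0 R) c (4 ^ n * m0)) (prO_nonneg hc)).2.1
      B (sl (Bl 0 R) (3 * (4 ^ n * m0)) (4 * (4 ^ n * m0))) ?_ ?_
    · intro b hb
      unfold prO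
      rw [if_neg]
      rw [mem_sl]
      have := hBd b hb
      omega
    · intro x hx
      unfold prO
      rw [if_pos hx]
      have : (0 : ℝ) < (4 ^ n * m0 : ℕ) := by
        exact_mod_cast (by omega : 0 < 4 ^ n * m0)
      positivity
  have hend := chain_end (X := Bl 0 R) hLaw hlam hζ hp hp1 h8 hc hcw (hCc n) (S := {o}) (hSo n)
    (B := B) hBd (D := B.card * (CL lam p * ENNReal.ofReal (bP (4 ^ n * m0)))) (fun t => by
      refine (hLaw.est_bad_end hp hp4 hlam (AF_symm _) hζ o B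
        (sl (Bl 0 R) (2 * (4 ^ n * m0)) (4 * (4 ^ n * m0))) t ?_ ?_ (meas_BdR _ _)
        (indep_BdR (by omega) (by omega)) (fun b hb => indep_BdR (by omega)
          (Or.inr (hBd b hb)))).trans ?_
      · rw [mem_sl]
        omega
      · intro b hb
        rw [mem_sl]
        have := hBd b hb
        omega
      · gcongr
        exact hprob n)
  have htau := tau_le841 (μ := μ) hLaw hp ζ R h0X
  rw [← hB, ← ho] at htau
  have hBc0 : (0 : ℝ) ≤ B.card := Nat.cast_nonneg _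
  have hBe : (B.card : ℝ≥0∞) = ENNReal.ofReal B.card := (ENNReal.ofReal_natCast _).symm
  have hz' : Zin μ (Bl 0 R) c p ζ {o} (4 ^ n * m0) ≤
      ENNReal.ofReal ((1 / 512) ^ n * (K + 1)) := by
    rw [hz] at hzn
    exact hzn
  have hbn : B0 * Cr * bP (4 ^ n * m0) ≤ (1 / 512) ^ n := by
    have h1 := hbP n
    have h2 : ((1 : ℝ) / 1024) ^ (n + 1) ≤ (1 / 512) ^ n := by
      calc ((1 : ℝ) / 1024) ^ (n + 1) ≤ (1 / 1024) ^ n :=
            pow_le_pow_of_le_one (by norm_num) (by norm_num) (by omega)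
        _ ≤ _ := pow_le_pow_left₀ (by norm_num) (by norm_num) _
    have h3 : B0 * Cr * bP (4 ^ n * m0) ≤ B0 * (K + Cr) * bP (4 ^ n * m0) := by
      have := hbP0 (4 ^ n * m0)
      gcongr
      linarith
    linarith
  have htot : tau (scl lam uni) ζ p R ≤
      ENNReal.ofReal (K' * (8 * R + 20) ^ 2 * (1 / 512) ^ n) := by
    calc tau (scl lam uni) ζ p R ≤ B.card * ∫⁻ ω, MP (AF (Bl 0 R)) ζ (0 : Bl 0 R → ℝ) p {o} B ω
          ∂(Measure.pi fun _ : Bl 0 R => μ) := htau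
      _ ≤ B.card * (ENNReal.ofReal (CRL p C (c / (4 ^ n * m0 : ℕ))
            (sl (Bl 0 R) (2 * (4 ^ n * m0)) (4 * (4 ^ n * m0))).card) *
          (ENNReal.ofReal ((1 + 32 / c) ^ p * (1 + 32 / c) ^ p) *
            (Zin μ (Bl 0 R) c p ζ {o} (4 ^ n * m0) * Zout μ (Bl 0 R) c p ζ B (4 ^ n * m0)) +
            B.card * (CL lam p * ENNReal.ofReal (bP (4 ^ n * m0))))) := by gcongr
      _ ≤ ENNReal.ofReal B.card * (ENNReal.ofReal B0 *
          (ENNReal.ofReal G * (ENNReal.ofReal ((1 / 512) ^ n * (K + 1)) *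
            (ENNReal.ofReal B.card * ENNReal.ofReal K)) +
            ENNReal.ofReal B.card * (ENNReal.ofReal Cr * ENNReal.ofReal (bP (4 ^ n * m0))))) := by
          rw [← hG, ← hCL, ← hBe]
          gcongr
          exact hCRL _ n
      _ ≤ _ := by
          have hb := hbP0 (4 ^ n * m0)
          obtain ⟨q, hq⟩ : ∃ q : ℝ, q = (1 / 512) ^ n := ⟨_, rfl⟩
          have hq0 : 0 ≤ q := by
            rw [hq]
            positivity
          obtain ⟨b, hbd⟩ : ∃ b : ℝ, b = B.card := ⟨_, rfl⟩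
          obtain ⟨P, hP⟩ : ∃ P : ℝ, P = bP (4 ^ n * m0) := ⟨_, rfl⟩
          obtain ⟨T, hT⟩ : ∃ T : ℝ, T = 8 * R + 20 := ⟨_, rfl⟩
          rw [← hq, ← hP] at hbn
          rw [← hP] at hb
          rw [← hbd, ← hT] at hBc
          rw [← hbd] at hBc0
          rw [← hq, ← hP, ← hbd, ← hT]
          exact fin_num hB0p.le hG0.le hK.le hCr0 hBc0 hBc hb hq0 hbn hK'
  refine le_trans ?_ (hn n le_rfl R (by omega) ?_)
  · gcongr
  · rw [hR]
    have : 8 ≤ 4 ^ n * m0 := h8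
    calc 4 * (4 ^ n * m0) + 1 ≤ 5 * (4 ^ n * m0) := by omega
      _ = 5 * 4 ^ n * m0 := by ring

end P365CUL.F841
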