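import Vale.Agent.P365.CUL841.Num841

set_option linter.all false

/-!
# P365 / CUL841 / TorAnn841: reverse insensitivity of a cut beyond a contact; the crossing quantity
of a decoupled block is bounded by the crossing quantity of the full operator.
-/

namespace P365CUL

open MeasureTheory ProbabilityTheory Complex Matrix Function P365S6
open P365L P365L.Comp P365X P365CU
open scoped ENNReal Real

variable {ι : Type*} [Fintype ι] [DecidableEq ι] {A A' : Matrix ι ι ℝ} {W : ι → ℂ} {d : ι → ℝ}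
  {ζ : ℂ} {κ κ' : ι → ℝ} {ω ω' : ι → SV} {p : ℝ} {R N : Finset ι} {χ : ι → ℝ} {k : ℝ}

/-- REVERSE INSENSITIVITY -/
theorem rev_row841 (h : CO A R N χ k) (hA : A.IsSymm) (hW : ∀ x, (W x).im < 0)
    (hN : ∀ x ∈ N, (W x).im ≤ -1) {b : ι} (hb : χ b = 1) :
    ∑ a ∈ N, ‖Gr (cut A R) W a b‖ ^ 2 ≤ (1 + k) ^ 2 * ∑ a ∈ N, ‖Gr A W a b‖ ^ 2 := by
  obtain ⟨f, hf⟩ : ∃ f : ι → ℂ, f = fun x =>
      if x ∈ N then ∑ y ∈ N, ((A x y * (χ y - χ x) : ℝ) : ℂ) * Gr A W y b else 0 := ⟨_, rfl⟩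
  obtain ⟨s, hs0, hs⟩ : ∃ s : ℝ, 0 ≤ s ∧ s ^ 2 = ∑ a ∈ N, ‖Gr A W a b‖ ^ 2 :=
    ⟨Real.sqrt _, Real.sqrt_nonneg _, Real.sq_sqrt (Finset.sum_nonneg fun _ _ => sq_nonneg _)⟩
  have hfN : ∀ x, x ∉ N → f x = 0 := by
    intro x hx
    rw [hf]
    simp only
    rw [if_neg hx]
  have h1 : ∀ a, Gr (cut A R) W a b = (χ a : ℂ) * Gr A W a b +
      -((Gr (cut A R) W).mulVec f a) := by
    intro a
    have h2 := cut_id hA hW R h.zero a b
    rw [hb, ofReal_one, mul_one] at h2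
    have h3 : (Gr (cut A R) W).mulVec f a =
        ∑ x, Gr (cut A R) W a x * ∑ y, (Qm A R χ x y : ℂ) * Gr A W y b := by
      rw [Matrix.mulVec, dotProduct]
      refine Finset.sum_congr rfl fun x _ => ?_
      rw [h.sum_Qm (fun y => Gr A W y b), hf]
    rw [h3, h2]
    ring
  have h2 : ∑ y ∈ N, ‖f y‖ ^ 2 ≤ (k * s) ^ 2 := by
    rw [mul_pow, hs]
    refine le_trans (le_of_eq ?_) (h.op hA fun y => Gr A W y b)
    refine Finset.sum_congr rfl fun y hy => ?_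
    rw [hf]
    simp only
    rw [if_pos hy]
  have h3 : ∑ a ∈ N, ‖-((Gr (cut A R) W).mulVec f a)‖ ^ 2 ≤ (k * s) ^ 2 := by
    have := layer_solve (cut_symm hA R) hW one_pos N hN f hfN
    rw [one_pow, div_one, one_mul] at this
    refine le_trans (le_of_eq (Finset.sum_congr rfl fun a _ => ?_)) (this.trans h2)
    rw [norm_neg]
  have h4 : ∑ a ∈ N, ‖(χ a : ℂ) * Gr A W a b‖ ^ 2 ≤ s ^ 2 := by
    rw [hs]
    refine Finset.sum_le_sum fun a _ => ?_
    refine pow_le_pow_left₀ (norm_nonneg _) ?_ 2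
    rw [norm_mul, Complex.norm_real, Real.norm_of_nonneg (h.nonneg a)]
    exact mul_le_of_le_one_left (norm_nonneg _) (h.le_one a)
  have h5 := l2_add_le N (fun a => (χ a : ℂ) * Gr A W a b)
    (fun a => -((Gr (cut A R) W).mulVec f a)) hs0 (mul_nonneg h.k0 hs0) h4 h3
  calc ∑ a ∈ N, ‖Gr (cut A R) W a b‖ ^ 2 = ∑ a ∈ N, ‖(χ a : ℂ) * Gr A W a b +
        -((Gr (cut A R) W).mulVec f a)‖ ^ 2 :=
        Finset.sum_congr rfl fun a _ => by rw [h1]
    _ ≤ (s + k * s) ^ 2 := h5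
    _ = (1 + k) ^ 2 * s ^ 2 := by ring
    _ = _ := by rw [hs]

theorem rev_bl841 (h : CO A R N χ k) (hA : A.IsSymm) (hW : ∀ x, (W x).im < 0)
    (hN : ∀ x ∈ N, (W x).im ≤ -1) {B : Finset ι} (hB : ∀ b ∈ B, χ b = 1) :
    bl N B (Gr (cut A R) W) ≤ (1 + k) ^ 2 * bl N B (Gr A W) := by
  unfold bl
  rw [Finset.sum_comm, Finset.sum_comm (s := N), Finset.mul_sum]
  exact Finset.sum_le_sum fun b hb => rev_row841 h hA hW hN (hB b hb)

/-- contact sites are absorbing in the scaled system -/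
theorem scW_contact (hζ : 0 < ζ.im) (hκ : ∀ x, 0 ≤ κ x) {x : ι} (hx : κ x ≠ 0)
    (hb : (ω x).1 = true) : (scW (dQ κ ω) (WL ζ κ ω) x).im ≤ -1 := by
  have h1 : 0 < κ x := lt_of_le_of_ne (hκ x) (Ne.symm hx)
  have h2 : dQ κ ω x ^ 2 = κ x := by
    unfold dQ
    rw [if_neg hx, if_pos hb, Real.sq_sqrt h1.le]
  rw [scW_im, WL_im, if_pos hb, h2, div_le_iff₀ h1]
  linarith

theorem filter_act841 {S : Finset ι} (hS : ∀ x ∈ S, κ x ≠ 0) :
    S.filter (act κ ω) = S.filter fun x => (ω x).1 = true := by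
  refine Finset.filter_congr fun x hx => ?_
  unfold act
  constructor
  · rintro (h | h)
    · exact absurd h (hS x hx)
    · exact h
  · exact Or.inr

/-- **two cuts beyond the contacts** -/
theorem MM_cut2 (hA : A.IsSymm) (hζ : 0 < ζ.im) (hκ : ∀ x, 0 ≤ κ x) {S B R1 R2 : Finset ι}
    (hS : ∀ x ∈ S, κ x ≠ 0) (hB : ∀ x ∈ B, κ x ≠ 0) {χ1 χ2 : ι → ℝ} {k1 k2 : ℝ}
    (h1 : CO (scA (dQ κ ω) A) R1 (S.filter fun x => (ω x).1 = true) χ1 k1)
    (h2 : CO (scA (dQ κ ω) (cut A R1)) R2 (B.filter fun x => (ω x).1 = true) χ2 k2)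
    (hχ1 : ∀ b ∈ B, χ1 b = 1) (hχ2 : ∀ a ∈ S, χ2 a = 1) :
    MM (cut (cut A R1) R2) ζ κ S B ω ≤ ((1 + k1) * (1 + k2)) ^ 2 * MM A ζ κ S B ω := by
  have hA1 := cut_symm hA R1
  rw [MM_eq (cut_symm hA1 R2) hζ hκ, MM_eq hA hζ hκ, filter_act841 hS, filter_act841 hB]
  obtain ⟨d, hd⟩ : ∃ d, d = dQ κ ω := ⟨_, rfl⟩
  have hdp : ∀ x, 0 < d x := by
    rw [hd]
    exact dQ_pos hκ
  have hWneg := scW_neg (d := d) hdp (WL_neg (κ := κ) (ω := ω) hζ hκ)
  rw [← hd] at h1 h2 ⊢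
  have hN1 : ∀ x ∈ S.filter (fun x => (ω x).1 = true), (scW d (WL ζ κ ω) x).im ≤ -1 := by
    intro x hx
    rw [Finset.mem_filter] at hx
    rw [hd]
    exact scW_contact hζ hκ (hS x hx.1) hx.2
  have hN2 : ∀ x ∈ B.filter (fun x => (ω x).1 = true), (scW d (WL ζ κ ω) x).im ≤ -1 := by
    intro x hx
    rw [Finset.mem_filter] at hx
    rw [hd]
    exact scW_contact hζ hκ (hB x hx.1) hx.2
  have e1 := rev_bl841 h1 (scA_symm (d := d) hA) hWneg hN1
    (B := B.filter fun x => (ω x).1 = true) (fun b hb => hχ1 b (Finset.mem_filter.1 hb).1)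
  have e2 := rev_bl841 h2 (scA_symm (d := d) hA1) hWneg hN2
    (B := S.filter fun x => (ω x).1 = true) (fun a ha => hχ2 a (Finset.mem_filter.1 ha).1)
  rw [cut_scA] at e1 e2
  rw [bl_comm (Gr_symm (scA_symm (d := d) (cut_symm hA1 R2))),
    bl_comm (Gr_symm (scA_symm (d := d) hA1))] at e2
  have hk2 := h2.k0
  calc bl (S.filter fun x => (ω x).1 = true) (B.filter fun x => (ω x).1 = true)
        (Gr (scA d (cut (cut A R1) R2)) (scW d (WL ζ κ ω)))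
      ≤ (1 + k2) ^ 2 * bl (S.filter fun x => (ω x).1 = true) (B.filter fun x => (ω x).1 = true)
        (Gr (scA d (cut A R1)) (scW d (WL ζ κ ω))) := e2
    _ ≤ (1 + k2) ^ 2 * ((1 + k1) ^ 2 * bl (S.filter fun x => (ω x).1 = true)
        (B.filter fun x => (ω x).1 = true) (Gr (scA d A) (scW d (WL ζ κ ω)))) :=
        mul_le_mul_of_nonneg_left e1 (by positivity)
    _ = _ := by ring

/-- contact to contact: the transmitted power is at most the number of sites -/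
theorem MM_contact (hA : A.IsSymm) (hζ : 0 < ζ.im) (hκ : ∀ x, 0 ≤ κ x)
    {N B : Finset ι} (hN : ∀ x ∈ N, κ x ≠ 0) (hB : ∀ x ∈ B, κ x ≠ 0) :
    MM A ζ κ N B ω ≤ N.card := by
  rw [MM_eq hA hζ hκ, filter_act841 hN, filter_act841 hB]
  obtain ⟨d, hd⟩ : ∃ d, d = dQ κ ω := ⟨_, rfl⟩
  have hdp : ∀ x, 0 < d x := by
    rw [hd]
    exact dQ_pos hκ
  rw [← hd]
  have hsA := scA_symm (d := d) hA
  have hneg := scW_neg (d := d) hdp (WL_neg (κ := κ) (ω := ω) hζ hκ)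
  have h1 : ∀ x, κ x ≠ 0 → (ω x).1 = true → (scW d (WL ζ κ ω) x).im ≤ -1 := by
    intro x hx hb
    rw [hd]
    exact scW_contact hζ hκ hx hb
  have h2 : ∀ a ∈ N.filter (fun x => (ω x).1 = true), ∑ b ∈ B.filter (fun x => (ω x).1 = true),
      ‖Gr (scA d A) (scW d (WL ζ κ ω)) a b‖ ^ 2 ≤ 1 := by
    intro a ha
    have ha' := Finset.mem_filter.1 ha
    have h3 := layer_solve hsA hneg one_pos (insert a (B.filter fun x => (ω x).1 = true))
      (fun x hx => by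
        rcases Finset.mem_insert.1 hx with rfl | hx
        · exact h1 _ (hN _ ha'.1) ha'.2
        · have hx' := Finset.mem_filter.1 hx
          exact h1 x (hB x hx'.1) hx'.2) (Pi.single a (1 : ℂ)) (fun x hx => by
        rw [Pi.single_eq_of_ne]
        rintro rfl
        exact hx (Finset.mem_insert_self _ _))
    have h4 : ∑ x ∈ insert a (B.filter fun x => (ω x).1 = true),
        ‖(Pi.single a (1 : ℂ) : ι → ℂ) x‖ ^ 2 = 1 := by
      rw [Finset.sum_eq_single a]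
      · simp
      · intro b _ hb
        rw [Pi.single_eq_of_ne hb]
        simp
      · intro h
        exact absurd (Finset.mem_insert_self a _) h
    rw [h4, one_pow, div_one, one_mul] at h3
    refine le_trans (le_trans (le_of_eq ?_) (Finset.sum_le_sum_of_subset_of_nonneg
      (Finset.subset_insert a _) fun _ _ _ => sq_nonneg _)) h3
    refine Finset.sum_congr rfl fun b _ => ?_
    rw [Matrix.mulVec_single_one, Gr_symm hsA a b]
    rfl
  unfold bl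
  calc ∑ a ∈ N.filter (fun x => (ω x).1 = true), ∑ b ∈ B.filter (fun x => (ω x).1 = true),
        ‖Gr (scA d A) (scW d (WL ζ κ ω)) a b‖ ^ 2
      ≤ ∑ a ∈ N.filter (fun x => (ω x).1 = true), (1 : ℝ) := Finset.sum_le_sum h2
    _ = (N.filter fun x => (ω x).1 = true).card := by simp
    _ ≤ N.card := by exact_mod_cast Finset.card_filter_le _ _

theorem MP_cap (hA : A.IsSymm) (hζ : 0 < ζ.im) (hκ : ∀ x, 0 ≤ κ x) (hp : 0 < p) (hp1 : p < 1)
    {N B : Finset ι} (hN : ∀ x ∈ N, κ x ≠ 0) (hB : ∀ x ∈ B, κ x ≠ 0) {Q : ℝ} (hQ : 1 ≤ Q)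
    (hNQ : (N.card : ℝ) ≤ Q) : MP A ζ κ p N B ω ≤ ENNReal.ofReal Q := by
  unfold MP
  refine ENNReal.ofReal_le_ofReal ?_
  have h2 := (MM_contact (ω := ω) hA hζ hκ hN hB).trans hNQ
  calc MM A ζ κ N B ω ^ (p / 2) ≤ Q ^ (p / 2) :=
        Real.rpow_le_rpow (MM_nonneg _ _ _) h2 (by positivity)
    _ ≤ Q ^ (1 : ℝ) := Real.rpow_le_rpow_of_exponent_le hQ (by linarith)
    _ = Q := Real.rpow_one _

/-- **in expectation**: cut operator against full operator, additive bad event -/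
theorem int_cut2 {μ : Measure SV} [IsProbabilityMeasure μ] (hA : A.IsSymm) (hζ : 0 < ζ.im)
    (hκ : ∀ x, 0 ≤ κ x) (hp : 0 < p) (hp1 : p < 1) {S B R1 R2 : Finset ι}
    (hS : ∀ x ∈ S, κ x ≠ 0) (hB : ∀ x ∈ B, κ x ≠ 0) {k1 k2 : ℝ} (hk1 : 0 ≤ k1) (hk2 : 0 ≤ k2)
    {Bd : Set (ι → SV)} (hBd : MeasurableSet Bd)
    (hco : ∀ ω, ω ∉ Bd → ∃ χ1 χ2 : ι → ℝ,
      CO (scA (dQ κ ω) A) R1 (S.filter fun x => (ω x).1 = true) χ1 k1 ∧
      CO (scA (dQ κ ω) (cut A R1)) R2 (B.filter fun x => (ω x).1 = true) χ2 k2 ∧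
      (∀ b ∈ B, χ1 b = 1) ∧ (∀ a ∈ S, χ2 a = 1)) {Q : ℝ} (hQ : 1 ≤ Q)
    (hSQ : (S.card : ℝ) ≤ Q) :
    ∫⁻ ω, MP (cut (cut A R1) R2) ζ κ p S B ω ∂(Measure.pi fun _ : ι => μ) ≤
      ENNReal.ofReal (((1 + k1) * (1 + k2)) ^ p) *
        ∫⁻ ω, MP A ζ κ p S B ω ∂(Measure.pi fun _ : ι => μ) +
      ENNReal.ofReal Q * (Measure.pi fun _ : ι => μ) Bd := by
  obtain ⟨P, hP⟩ : ∃ P : Measure (ι → SV), P = Measure.pi fun _ : ι => μ := ⟨_, rfl⟩
  rw [← hP]
  rw [← lintegral_add_compl _ hBd, add_comm]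
  refine add_le_add ?_ ?_
  · calc ∫⁻ ω in Bdᶜ, MP (cut (cut A R1) R2) ζ κ p S B ω ∂P
        ≤ ∫⁻ ω in Bdᶜ, ENNReal.ofReal (((1 + k1) * (1 + k2)) ^ p) * MP A ζ κ p S B ω ∂P := by
          refine setLIntegral_mono' hBd.compl fun ω hω => ?_
          obtain ⟨χ1, χ2, h1, h2, h3, h4⟩ := hco ω hω
          have h5 := MM_cut2 hA hζ hκ hS hB h1 h2 h3 h4
          unfold MP
          rw [← ENNReal.ofReal_mul (by positivity)]
          refine ENNReal.ofReal_le_ofReal ?_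
          refine (Real.rpow_le_rpow (MM_nonneg _ _ _) h5 (by positivity)).trans (le_of_eq ?_)
          rw [Real.mul_rpow (by positivity) (MM_nonneg _ _ _),
            P365S6.sq_rpow_half (by positivity)]
      _ ≤ ∫⁻ ω, ENNReal.ofReal (((1 + k1) * (1 + k2)) ^ p) * MP A ζ κ p S B ω ∂P :=
          setLIntegral_le_lintegral _ _
      _ = _ := lintegral_const_mul _ (measurable_MP S B)
  · calc ∫⁻ ω in Bd, MP (cut (cut A R1) R2) ζ κ p S B ω ∂P
        ≤ ∫⁻ _ω in Bd, ENNReal.ofReal Q ∂P :=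
          lintegral_mono fun ω => MP_cap (cut_symm (cut_symm hA R1) R2) hζ hκ hp hp1 hS hB hQ hSQ
      _ = _ := by rw [setLIntegral_const]

/-! ### transport to a block -/

theorem MP_block {ι κ : Type} [Fintype ι] [DecidableEq ι] [Fintype κ] [DecidableEq κ]
    {A : Matrix ι ι ℝ} (hA : A.IsSymm) (hζ : 0 < ζ.im) (e : κ ↪ ι)
    (hD : Dec A (fun x => x ∈ Set.range e)) {k : ι → ℝ} (hk : ∀ x, 0 ≤ k x) (S B : Finset κ)
    (ω : ι → SV) :
    MP A ζ k p (S.map e) (B.map e) ω =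
      MP (A.submatrix e e) ζ (fun x => k (e x)) p S B (fun x => ω (e x)) := by
  unfold MP MM bl
  rw [Finset.sum_map]
  congr 2
  refine Finset.sum_congr rfl fun a _ => ?_
  rw [Finset.sum_map]
  refine Finset.sum_congr rfl fun b _ => ?_
  beta_reduce
  rw [Gr_block hA (WL_neg hζ hk) e e.injective hD a b]
  rfl

theorem int_block {ι κ : Type} [Fintype ι] [DecidableEq ι] [Fintype κ] [DecidableEq κ]
    {μ : Measure SV} [IsProbabilityMeasure μ]
    {A : Matrix ι ι ℝ} (hA : A.IsSymm) (hζ : 0 < ζ.im) (e : κ ↪ ι)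
    (hD : Dec A (fun x => x ∈ Set.range e)) {k : ι → ℝ} (hk : ∀ x, 0 ≤ k x) (S B : Finset κ) :
    ∫⁻ ω, MP A ζ k p (S.map e) (B.map e) ω ∂(Measure.pi fun _ : ι => μ) =
      ∫⁻ ω, MP (A.submatrix e e) ζ (fun x => k (e x)) p S B ω ∂(Measure.pi fun _ : κ => μ) := by
  rw [← (measurePreserving_marg μ e e.injective).lintegral_comp (measurable_MP _ _)]
  exact lintegral_congr fun ω => MP_block hA hζ e hD hk S B ω

end P365CUL
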