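import Vale.Agent.P365.CUL841.EmbT782
import Vale.Agent.P365.CUL841.TorAnn841

set_option linter.all false

/-!
# P365 / CUL841 / Geo782: the crossing quantity of the annulus, seen from a region of the lattice and
from the cut torus.
-/

namespace P365CUL.E782

open MeasureTheory ProbabilityTheory Function
open P365L P365L.Comp P365X P365CU P365T1 P365O P365T2.H694 P365CUL
open scoped ENNReal

variable {μ : Measure SV} [IsProbabilityMeasure μ] {c p : ℝ} {ζ : ℂ} {m : ℕ}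

/-- the crossing quantity of the annulus `{3m ≤ nz < 12m}` alone -/
noncomputable def TA (μ : Measure SV) (c p : ℝ) (ζ : ℂ) (m : ℕ) : ℝ≥0∞ :=
  ∫⁻ ω, MP (AF (AnnN m)) ζ (prX (AnnN m) c m) p (sl (AnnN m) (3 * m) (4 * m))
    (sl (AnnN m) (8 * m) (12 * m)) ω ∂(Measure.pi fun _ : AnnN m => μ)

theorem prX_nonneg {X : Finset Site} (hc : 0 ≤ c) (x : X) : 0 ≤ prX X c m x := by
  unfold prX
  split_ifs <;> positivity

theorem prT_nonneg {N : ℕ} (hc : 0 ≤ c) (x : Tor N) : 0 ≤ prT N c m x := by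
  unfold prT
  split_ifs <;> positivity

/-! ### from the torus -/

theorem TorCut_eq {N : ℕ} [NeZero N] (hζ : 0 < ζ.im) (hc : 0 ≤ c) (hN : 24 * m < N) :
    ∫⁻ ω, MP (ATcc N m) ζ (prT N c m) p (slT N (3 * m) (4 * m)) (slT N (8 * m) (12 * m)) ω
      ∂(Measure.pi fun _ : Tor N => μ) = TA μ c p ζ m := by
  rw [slT_eq_map hN (le_refl _) (show 4 * m ≤ 12 * m by omega),
    slT_eq_map hN (show 3 * m ≤ 8 * m by omega) (le_refl _),
    int_block ATcc_symm hζ (embA hN) (ATcc_dec hN) (prT_nonneg hc) _ _]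
  unfold TA
  rw [ATcc_submatrix]
  have e1 : (fun x : AnnN m => prT N c m (embA hN x)) = prX (AnnN m) c m :=
    funext fun x => prT_embA hN c x
  rw [e1]

/-! ### from a region of the lattice -/

section reg

variable {X : Finset Site}

/-- inclusion -/
def embX (hX : AnnN m ⊆ X) : AnnN m ↪ X where
  toFun x := ⟨x, hX x.2⟩
  inj' x y h := Subtype.ext (by simpa using congrArg Subtype.val h)

theorem embX_val (hX : AnnN m ⊆ X) (x : AnnN m) : ((embX hX x : X) : Site) = x := rfl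

theorem mem_range_embX (hX : AnnN m ⊆ X) (y : X) :
    y ∈ Set.range (embX hX) ↔ 3 * m ≤ nz (y : Site) ∧ nz (y : Site) < 12 * m := by
  constructor
  · rintro ⟨x, rfl⟩
    rw [embX_val]
    exact mem_AnnN.1 x.2
  · intro h
    exact ⟨⟨y, mem_AnnN.2 h⟩, Subtype.ext rfl⟩

/-- the twice cut adjacency matrix of a region -/
noncomputable def AXcc (X : Finset Site) (m : ℕ) : Matrix X X ℝ :=
  cut (cut (AF X) (inn X (12 * m))) (inn X (3 * m))

theorem AXcc_symm : (AXcc X m).IsSymm := cut_symm (cut_symm (AF_symm X) _) _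

theorem AXcc_dec (hX : AnnN m ⊆ X) : Dec (AXcc X m) fun x => x ∈ Set.range (embX hX) := by
  intro x y h
  simp only [mem_range_embX] at h
  unfold AXcc P365L.Comp.cut
  by_cases h1 : x ∈ inn X (3 * m) ↔ y ∈ inn X (3 * m)
  · rw [if_pos h1]
    rw [mem_inn, mem_inn] at h1
    rw [if_neg]
    rw [mem_inn, mem_inn]
    omega
  · rw [if_neg h1]

theorem AXcc_submatrix (hX : AnnN m ⊆ X) :
    (AXcc X m).submatrix (embX hX) (embX hX) = AF (AnnN m) := by
  ext x y
  rw [Matrix.submatrix_apply]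
  have hx := (mem_range_embX hX (embX hX x)).1 ⟨x, rfl⟩
  have hy := (mem_range_embX hX (embX hX y)).1 ⟨y, rfl⟩
  unfold AXcc P365L.Comp.cut
  rw [if_pos, if_pos]
  · rfl
  · rw [mem_inn, mem_inn]
    exact iff_of_true hx.2 hy.2
  · rw [mem_inn, mem_inn]
    exact iff_of_false (not_lt.2 hx.1) (not_lt.2 hy.1)

theorem slX_eq_map (hX : AnnN m ⊆ X) {a b : ℕ} (ha : 3 * m ≤ a) (hb : b ≤ 12 * m) :
    sl X a b = (sl (AnnN m) a b).map (embX hX) := by
  ext y
  rw [mem_sl, Finset.mem_map]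
  constructor
  · intro h
    obtain ⟨x, rfl⟩ := (mem_range_embX hX y).2 ⟨ha.trans h.1, h.2.trans_le hb⟩
    exact ⟨x, mem_sl.2 h, rfl⟩
  · rintro ⟨x, hx, rfl⟩
    rw [embX_val]
    exact mem_sl.1 hx

theorem prX_embX (hX : AnnN m ⊆ X) (c : ℝ) (x : AnnN m) :
    prX X c m (embX hX x) = prX (AnnN m) c m x := by
  unfold prX
  simp only [embX_val, mem_sl]

theorem TX_eq (hζ : 0 < ζ.im) (hc : 0 ≤ c) (hX : AnnN m ⊆ X) :
    TX μ X c p ζ m = TA μ c p ζ m := by
  unfold TX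
  rw [slX_eq_map hX (le_refl _) (show 4 * m ≤ 12 * m by omega),
    slX_eq_map hX (show 3 * m ≤ 8 * m by omega) (le_refl _)]
  have h := int_block (p := p) (μ := μ) (AXcc_symm (X := X) (m := m)) hζ (embX hX) (AXcc_dec hX)
    (prX_nonneg (c := c) (m := m) hc) (sl (AnnN m) (3 * m) (4 * m)) (sl (AnnN m) (8 * m) (12 * m))
  rw [AXcc_submatrix] at h
  have e1 : (fun x : AnnN m => prX X c m (embX hX x)) = prX (AnnN m) c m :=
    funext fun x => prX_embX hX c x
  rw [e1] at h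
  exact h

/-- both together -/
theorem TX_eq_TorCut {N : ℕ} [NeZero N] (hζ : 0 < ζ.im) (hc : 0 ≤ c) (hX : AnnN m ⊆ X)
    (hN : 24 * m < N) : TX μ X c p ζ m =
    ∫⁻ ω, MP (ATcc N m) ζ (prT N c m) p (slT N (3 * m) (4 * m)) (slT N (8 * m) (12 * m)) ω
      ∂(Measure.pi fun _ : Tor N => μ) := by
  rw [TX_eq hζ hc hX, TorCut_eq hζ hc hN]

end reg

/-! ### order of the cuts -/

theorem cut_comm {ι : Type*} [DecidableEq ι] (A : Matrix ι ι ℝ) (R1 R2 : Finset ι) :
    cut (cut A R1) R2 = cut (cut A R2) R1 := by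
  ext x y
  unfold P365L.Comp.cut
  split_ifs <;> rfl

/-- contacts: `prT` does not vanish on the two slabs -/
theorem prT_ne_in {N : ℕ} [NeZero N] (hc : 0 < c) (hm : 0 < m) {y : Tor N}
    (hy : y ∈ slT N (3 * m) (4 * m)) : prT N c m y ≠ 0 := by
  rw [mem_slT] at hy
  unfold prT
  rw [if_pos hy]
  have : (0 : ℝ) < m := by exact_mod_cast hm
  positivity

theorem prT_ne_out {N : ℕ} [NeZero N] (hc : 0 < c) (hm : 0 < m) {y : Tor N}
    (hy : y ∈ slT N (8 * m) (12 * m)) : prT N c m y ≠ 0 := by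
  rw [mem_slT] at hy
  unfold prT
  rw [if_neg (by omega), if_pos hy]
  have : (0 : ℝ) < ((4 * m : ℕ) : ℝ) := by exact_mod_cast (by omega : 0 < 4 * m)
  positivity

/-- the number of sites of the inner slab -/
theorem card_slT_le {N : ℕ} [NeZero N] (hN : 24 * m < N) :
    ((slT N (3 * m) (4 * m)).card : ℝ) ≤ 64 * (m : ℝ) ^ 2 := by
  rw [slT_eq_map hN (le_refl _) (show 4 * m ≤ 12 * m by omega), Finset.card_map]
  have h1 : (sl (AnnN m) (3 * m) (4 * m)).card ≤
      ((Finset.Ico (-(4 * m : ℤ)) (4 * m)) ×ˢ (Finset.Ico (-(4 * m : ℤ)) (4 * m))).card := by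
    refine Finset.card_le_card_of_injOn (fun x => (x : Site)) ?_ ?_
    · intro x hx
      have h2 := box_of_nz (mem_sl.1 hx).2
      obtain ⟨h3, h4, h5, h6⟩ := h2
      simp only [Finset.coe_product, Finset.coe_Ico, Set.mem_prod, Set.mem_Ico]
      push_cast at h3 h4 h5 h6
      exact ⟨⟨h3, h4⟩, h5, h6⟩
    · intro x _ y _ h
      exact Subtype.ext h
  rw [Finset.card_product, Int.card_Ico] at h1
  have h2 : ((4 * m : ℤ) - -(4 * m : ℤ)).toNat = 8 * m := by omega
  rw [h2] at h1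
  calc ((sl (AnnN m) (3 * m) (4 * m)).card : ℝ) ≤ ((8 * m * (8 * m) : ℕ) : ℝ) := by
        exact_mod_cast h1
    _ = 64 * (m : ℝ) ^ 2 := by push_cast; ring

end P365CUL.E782
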