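import Vale.Agent.P365.CUL841.TorAnn841
import Vale.Agent.P365.CUL841.Tor740
import Vale.Agent.P365.T2.H694.Geo2

set_option linter.all false

/-!
# P365 / CUL841 / Geo841: the crossing quantity with two Dirichlet circles lives on the annulus
`3m ≤ nz < 12m`, in every region of the square lattice and on the torus.
-/

namespace P365CUL

open MeasureTheory ProbabilityTheory Complex Matrix Function P365S6
open P365L P365L.Comp P365X P365CU
open P365T2.H694
open scoped ENNReal Real

variable {c p : ℝ} {ζ : ℂ}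

/-- the annulus -/
noncomputable def AnnL (m : ℕ) : Finset Site :=
  (Bl 0 (12 * m)).filter fun x => 3 * m ≤ nz x ∧ nz x < 12 * m

theorem mem_AnnL {m : ℕ} {x : Site} : x ∈ AnnL m ↔ 3 * m ≤ nz x ∧ nz x < 12 * m := by
  unfold AnnL
  rw [Finset.mem_filter, mem_Bl]
  constructor
  · exact fun h => h.2
  · intro h
    refine ⟨?_, h⟩
    have := ds_le_nz x
    omega

theorem AnnL_box {m : ℕ} (x : Site) (hx : x ∈ AnnL m) : Box (12 * m) x := by
  have h := (mem_AnnL.1 hx).2
  rw [nz_lt] at h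
  exact ⟨h.1.1, h.1.2, h.2.1, h.2.2⟩

/-- the crossing quantity on the annulus -/
noncomputable def TA (μ : Measure SV) (c p : ℝ) (ζ : ℂ) (m : ℕ) : ℝ≥0∞ :=
  ∫⁻ ω, MP (AF (AnnL m)) ζ (prX (AnnL m) c m) p (sl (AnnL m) (3 * m) (4 * m))
    (sl (AnnL m) (8 * m) (12 * m)) ω ∂(Measure.pi fun _ : AnnL m => μ)

theorem prX_nonneg841 (hc : 0 < c) {X : Finset Site} {m : ℕ} (x : X) : 0 ≤ prX X c m x := by
  unfold prX
  split_ifs
  · positivity
  · positivity
  · exact le_rfl

theorem TX_eq841 {μ : Measure SV} [IsProbabilityMeasure μ] (hζ : 0 < ζ.im) (hc : 0 < c)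
    {X : Finset Site} {m : ℕ} (hR : AnnL m ⊆ X) : TX μ X c p ζ m = TA μ c p ζ m := by
  obtain ⟨A, hA⟩ : ∃ A, A = cut (cut (AF X) (inn X (12 * m))) (inn X (3 * m)) := ⟨_, rfl⟩
  have hsym : A.IsSymm := by
    rw [hA]
    exact cut_symm (cut_symm (AF_symm X) _) _
  have hr : ∀ x : X, x ∈ Set.range (incl hR) ↔ 3 * m ≤ nz (x : Site) ∧ nz (x : Site) < 12 * m := by
    intro x
    constructor
    · rintro ⟨y, rfl⟩
      exact mem_AnnL.1 y.2
    · intro h
      exact ⟨⟨x, mem_AnnL.2 h⟩, rfl⟩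
  have hD : Dec A (fun x => x ∈ Set.range (incl hR)) := by
    intro x y h
    simp only [hr] at h
    rw [hA]
    unfold Comp.cut
    by_cases h1 : x ∈ inn X (3 * m) ↔ y ∈ inn X (3 * m)
    · rw [if_pos h1]
      rw [mem_inn, mem_inn] at h1
      rw [if_neg]
      rw [mem_inn, mem_inn]
      omega
    · rw [if_neg h1]
  have hmap : ∀ a b : ℕ, 3 * m ≤ a → b ≤ 12 * m →
      sl X a b = (sl (AnnL m) a b).map (incl hR) := by
    intro a b ha hb
    ext x
    rw [mem_sl, Finset.mem_map]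
    constructor
    · intro h
      exact ⟨⟨x, mem_AnnL.2 (by omega)⟩, mem_sl.2 h, rfl⟩
    · rintro ⟨y, hy, rfl⟩
      have h1 := mem_sl.1 hy
      exact h1
  unfold TX TA
  rw [← hA, hmap (3 * m) (4 * m) le_rfl (by omega), hmap (8 * m) (12 * m) (by omega) le_rfl,
    int_block hsym hζ (incl hR) hD (fun x => prX_nonneg841 hc x)]
  have h1 : A.submatrix (incl hR) (incl hR) = AF (AnnL m) := by
    ext x y
    rw [Matrix.submatrix_apply, hA]
    have hx := mem_AnnL.1 x.2
    have hy := mem_AnnL.1 y.2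
    unfold Comp.cut
    rw [if_pos, if_pos]
    · rfl
    · rw [mem_inn, mem_inn]
      exact iff_of_true hx.2 hy.2
    · rw [mem_inn, mem_inn]
      exact iff_of_false (not_lt.2 hx.1) (not_lt.2 hy.1)
  have h2 : (fun x : AnnL m => prX X c m (incl hR x)) = prX (AnnL m) c m := by
    funext x
    unfold prX
    simp only [mem_sl]
    rfl
  rw [h1, h2]

/-! ### torus -/

variable {N : ℕ} [NeZero N]

/-- inside, torus -/
noncomputable def innT (N a : ℕ) [NeZero N] : Finset (Tor N) := Finset.univ.filter fun y => nT N y < a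

theorem mem_innT {a : ℕ} {y : Tor N} : y ∈ innT N a ↔ nT N y < a := by simp [innT]

theorem prT_nonneg841 (hc : 0 < c) {m : ℕ} (y : Tor N) : 0 ≤ prT N c m y := by
  unfold prT
  split_ifs
  · positivity
  · positivity
  · exact le_rfl

theorem TorCut_eq841 {μ : Measure SV} [IsProbabilityMeasure μ] (hζ : 0 < ζ.im) (hc : 0 < c)
    {m : ℕ} (hm : 0 < m) (hN : 24 * m < N) :
    ∫⁻ ω, MP (cut (cut (AT N) (innT N (12 * m))) (innT N (3 * m))) ζ (prT N c m) p
      (slT N (3 * m) (4 * m)) (slT N (8 * m) (12 * m)) ω ∂(Measure.pi fun _ : Tor N => μ) =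
      TA μ c p ζ m := by
  obtain ⟨A, hA⟩ : ∃ A, A = cut (cut (AT N) (innT N (12 * m))) (innT N (3 * m)) := ⟨_, rfl⟩
  have hsym : A.IsSymm := by
    rw [hA]
    exact cut_symm (cut_symm (AT_symm N) _) _
  have hK : 12 * m ≤ N / 2 := by omega
  have hK2 : 2 * (N / 2) ≤ N := by omega
  have hN' : 2 * (12 * m) < N := by omega
  obtain ⟨e, he⟩ : ∃ e : AnnL m ↪ Tor N, e = embF (N / 2) hN'.le AnnL_box := ⟨_, rfl⟩
  have hlft : ∀ x : AnnL m, lft (N / 2) (e x) = x := by
    intro x
    rw [he]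
    exact lft_embF hK hK2 hN'.le AnnL_box x
  have hnT : ∀ x : AnnL m, nT N (e x) = nz (x : Site) := by
    intro x
    unfold nT
    rw [hlft]
  have hD : Dec A (fun x => x ∈ Set.range e) := by
    rw [he]
    refine dec_embF hK hK2 hN' AnnL_box fun x y h => ?_
    rw [mem_AnnL, mem_AnnL] at h
    rw [hA]
    unfold Comp.cut
    by_cases h1 : x ∈ innT N (3 * m) ↔ y ∈ innT N (3 * m)
    · rw [if_pos h1]
      rw [mem_innT, mem_innT] at h1
      unfold nT at h1
      rw [if_neg]
      rw [mem_innT, mem_innT]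
      unfold nT
      omega
    · rw [if_neg h1]
  have hsub : A.submatrix e e = AF (AnnL m) := by
    rw [he]
    refine submatrix_embF hK hK2 hN' AnnL_box fun x y hx hy => ?_
    have hx' := mem_AnnL.1 hx
    have hy' := mem_AnnL.1 hy
    rw [hA]
    unfold Comp.cut
    rw [if_pos, if_pos]
    · rw [mem_innT, mem_innT]
      exact iff_of_true hx'.2 hy'.2
    · rw [mem_innT, mem_innT]
      exact iff_of_false (not_lt.2 hx'.1) (not_lt.2 hy'.1)
  have hmap : ∀ a b : ℕ, 3 * m ≤ a → b ≤ 12 * m →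
      slT N a b = (sl (AnnL m) a b).map e := by
    intro a b ha hb
    ext y
    rw [mem_slT, Finset.mem_map]
    constructor
    · intro h
      have h1 : lft (N / 2) y ∈ AnnL m := by
        rw [mem_AnnL]
        unfold nT at h
        omega
      have h2 := (mem_range_embF hK hK2 hN'.le AnnL_box y).2 h1
      rw [← he] at h2
      obtain ⟨x, rfl⟩ := h2
      refine ⟨x, mem_sl.2 ?_, rfl⟩
      rw [hnT] at h
      exact h
    · rintro ⟨x, hx, rfl⟩
      rw [hnT]
      exact mem_sl.1 hx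
  have hpr : (fun x : AnnL m => prT N c m (e x)) = prX (AnnL m) c m := by
    funext x
    unfold prT prX
    simp only [mem_sl, hnT]
  unfold TA
  rw [← hA, hmap (3 * m) (4 * m) le_rfl (by omega), hmap (8 * m) (12 * m) (by omega) le_rfl,
    int_block hsym hζ e hD (fun x => prT_nonneg841 hc x), hsub, hpr]

end P365CUL
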