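import Vale.Agent.P365.CU.Final

set_option linter.all false

/-!
# P365 / CUL841 / Law: label version of the law change.

Site variable `a = (movable?, value)`.  The movable sites of a set `Y` are shifted by a common
parameter `t`; the law of the values changes by a density ratio `r_t` with `r_t r_{-t} ≥ 1 - C t²`.
-/

namespace P365CUL

open MeasureTheory ProbabilityTheory Function
open P365L P365L.Comp P365X P365CU
open scoped ENNReal

/-- site variable: movable?, value -/
abbrev SV : Type := Bool × ℝ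

/-- shift of a movable site -/
noncomputable def sh (t : ℝ) (a : SV) : SV := (a.1, if a.1 = true then a.2 + t else a.2)

theorem sh_fst (t : ℝ) (a : SV) : (sh t a).1 = a.1 := rfl

theorem sh_snd (t : ℝ) (a : SV) : (sh t a).2 = if a.1 = true then a.2 + t else a.2 := rfl

theorem measurable_sh2 : Measurable fun p : ℝ × SV => sh p.1 p.2 := by
  unfold sh
  refine Measurable.prodMk (measurable_fst.comp measurable_snd) ?_
  refine Measurable.ite ?_ ?_ ?_
  · exact (measurable_fst.comp measurable_snd) (measurableSet_singleton true)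
  · exact (measurable_snd.comp measurable_snd).add measurable_fst
  · exact measurable_snd.comp measurable_snd

theorem measurable_sh (t : ℝ) : Measurable (sh t) :=
  measurable_sh2.comp (measurable_const.prodMk measurable_id)

/-- the one-site law: uniform values, rare non-movable sites, law change -/
structure LawP (lam w C : ℝ) (μ : Measure SV) (r : ℝ → ℝ → ℝ) : Prop where
  marg : μ.map Prod.snd = scl lam uni
  rest : μ {a | a.1 = false} ≤ ENNReal.ofReal (1 / 8192)
  w_pos : 0 < w
  C_nonneg : 0 ≤ C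
  meas : ∀ t, Measurable (r t)
  nonneg : ∀ t, |t| ≤ w → ∀ v, 0 ≤ r t v
  change : ∀ t, |t| ≤ w → ∀ g : ℝ → ℝ≥0∞, Measurable g →
    ∫⁻ a, ENNReal.ofReal (r t a.2) * g a.2 ∂μ ≤ ∫⁻ a, g (sh t a).2 ∂μ
  ratio : ∀ t, |t| ≤ w → ∀ v, |v| ≤ lam → 1 - C * t ^ 2 ≤ r t v * r (-t) v

/-! ### partial integration over one coordinate, general site space -/

section marg

variable {ι α : Type*} [Fintype ι] [DecidableEq ι] [MeasurableSpace α]

theorem lmarg_eq_mix (ν : Measure α) [IsProbabilityMeasure ν] (L : Finset ι)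
    {F : (ι → α) → ℝ≥0∞} (hF : Measurable F) (v : ι → α) :
    (∫⋯∫⁻_L, F ∂fun _ => ν) v = ∫⁻ v', F (mix L v' v) ∂(Measure.pi fun _ : ι => ν) := by
  unfold lmarginal
  have h := (measurePreserving_marg ν (Subtype.val : L → ι) Subtype.val_injective).lintegral_comp
    (f := fun y : L → α => F (updateFinset v L y)) (hF.comp measurable_updateFinset)
  rw [← h]
  refine lintegral_congr fun v' => ?_
  rfl

theorem lint_lmarg (ν : Measure α) [IsProbabilityMeasure ν] (L : Finset ι)
    {F : (ι → α) → ℝ≥0∞} (hF : Measurable F) :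
    ∫⁻ v, (∫⋯∫⁻_L, F ∂fun _ => ν) v ∂(Measure.pi fun _ : ι => ν) =
      ∫⁻ v, F v ∂(Measure.pi fun _ : ι => ν) := by
  rw [lintegral_mix ν L hF]
  exact lintegral_congr fun v => lmarg_eq_mix ν L hF v

theorem lmarg_mul_const (ν : Measure α) [IsProbabilityMeasure ν] (L : Finset ι)
    {F G : (ι → α) → ℝ≥0∞} (hF : Measurable F) (v : ι → α)
    (hG : ∀ v', (∀ x, x ∉ L → v' x = v x) → G v' = G v) :
    (∫⋯∫⁻_L, (fun v => G v * F v) ∂fun _ => ν) v = G v * (∫⋯∫⁻_L, F ∂fun _ => ν) v := by
  unfold lmarginal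
  have hm : Measurable fun y : L → α => F (updateFinset v L y) := hF.comp measurable_updateFinset
  refine Eq.trans ?_ (lintegral_const_mul (G v) hm)
  refine lintegral_congr fun y => ?_
  simp only
  rw [hG]
  intro x hx
  rw [updateFinset, dif_neg hx]

end marg

variable {ι : Type*} [Fintype ι] [DecidableEq ι]

/-- values -/
def vl (ω : ι → SV) : ι → ℝ := fun x => (ω x).2

omit [Fintype ι] [DecidableEq ι] in
theorem measurable_vl : Measurable (vl : (ι → SV) → ι → ℝ) :=
  measurable_pi_iff.2 fun x => measurable_snd.comp (measurable_pi_apply x)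

/-- shift the movable sites of `Y` -/
noncomputable def mv (Y : Finset ι) (t : ℝ) (ω : ι → SV) : ι → SV :=
  fun x => if x ∈ Y then sh t (ω x) else ω x

omit [Fintype ι] in
theorem measurable_mv2 (Y : Finset ι) : Measurable fun p : ℝ × (ι → SV) => mv Y p.1 p.2 := by
  refine measurable_pi_iff.2 fun x => ?_
  unfold mv
  by_cases hx : x ∈ Y
  · simp only [if_pos hx]
    exact Measurable.comp (g := fun p : ℝ × SV => sh p.1 p.2)
      (f := fun p : ℝ × (ι → SV) => (p.1, p.2 x)) measurable_sh2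
        (measurable_fst.prodMk ((measurable_pi_apply x).comp measurable_snd))
  · simp only [if_neg hx]
    exact (measurable_pi_apply x).comp measurable_snd

omit [Fintype ι] in
theorem measurable_mv (Y : Finset ι) (t : ℝ) : Measurable (mv Y t) :=
  (measurable_mv2 Y).comp (measurable_const.prodMk measurable_id)

/-- `F` depends on the sites of `Y` only through the values -/
def VD (Y : Finset ι) (F : (ι → SV) → ℝ≥0∞) : Prop :=
  ∀ ω ω' : ι → SV, (∀ x, x ∉ Y → ω x = ω' x) → (∀ x, (ω x).2 = (ω' x).2) → F ω = F ω'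

/-- the product density -/
noncomputable def Rp (r : ℝ → ℝ → ℝ) (Y : Finset ι) (t : ℝ) (ω : ι → SV) : ℝ≥0∞ :=
  ∏ x ∈ Y, ENNReal.ofReal (r t (ω x).2)

variable {lam w C : ℝ} {μ : Measure SV} [IsProbabilityMeasure μ] {r : ℝ → ℝ → ℝ}

omit [Fintype ι] [DecidableEq ι] [IsProbabilityMeasure μ] in
theorem LawP.measurable_Rp (h : LawP lam w C μ r) (Y : Finset ι) (t : ℝ) :
    Measurable (Rp r Y t) := by
  unfold Rp
  exact Finset.measurable_prod _ fun x _ =>
    ((h.meas t).comp (measurable_snd.comp (measurable_pi_apply x))).ennreal_ofReal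

theorem LawP.one (h : LawP lam w C μ r) {t : ℝ} (ht : |t| ≤ w) (x : ι) {F : (ι → SV) → ℝ≥0∞}
    (hF : Measurable F) (hV : VD {x} F) :
    ∫⁻ ω, ENNReal.ofReal (r t (ω x).2) * F ω ∂(Measure.pi fun _ : ι => μ) ≤
      ∫⁻ ω, F (update ω x (sh t (ω x))) ∂(Measure.pi fun _ : ι => μ) := by
  have hm1 : Measurable fun ω : ι → SV => F (update ω x (sh t (ω x))) := by
    refine hF.comp ?_
    refine measurable_pi_iff.2 fun y => ?_
    by_cases hy : y = x
    · subst hy
      simp only [update_self]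
      exact (measurable_sh t).comp (measurable_pi_apply y)
    · simp only [update_of_ne hy]
      exact measurable_pi_apply y
  have hm2 : Measurable fun ω : ι → SV => ENNReal.ofReal (r t (ω x).2) * F ω :=
    (((h.meas t).comp (measurable_snd.comp (measurable_pi_apply x))).ennreal_ofReal).mul hF
  rw [← lint_lmarg μ {x} hm1, ← lint_lmarg μ {x} hm2]
  refine lintegral_mono fun ω => ?_
  rw [lmarginal_singleton, lmarginal_singleton]
  simp only [update_self, update_idem]
  have hg : ∀ a : SV, F (update ω x a) = F (update ω x (true, a.2)) := by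
    intro a
    refine hV _ _ (fun y hy => ?_) fun y => ?_
    · rw [Finset.mem_singleton] at hy
      rw [update_of_ne hy, update_of_ne hy]
    · by_cases hy : y = x
      · subst hy
        rw [update_self, update_self]
      · rw [update_of_ne hy, update_of_ne hy]
  have hgm : Measurable fun u : ℝ => F (update ω x ((true, u) : SV)) :=
    hF.comp ((measurable_update ω).comp (measurable_const.prodMk measurable_id))
  have h1 := h.change t ht (fun u => F (update ω x ((true, u) : SV))) hgm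
  refine (le_of_eq (lintegral_congr fun a => ?_)).trans
    (h1.trans (le_of_eq (lintegral_congr fun a => ?_)))
  · rw [hg a]
  · rw [hg (sh t a)]

omit [Fintype ι] in
theorem VD.mono {Y Y' : Finset ι} (hY : Y ⊆ Y') {F : (ι → SV) → ℝ≥0∞} (h : VD Y' F) : VD Y F :=
  fun ω ω' h1 h2 => h ω ω' (fun x hx => h1 x fun hx' => hx (hY hx')) h2

theorem LawP.lint_mv (h : LawP lam w C μ r) {t : ℝ} (ht : |t| ≤ w) (Y : Finset ι)
    {F : (ι → SV) → ℝ≥0∞} (hF : Measurable F) (hV : VD Y F) :
    ∫⁻ ω, Rp r Y t ω * F ω ∂(Measure.pi fun _ : ι => μ) ≤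
      ∫⁻ ω, F (mv Y t ω) ∂(Measure.pi fun _ : ι => μ) := by
  induction Y using Finset.induction_on generalizing F with
  | empty =>
    refine le_of_eq (lintegral_congr fun ω => ?_)
    have h1 : mv (∅ : Finset ι) t ω = ω := by
      funext x
      simp [mv]
    rw [h1, Rp, Finset.prod_empty, one_mul]
  | insert x Y hx ih =>
    have h1 : ∀ ω : ι → SV, mv (insert x Y) t ω = update (mv Y t ω) x (sh t (mv Y t ω x)) := by
      intro ω
      funext y
      by_cases hy : y = x
      · subst hy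
        simp [mv, hx]
      · simp [mv, hy, update_of_ne hy]
    have hm1 : Measurable fun ω : ι → SV => F (update ω x (sh t (ω x))) := by
      refine hF.comp ?_
      refine measurable_pi_iff.2 fun y => ?_
      by_cases hy : y = x
      · subst hy
        simp only [update_self]
        exact (measurable_sh t).comp (measurable_pi_apply y)
      · simp only [update_of_ne hy]
        exact measurable_pi_apply y
    have hV1 : VD Y fun ω : ι → SV => F (update ω x (sh t (ω x))) := by
      intro ω ω' h2 h3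
      have h4 : ω x = ω' x := h2 x hx
      refine hV _ _ (fun y hy => ?_) fun y => ?_
      · rw [Finset.mem_insert, not_or] at hy
        rw [update_of_ne hy.1, update_of_ne hy.1, h2 y hy.2]
      · by_cases hy : y = x
        · subst hy
          rw [update_self, update_self, h4]
        · rw [update_of_ne hy, update_of_ne hy]
          exact h3 y
    simp only [h1]
    refine le_trans ?_ (ih hm1 hV1)
    have h2 : ∀ ω : ι → SV, Rp r Y t ω = Rp r Y t (update ω x (sh t (ω x))) := by
      intro ω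
      unfold Rp
      refine Finset.prod_congr rfl fun y hy => ?_
      rw [update_of_ne]
      rintro rfl
      exact hx hy
    have h3 : ∀ ω : ι → SV, Rp r Y t ω * F (update ω x (sh t (ω x))) =
        (fun w => Rp r Y t w * F w) (update ω x (sh t (ω x))) := by
      intro ω
      simp only
      rw [← h2]
    have hm2 : Measurable fun ω : ι → SV => Rp r Y t ω * F ω := (h.measurable_Rp Y t).mul hF
    have hV2 : VD {x} fun ω : ι → SV => Rp r Y t ω * F ω := by
      intro ω ω' h4 h5
      simp only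
      rw [(hV.mono (Finset.singleton_subset_iff.2 (Finset.mem_insert_self x Y))) ω ω' h4 h5]
      congr 1
      unfold Rp
      exact Finset.prod_congr rfl fun y _ => by rw [h5 y]
    refine le_trans ?_ (le_of_eq (lintegral_congr h3).symm)
    refine le_trans (le_of_eq (lintegral_congr fun ω => ?_)) (h.one ht x hm2 hV2)
    unfold Rp
    rw [Finset.prod_insert hx, mul_assoc]

omit [IsProbabilityMeasure μ] in
/-- AM–GM for the two densities -/
theorem LawP.Rp_add (h : LawP lam w C μ r) {t : ℝ} (ht : |t| ≤ w) (hC : C * t ^ 2 ≤ 1)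
    (Y : Finset ι) {ω : ι → SV} (hv : ∀ x, |(ω x).2| ≤ lam) :
    ENNReal.ofReal (2 * (1 - C * t ^ 2) ^ Y.card) ≤ Rp r Y t ω + Rp r Y (-t) ω := by
  have ht' : |(-t)| ≤ w := by rwa [abs_neg]
  have h0 : 0 ≤ 1 - C * t ^ 2 := by linarith
  have h01 : 1 - C * t ^ 2 ≤ 1 := by
    have := mul_nonneg h.C_nonneg (sq_nonneg t)
    linarith
  unfold Rp
  rw [← ENNReal.ofReal_prod_of_nonneg (fun x _ => h.nonneg t ht _),
    ← ENNReal.ofReal_prod_of_nonneg (fun x _ => h.nonneg (-t) ht' _),
    ← ENNReal.ofReal_add (Finset.prod_nonneg fun x _ => h.nonneg t ht _)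
      (Finset.prod_nonneg fun x _ => h.nonneg (-t) ht' _)]
  refine ENNReal.ofReal_le_ofReal ?_
  set a := ∏ x ∈ Y, r t (ω x).2 with ha
  set b := ∏ x ∈ Y, r (-t) (ω x).2 with hb
  have ha0 : 0 ≤ a := Finset.prod_nonneg fun x _ => h.nonneg t ht _
  have hb0 : 0 ≤ b := Finset.prod_nonneg fun x _ => h.nonneg (-t) ht' _
  have hab : (1 - C * t ^ 2) ^ Y.card ≤ a * b := by
    rw [ha, hb, ← Finset.prod_mul_distrib, ← Finset.prod_const]
    exact Finset.prod_le_prod (fun _ _ => h0) fun x _ => h.ratio t ht _ (hv x)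
  have hc : 0 ≤ (1 - C * t ^ 2) ^ Y.card := by positivity
  have hc1 : (1 - C * t ^ 2) ^ Y.card ≤ 1 := pow_le_one₀ h0 h01
  nlinarith [sq_nonneg (a - b), sq_nonneg (a + b)]

omit [IsProbabilityMeasure μ] in
theorem ae_scl (hlam : 0 < lam) : ∀ᵐ v ∂(scl lam uni), |v| ≤ lam := by
  unfold scl
  have hm : Measurable fun u : ℝ => lam * u := by fun_prop
  have hs : MeasurableSet {v : ℝ | |v| ≤ lam} := measurableSet_le (by fun_prop) measurable_const
  rw [ae_map_iff hm.aemeasurable hs]
  filter_upwards [ae_uni] with u hu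
  rw [abs_mul, abs_of_pos hlam]
  nlinarith

omit [IsProbabilityMeasure μ] in
theorem LawP.ae_one (h : LawP lam w C μ r) (hlam : 0 < lam) : ∀ᵐ a ∂μ, |a.2| ≤ lam := by
  have h1 := ae_scl hlam
  rw [← h.marg] at h1
  exact ae_of_ae_map measurable_snd.aemeasurable h1

omit [DecidableEq ι] in
theorem LawP.ae_pi (h : LawP lam w C μ r) (hlam : 0 < lam) :
    ∀ᵐ ω ∂(Measure.pi fun _ : ι => μ), ∀ x, |(ω x).2| ≤ lam := by
  rw [ae_all_iff]
  intro x
  exact (Measure.quasiMeasurePreserving_eval (μ := fun _ : ι => μ) x).ae (h.ae_one hlam)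

/-- the law change at one parameter -/
theorem LawP.dom_one (h : LawP lam w C μ r) (hlam : 0 < lam) {t : ℝ} (ht : |t| ≤ w)
    (hC : C * t ^ 2 ≤ 1) (Y : Finset ι)
    {F : (ι → SV) → ℝ≥0∞} (hF : Measurable F) (hV : VD Y F) :
    ENNReal.ofReal (2 * (1 - C * t ^ 2) ^ Y.card) * ∫⁻ ω, F ω ∂(Measure.pi fun _ : ι => μ) ≤
      ∫⁻ ω, F (mv Y t ω) ∂(Measure.pi fun _ : ι => μ) +
        ∫⁻ ω, F (mv Y (-t) ω) ∂(Measure.pi fun _ : ι => μ) := by
  have ht' : |(-t)| ≤ w := by rwa [abs_neg]
  have hm2 : Measurable fun ω : ι → SV => Rp r Y t ω * F ω := (h.measurable_Rp Y t).mul hF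
  refine le_trans ?_ (add_le_add (h.lint_mv ht Y hF hV) (h.lint_mv ht' Y hF hV))
  rw [← lintegral_add_left hm2, ← lintegral_const_mul _ hF]
  refine lintegral_mono_ae ?_
  filter_upwards [h.ae_pi (ι := ι) hlam] with ω hω
  rw [← add_mul]
  gcongr
  exact h.Rp_add ht hC Y hω

/-- **THE LAW CHANGE**, averaged over the parameter -/
theorem LawP.dom (h : LawP lam w C μ r) (hlam : 0 < lam) {κ : ℝ} (hκ : 0 < κ) (hκ1 : κ ≤ w)
    (hC : C * κ ^ 2 ≤ 1) (Y : Finset ι) {F : (ι → SV) → ℝ≥0∞}
    (hF : Measurable F) (hV : VD Y F) :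
    ENNReal.ofReal (2 * κ * (1 - C * κ ^ 2) ^ Y.card) * ∫⁻ ω, F ω ∂(Measure.pi fun _ : ι => μ) ≤
      ∫⁻ t in Set.Ioo (-κ) κ, ∫⁻ ω, F (mv Y t ω) ∂(Measure.pi fun _ : ι => μ) := by
  set g : ℝ → ℝ≥0∞ := fun t => ∫⁻ ω, F (mv Y t ω) ∂(Measure.pi fun _ : ι => μ) with hg
  have hgm : Measurable g :=
    Measurable.lintegral_prod_right' (f := fun p : ℝ × (ι → SV) => F (mv Y p.1 p.2))
      (hF.comp (measurable_mv2 Y))
  set c := ∫⁻ ω, F ω ∂(Measure.pi fun _ : ι => μ) with hc
  have hC0 := h.C_nonneg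
  have h1 : ∀ t ∈ Set.Ioo (-κ) κ, ENNReal.ofReal (2 * (1 - C * κ ^ 2) ^ Y.card) * c ≤
      g t + g (-t) := by
    intro t ht
    have ht1 : |t| < κ := abs_lt.2 ht
    have e2 : t ^ 2 ≤ κ ^ 2 := by nlinarith [ht.1, ht.2]
    have e4 : C * t ^ 2 ≤ C * κ ^ 2 := mul_le_mul_of_nonneg_left e2 hC0
    refine le_trans ?_ (h.dom_one hlam (ht1.le.trans hκ1) (e4.trans hC) Y hF hV)
    have e3 : (1 - C * κ ^ 2) ^ Y.card ≤ (1 - C * t ^ 2) ^ Y.card :=
      pow_le_pow_left₀ (by linarith) (by linarith) _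
    gcongr
  have h2 : ENNReal.ofReal (2 * (1 - C * κ ^ 2) ^ Y.card) * c * ENNReal.ofReal (2 * κ) ≤
      ∫⁻ t in Set.Ioo (-κ) κ, (g t + g (-t)) := by
    calc ENNReal.ofReal (2 * (1 - C * κ ^ 2) ^ Y.card) * c * ENNReal.ofReal (2 * κ)
        = ∫⁻ _t in Set.Ioo (-κ) κ, ENNReal.ofReal (2 * (1 - C * κ ^ 2) ^ Y.card) * c := by
          rw [setLIntegral_const, Real.volume_Ioo]
          congr 2
          ring
      _ ≤ _ := setLIntegral_mono' measurableSet_Ioo h1
  have h3 : ∫⁻ t in Set.Ioo (-κ) κ, g (-t) = ∫⁻ t in Set.Ioo (-κ) κ, g t := by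
    rw [← lintegral_indicator measurableSet_Ioo, ← lintegral_indicator measurableSet_Ioo,
      ← lintegral_neg_eq_self]
    refine lintegral_congr fun t => ?_
    by_cases ht : t ∈ Set.Ioo (-κ) κ
    · have ht' : -t ∈ Set.Ioo (-κ) κ := ⟨by linarith [ht.2], by linarith [ht.1]⟩
      rw [Set.indicator_of_mem ht, Set.indicator_of_mem ht', neg_neg]
    · have ht' : -t ∉ Set.Ioo (-κ) κ := fun h => ht ⟨by linarith [h.2], by linarith [h.1]⟩
      rw [Set.indicator_of_notMem ht, Set.indicator_of_notMem ht']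
  rw [lintegral_add_left hgm, h3, ← two_mul] at h2
  have h4 : ENNReal.ofReal (2 * (1 - C * κ ^ 2) ^ Y.card) * c * ENNReal.ofReal (2 * κ) =
      2 * (ENNReal.ofReal (2 * κ * (1 - C * κ ^ 2) ^ Y.card) * c) := by
    have h5 : (0 : ℝ) ≤ (1 - C * κ ^ 2) ^ Y.card := by
      have : 0 ≤ 1 - C * κ ^ 2 := by linarith
      positivity
    have h6 : (0 : ℝ) ≤ 2 * (1 - C * κ ^ 2) ^ Y.card := by positivity
    have h7 : ENNReal.ofReal (2 * (1 - C * κ ^ 2) ^ Y.card) * ENNReal.ofReal (2 * κ) =
        2 * ENNReal.ofReal (2 * κ * (1 - C * κ ^ 2) ^ Y.card) := by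
      rw [← ENNReal.ofReal_mul h6]
      conv_rhs => rw [show (2 : ℝ≥0∞) = ENNReal.ofReal 2 by norm_num,
        ← ENNReal.ofReal_mul (by norm_num)]
      congr 1
      ring
    rw [mul_right_comm, h7, mul_assoc]
  rw [h4] at h2
  exact (ENNReal.mul_le_mul_iff_right (by norm_num) (by norm_num)).1 h2

end P365CUL
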