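import Vale.Agent.P365.CUL841.Inst755
import Vale.Agent.P365.T2.H722.LawA

set_option linter.all false

/-!
# P365 / CUL841 / MuEq755: the site law `muSV` does not depend on the label set.

`muSV = mu2`: movable part `(1 - τ) nuS`, rest `nuL - (1 - τ) nuS`.
-/

namespace P365CUL.Inst755

open MeasureTheory ProbabilityTheory Function
open P365CU P365CUL P365T1 P365T1.Lab37 P365T1.C11
open scoped ENNReal

/-- movable part of the uniform law -/
noncomputable def nuM (lam τ : ℝ) : Measure ℝ := ENNReal.ofReal (1 - τ) • nuS lam (lam * τ / 2)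

/-- law of (movable?, value) -/
noncomputable def mu2 (lam τ : ℝ) : Measure SV :=
  (nuM lam τ).map (fun v => ((true, v) : SV)) +
    (P365L.TL.nuL lam - nuM lam τ).map (fun v => ((false, v) : SV))

section labels

variable {Mk Wn : Type} [Fintype Mk] [Fintype Wn] {lam τ : ℝ} {q : Mk ⊕ Wn → ℝ} {c w : Wn → ℝ}

theorem nuT_mov (h : Adm lam τ q c w) {k : LabT Mk Wn} (hk : movL k) :
    nuT lam τ q c w k = nuS lam (lam * τ / 2) := by
  have h1 := h.hlam
  have h2 := h.hτ
  have h3 := h.hτ'
  rw [P365T2.H722.nuS_eq_withDensity (by positivity) (by nlinarith)]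
  match k, hk with
  | none, _ => rfl
  | some (some (Sum.inl i)), _ => rfl

theorem nuM_eq (h : Adm lam τ q c w) : nuM lam τ =
    ENNReal.ofReal (pL τ q (none : LabT Mk Wn)) • nuT lam τ q c w none +
      ∑ i : Mk, ENNReal.ofReal (pL τ q (some (some (Sum.inl i)) : LabT Mk Wn)) •
        nuT lam τ q c w (some (some (Sum.inl i))) := by
  rw [nuT_mov h (k := none) trivial]
  have h1 : ∀ i : Mk, nuT lam τ q c w (some (some (Sum.inl i))) = nuS lam (lam * τ / 2) :=
    fun i => nuT_mov h trivial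
  simp only [h1]
  rw [← Finset.sum_smul, ← add_smul,
    ← ENNReal.ofReal_sum_of_nonneg fun i _ => (h.pL_pos _).le,
    ← ENNReal.ofReal_add (h.pL_pos _).le (Finset.sum_nonneg fun i _ => (h.pL_pos _).le)]
  unfold nuM
  congr 2
  simp only [pL]
  ring

instance isFiniteMeasure_nuM [IsFiniteMeasure (nuS lam (lam * τ / 2))] :
    IsFiniteMeasure (nuM lam τ) := by
  unfold nuM
  exact Measure.smul_finite _ ENNReal.ofReal_ne_top

theorem rest_eq (h : Adm lam τ q c w) : P365L.TL.nuL lam - nuM lam τ =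
    ENNReal.ofReal (pL τ q (some none : LabT Mk Wn)) • nuT lam τ q c w (some none) +
      ∑ a : Wn, ENNReal.ofReal (pL τ q (some (some (Sum.inr a)) : LabT Mk Wn)) •
        nuT lam τ q c w (some (some (Sum.inr a))) := by
  have h1 := h.hlam
  have h2 := h.hτ
  have h3 := h.hτ'
  haveI : IsProbabilityMeasure (nuS lam (lam * τ / 2)) :=
    isProbabilityMeasure_nuS (by positivity) (by nlinarith)
  have h4 := h.mix
  rw [Fintype.sum_option, Fintype.sum_option, Fintype.sum_sum_type] at h4
  have h5 : P365L.TL.nuL lam =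
      (ENNReal.ofReal (pL τ q (some none : LabT Mk Wn)) • nuT lam τ q c w (some none) +
      ∑ a : Wn, ENNReal.ofReal (pL τ q (some (some (Sum.inr a)) : LabT Mk Wn)) •
        nuT lam τ q c w (some (some (Sum.inr a)))) + nuM lam τ := by
    rw [← h4, nuM_eq h]
    abel
  rw [h5, Measure.add_sub_cancel]

/-- **the site law does not depend on the label set** -/
theorem muSV_eq (h : Adm lam τ q c w) : muSV lam τ q c w = mu2 lam τ := by
  refine Measure.ext_of_lintegral _ fun F hF => ?_
  have e0 : bm (none : LabT Mk Wn) = true := bm_eq_true.2 trivial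
  have e1 : bm (some none : LabT Mk Wn) = false := by
    rw [← Bool.not_eq_true, bm_eq_true]
    exact id
  have e2 : ∀ i : Mk, bm (some (some (Sum.inl i)) : LabT Mk Wn) = true := fun i =>
    bm_eq_true.2 trivial
  have e3 : ∀ a : Wn, bm (some (some (Sum.inr a)) : LabT Mk Wn) = false := fun a => by
    rw [← Bool.not_eq_true, bm_eq_true]
    exact id
  rw [muSV, lint_mixSV hF, mu2, lintegral_add_measure, lintegral_map hF (meas_mk _),
    lintegral_map hF (meas_mk _), rest_eq h, nuM_eq h, lintegral_add_measure,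
    lintegral_add_measure, lintegral_finset_sum_measure, lintegral_finset_sum_measure,
    Fintype.sum_option, Fintype.sum_option, Fintype.sum_sum_type]
  simp only [e0, e1, e2, e3, lintegral_smul_measure, smul_eq_mul]
  ring

theorem muSV_eq_muSV {Mk' Wn' : Type} [Fintype Mk'] [Fintype Wn'] {q' : Mk' ⊕ Wn' → ℝ}
    {c' w' : Wn' → ℝ} (h : Adm lam τ q c w) (h' : Adm lam τ q' c' w') :
    muSV lam τ q c w = muSV lam τ q' c' w' := (muSV_eq h).trans (muSV_eq h').symm

theorem prob_mu2 (h : Adm lam τ q c w) : IsProbabilityMeasure (mu2 lam τ) := by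
  rw [← muSV_eq h]
  exact prob_muSV h

theorem lawP_mu2 (h : Adm lam τ q c w) {w0 : ℝ} (hw0 : 0 < w0) :
    LawP lam w0 (Ct lam τ) (mu2 lam τ) (rt lam τ) := by
  rw [← muSV_eq h]
  exact lawP h hw0

/-- label form of the integrals over the product of `mu2` -/
theorem lint_pi_mu2 (h : Adm lam τ q c w) {ι : Type*} [Fintype ι] [DecidableEq ι]
    {F : (ι → SV) → ℝ≥0∞} (hF : Measurable F) :
    ∫⁻ ω, F ω ∂(Measure.pi fun _ : ι => mu2 lam τ) =
      ∑ l : ι → LabT Mk Wn, ENNReal.ofReal (∏ x, pL τ q (l x)) *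
        ∫⁻ v, F (fun x => (bm (l x), v x)) ∂(Measure.pi fun x => nuT lam τ q c w (l x)) := by
  rw [← muSV_eq h]
  exact lint_pi_muSV h hF

end labels

/-- admissible data without marks and windows: the law `mu2` exists for every `0 < τ ≤ 1/16384` -/
theorem adm_empty {lam τ : ℝ} (hlam : 0 < lam) (hτ : 0 < τ) (hτ' : τ ≤ 1 / 16384) :
    Adm (Mk := Empty) (Wn := Empty) lam τ (fun _ => 0) (fun _ => 0) (fun _ => 0) where
  hlam := hlam
  hτ := hτ
  hτ' := hτ'
  hq := fun j => by
    rcases j with j | j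
    · exact j.elim
    · exact j.elim
  hw := fun a => a.elim
  hc := fun a => a.elim
  sum_mark := by simpa using hτ.le
  sum_win := by
    simp only [Finset.univ_eq_empty, Finset.sum_empty]
    positivity

theorem isProb_mu2 {lam τ : ℝ} (hlam : 0 < lam) (hτ : 0 < τ) (hτ' : τ ≤ 1 / 16384) :
    IsProbabilityMeasure (mu2 lam τ) := prob_mu2 (adm_empty hlam hτ hτ')

theorem lawP_mu2' {lam τ w0 : ℝ} (hlam : 0 < lam) (hτ : 0 < τ) (hτ' : τ ≤ 1 / 16384)
    (hw0 : 0 < w0) : LawP lam w0 (Ct lam τ) (mu2 lam τ) (rt lam τ) :=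
  lawP_mu2 (adm_empty hlam hτ hτ') hw0

end P365CUL.Inst755
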