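import Vale.Agent.P365.CUL841.Law

set_option linter.all false

/-!
# P365 / CUL841 / Nz: half-open square norm.

`nz x = max (h x.1) (h x.2)` with `h t = t` for `t ≥ 0`, `h t = -t - 1` for `t < 0`, so that
`{nz < a} = [-a, a)²`.
-/

namespace P365CUL

open MeasureTheory ProbabilityTheory Function
open P365L P365L.Comp P365X P365CU
open scoped ENNReal

/-- distance from `-1/2`, rounded down -/
def hz (t : ℤ) : ℕ := if 0 ≤ t then t.toNat else (-t - 1).toNat

/-- half-open square norm -/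
def nz (x : Site) : ℕ := max (hz x.1) (hz x.2)

theorem hz_lt {t : ℤ} {a : ℕ} : hz t < a ↔ -(a : ℤ) ≤ t ∧ t < a := by
  unfold hz
  split_ifs <;> omega

theorem nz_lt {x : Site} {a : ℕ} :
    nz x < a ↔ (-(a : ℤ) ≤ x.1 ∧ x.1 < a) ∧ (-(a : ℤ) ≤ x.2 ∧ x.2 < a) := by
  unfold nz
  rw [max_lt_iff, hz_lt, hz_lt]

theorem nz_zero : nz 0 = 0 := by
  unfold nz hz
  simp

theorem nz_adj {x y : Site} (h : adj x y ≠ 0) : nz y ≤ nz x + 1 ∧ nz x ≤ nz y + 1 := by
  have h1 := adj_ne_zero h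
  unfold nz hz
  constructor
  · rw [max_le_iff]
    have h2 := le_max_left (if 0 ≤ x.1 then x.1.toNat else (-x.1 - 1).toNat)
      (if 0 ≤ x.2 then x.2.toNat else (-x.2 - 1).toNat)
    have h3 := le_max_right (if 0 ≤ x.1 then x.1.toNat else (-x.1 - 1).toNat)
      (if 0 ≤ x.2 then x.2.toNat else (-x.2 - 1).toNat)
    split_ifs at h2 h3 ⊢ <;> constructor <;> omega
  · rw [max_le_iff]
    have h2 := le_max_left (if 0 ≤ y.1 then y.1.toNat else (-y.1 - 1).toNat)
      (if 0 ≤ y.2 then y.2.toNat else (-y.2 - 1).toNat)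
    have h3 := le_max_right (if 0 ≤ y.1 then y.1.toNat else (-y.1 - 1).toNat)
      (if 0 ≤ y.2 then y.2.toNat else (-y.2 - 1).toNat)
    split_ifs at h2 h3 ⊢ <;> constructor <;> omega

/-- the shell `nz = R` -/
noncomputable def NS (R : ℕ) : Finset Site :=
  (Finset.Icc (-(R : ℤ) - 1) R ×ˢ Finset.Icc (-(R : ℤ) - 1) R).filter fun x => nz x = R

theorem mem_NS {R : ℕ} {x : Site} : x ∈ NS R ↔ nz x = R := by
  unfold NS
  rw [Finset.mem_filter, Finset.mem_product, Finset.mem_Icc, Finset.mem_Icc]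
  constructor
  · exact fun h => h.2
  · intro h
    have h1 : nz x < R + 1 := by omega
    rw [nz_lt] at h1
    push_cast at h1
    refine ⟨by omega, h⟩

theorem card_NS (R : ℕ) : (NS R).card ≤ 8 * R + 8 := by
  have h1 : NS R ⊆ ((({-(R : ℤ) - 1, (R : ℤ)} : Finset ℤ) ×ˢ Finset.Icc (-(R : ℤ) - 1) R) ∪
      (Finset.Icc (-(R : ℤ) - 1) R ×ˢ ({-(R : ℤ) - 1, (R : ℤ)} : Finset ℤ))) := by
    intro x hx
    have h2 := mem_NS.1 hx
    have h3 : nz x < R + 1 := by omega
    rw [nz_lt] at h3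
    push_cast at h3
    have h4 : ¬ nz x < R := by omega
    rw [nz_lt] at h4
    simp only [Finset.mem_union, Finset.mem_product, Finset.mem_insert, Finset.mem_singleton,
      Finset.mem_Icc]
    omega
  refine (Finset.card_le_card h1).trans ((Finset.card_union_le _ _).trans ?_)
  rw [Finset.card_product, Finset.card_product, Int.card_Icc]
  have h2 : ({-(R : ℤ) - 1, (R : ℤ)} : Finset ℤ).card ≤ 2 := Finset.card_le_two
  have h3 : ((R : ℤ) + 1 - (-(R : ℤ) - 1)).toNat = 2 * R + 2 := by omega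
  rw [h3]
  nlinarith

/-- relation with the sup norm -/
theorem ds_le_nz (x : Site) : ds x 0 ≤ nz x + 1 := by
  unfold ds nz hz
  rw [max_le_iff]
  have h2 := le_max_left (if 0 ≤ x.1 then x.1.toNat else (-x.1 - 1).toNat)
      (if 0 ≤ x.2 then x.2.toNat else (-x.2 - 1).toNat)
  have h3 := le_max_right (if 0 ≤ x.1 then x.1.toNat else (-x.1 - 1).toNat)
      (if 0 ≤ x.2 then x.2.toNat else (-x.2 - 1).toNat)
  have h4 : (0 : Site).1 = 0 := rfl
  have h5 : (0 : Site).2 = 0 := rfl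
  rw [h4, h5]
  split_ifs at h2 h3 ⊢ <;> constructor <;> omega

theorem nz_le_ds (x : Site) : nz x ≤ ds x 0 := by
  unfold ds nz hz
  rw [max_le_iff]
  have h2 := le_max_left (x.1 - (0 : Site).1).natAbs (x.2 - (0 : Site).2).natAbs
  have h3 := le_max_right (x.1 - (0 : Site).1).natAbs (x.2 - (0 : Site).2).natAbs
  have h4 : (0 : Site).1 = 0 := rfl
  have h5 : (0 : Site).2 = 0 := rfl
  rw [h4, h5] at h2 h3
  rw [h4, h5]
  split_ifs <;> constructor <;> omega

end P365CUL
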