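import Vale.Agent.P365.CU.CutId

set_option linter.all false

/-!
# P365 / CUL841 / Rev740: reverse insensitivity. Cutting the graph beyond a contact changes the
power arriving at the contact at most by the factor `(1 + k)²`.
-/

namespace P365CUL

open MeasureTheory ProbabilityTheory Complex Matrix Function P365S6
open P365L P365L.Comp P365X P365CU
open scoped ENNReal Real

variable {ι : Type*} [Fintype ι] [DecidableEq ι] {A : Matrix ι ι ℝ} {W : ι → ℂ}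
  {R N : Finset ι} {χ : ι → ℝ} {k : ℝ}

/-- REVERSE INSENSITIVITY -/
theorem CO_rev (h : CO A R N χ k) (hA : A.IsSymm) (hW : ∀ x, (W x).im < 0) {L : Finset ι}
    (hNL : N ⊆ L) (hL : ∀ x ∈ L, (W x).im ≤ -1) (hL0 : ∀ x ∈ L, x ∉ N → χ x = 0) {a : ι}
    (ha : χ a = 1) :
    ∑ b ∈ L, ‖Gr (cut A R) W a b‖ ^ 2 ≤ (1 + k) ^ 2 * ∑ x ∈ N, ‖Gr A W a x‖ ^ 2 := by
  have hA1 := cut_symm hA R
  obtain ⟨g, hg⟩ : ∃ g : ι → ℂ, g = fun x => Gr A W x a := ⟨_, rfl⟩
  obtain ⟨f, hf⟩ : ∃ f : ι → ℂ, f = fun x =>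
      if x ∈ N then ∑ y ∈ N, ((A x y * (χ y - χ x) : ℝ) : ℂ) * g y else 0 := ⟨_, rfl⟩
  obtain ⟨s, hs0, hs⟩ : ∃ s : ℝ, 0 ≤ s ∧ s ^ 2 = ∑ x ∈ N, ‖g x‖ ^ 2 :=
    ⟨Real.sqrt _, Real.sqrt_nonneg _, Real.sq_sqrt (Finset.sum_nonneg fun _ _ => sq_nonneg _)⟩
  have hfL : ∀ x, x ∉ L → f x = 0 := by
    intro x hx
    rw [hf]
    simp only
    rw [if_neg fun h' => hx (hNL h')]
  have h1 : ∀ b, Gr (cut A R) W a b = g b * χ b + (Gr (cut A R) W).mulVec (fun x => -f x) b := by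
    intro b
    have h2 := cut_id hA hW R h.zero b a
    rw [ha, ofReal_one, mul_one] at h2
    have h3 : ∑ x, Gr (cut A R) W b x * ∑ y, (Qm A R χ x y : ℂ) * Gr A W y a =
        (Gr (cut A R) W).mulVec f b := by
      rw [Matrix.mulVec, dotProduct]
      refine Finset.sum_congr rfl fun x _ => ?_
      rw [h.sum_Qm (fun y => Gr A W y a), hf, hg]
    have h4 : (Gr (cut A R) W).mulVec (fun x => -f x) b = -(Gr (cut A R) W).mulVec f b := by
      rw [Matrix.mulVec, Matrix.mulVec, dotProduct, dotProduct, ← Finset.sum_neg_distrib]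
      exact Finset.sum_congr rfl fun x _ => by rw [mul_neg]
    rw [h3] at h2
    have h5 : Gr A W b a * χ b = Gr (cut A R) W b a + (Gr (cut A R) W).mulVec f b := by
      rw [mul_comm]
      exact h2
    rw [h4, hg, Gr_symm hA1 a b]
    simp only
    rw [h5]
    ring
  have h2 : ∑ y ∈ L, ‖-f y‖ ^ 2 ≤ (k * s) ^ 2 := by
    have h3 : ∑ y ∈ L, ‖-f y‖ ^ 2 = ∑ y ∈ N, ‖f y‖ ^ 2 := by
      simp only [norm_neg]
      symm
      refine Finset.sum_subset hNL fun y _ hy => ?_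
      rw [hf]
      simp only
      rw [if_neg hy]
      simp
    rw [h3, mul_pow, hs]
    refine le_trans (le_of_eq ?_) (h.op hA g)
    refine Finset.sum_congr rfl fun y hy => ?_
    rw [hf]
    simp only
    rw [if_pos hy]
  have h3 : ∑ b ∈ L, ‖(Gr (cut A R) W).mulVec (fun x => -f x) b‖ ^ 2 ≤ (k * s) ^ 2 := by
    have := layer_solve hA1 hW one_pos L hL (fun x => -f x) fun x hx => by rw [hfL x hx, neg_zero]
    rw [one_pow, div_one, one_mul] at this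
    exact this.trans h2
  have h4 : ∑ b ∈ L, ‖g b * χ b‖ ^ 2 ≤ s ^ 2 := by
    rw [hs, ← Finset.sum_subset hNL]
    · refine Finset.sum_le_sum fun b _ => ?_
      refine pow_le_pow_left₀ (norm_nonneg _) ?_ 2
      rw [norm_mul, Complex.norm_real, Real.norm_of_nonneg (h.nonneg b)]
      exact mul_le_of_le_one_right (norm_nonneg _) (h.le_one b)
    · intro b hb hbN
      rw [hL0 b hb hbN]
      simp
  have h5 := l2_add_le L (fun b => g b * χ b) ((Gr (cut A R) W).mulVec fun x => -f x) hs0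
    (mul_nonneg h.k0 hs0) h4 h3
  calc ∑ b ∈ L, ‖Gr (cut A R) W a b‖ ^ 2 =
        ∑ b ∈ L, ‖g b * χ b + (Gr (cut A R) W).mulVec (fun x => -f x) b‖ ^ 2 :=
        Finset.sum_congr rfl fun b _ => by rw [h1]
    _ ≤ (s + k * s) ^ 2 := h5
    _ = (1 + k) ^ 2 * s ^ 2 := by ring
    _ = _ := by
        rw [hs, hg]
        congr 1
        exact Finset.sum_congr rfl fun x _ => by rw [Gr_symm hA]

theorem CO_rev_bl (h : CO A R N χ k) (hA : A.IsSymm) (hW : ∀ x, (W x).im < 0) {S : Finset ι}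
    (hL : ∀ x ∈ N, (W x).im ≤ -1) (hS : ∀ a ∈ S, χ a = 1) :
    bl S N (Gr (cut A R) W) ≤ (1 + k) ^ 2 * bl S N (Gr A W) := by
  unfold bl
  rw [Finset.mul_sum]
  exact Finset.sum_le_sum fun a ha => CO_rev h hA hW (Finset.Subset.refl N) hL
    (fun x hx hx' => absurd hx hx') (hS a ha)

/-- two cuts: outside `R'` (complement `R`... first) and inside -/
theorem CO_rev_two {R' N' : Finset ι} {χ' : ι → ℝ} {k' : ℝ} (h : CO A R N χ k)
    (h' : CO (cut A R) R' N' χ' k') (hA : A.IsSymm) (hW : ∀ x, (W x).im < 0)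
    (hN : ∀ x ∈ N, (W x).im ≤ -1) (hN' : ∀ x ∈ N', (W x).im ≤ -1)
    (h1 : ∀ a ∈ N', χ a = 1) (h2 : ∀ a ∈ N, χ' a = 1) :
    bl N' N (Gr (cut (cut A R) R') W) ≤ ((1 + k) * (1 + k')) ^ 2 * bl N' N (Gr A W) := by
  have hA1 := cut_symm hA R
  have e1 := CO_rev_bl h hA hW hN h1
  have e2 := CO_rev_bl h' hA1 hW hN' h2
  rw [bl_comm (Gr_symm (cut_symm hA1 R')), bl_comm (Gr_symm hA1)] at e2
  calc bl N' N (Gr (cut (cut A R) R') W) ≤ (1 + k') ^ 2 * bl N' N (Gr (cut A R) W) := e2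
    _ ≤ (1 + k') ^ 2 * ((1 + k) ^ 2 * bl N' N (Gr A W)) :=
        mul_le_mul_of_nonneg_left e1 (sq_nonneg _)
    _ = _ := by ring

end P365CUL
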