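import Vale.Agent.P365.CUL841.Nz

set_option linter.all false

/-!
# P365 / CUL841 / Ring841: the ring step for the common shift of the movable sites.
-/

namespace P365CUL

open MeasureTheory ProbabilityTheory Complex Matrix Function P365S6
open P365L P365L.Comp P365X P365CU
open scoped ENNReal Real

variable {ι : Type*} [Fintype ι] [DecidableEq ι] {A A' : Matrix ι ι ℝ} {W : ι → ℂ} {d : ι → ℝ}
  {ζ : ℂ} {κ κ' : ι → ℝ} {ω ω' : ι → SV} {p : ℝ}

theorem rot_zero {κ t : ℝ} : rot (-2 * Real.arctan (t / κ)) 0 = t / κ := by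
  unfold rot
  rw [Real.arctan_zero, show (0 : ℝ) - -2 * Real.arctan (t / κ) / 2 = Real.arctan (t / κ) by ring,
    Real.tan_arctan]

/-- `bl` of the Green matrix, closing the sites `Y` by the common shift -/
theorem ring_circle (hA : A.IsSymm) {κ p : ℝ} (hκ : 0 < κ)
    (hp : 0 < p) (hp1 : p < 1) (Y S B : Finset ι) {W0 : ι → ℂ}
    (hW0 : ∀ x, (W0 x).im < 0) (hd : ∀ x, 0 < d x) (hdY : ∀ x ∈ Y, d x ^ 2 = κ) :
    ∫⁻ t in Set.Ioo (-κ) κ, ENNReal.ofReal
        (bl S B (Gr (scA d A) (scW d fun x => if x ∈ Y then W0 x + (t : ℂ) else W0 x)) ^ (p / 2)) ≤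
      ENNReal.ofReal (2 * π * κ *
        (bl S B (Gr (scA d A) (scW d fun x => if x ∈ Y then W0 x - (κ : ℂ) * I else W0 x)) ^ (p / 2)
          + CK p * 2 ^ p *
          bl S Y (Gr (scA d A) (scW d fun x => if x ∈ Y then W0 x - (κ : ℂ) * I else W0 x)) ^ (p / 2)
          * bl Y B (Gr (scA d A) (scW d fun x => if x ∈ Y then W0 x - (κ : ℂ) * I else W0 x)) ^
            (p / 2))) := by
  obtain ⟨W', hW'⟩ : ∃ W' : ι → ℂ, W' = scW d W0 := ⟨_, rfl⟩
  have hW'n : ∀ x, (W' x).im < 0 := by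
    intro x
    rw [hW']
    exact scW_neg hd hW0 x
  obtain ⟨η, hη, hηW⟩ := exists_eta hW'n
  have hsA := scA_symm (d := d) hA
  have hdc : ∀ x, ((d x ^ 2 : ℝ) : ℂ) ≠ 0 := fun x =>
    ofReal_ne_zero.2 (pow_ne_zero 2 (hd x).ne')
  have hb : P365S6.Wb 1 W' Y = scW d fun x => if x ∈ Y then W0 x - (κ : ℂ) * I else W0 x := by
    funext x
    rw [hW']
    unfold P365S6.Wb scW
    by_cases hx : x ∈ Y
    · simp only [if_pos hx]
      have h1 := hdc x
      rw [hdY x hx] at h1 ⊢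
      rw [div_add' _ _ _ h1]
      congr 1
      push_cast
      ring
    · simp only [if_neg hx, add_zero]
  obtain ⟨c, hc⟩ : ∃ c : ι → ℝ, c = fun _ => 0 := ⟨_, rfl⟩
  have hr : ∀ t : ℝ, Wr 1 W' Y (rotv (-2 * Real.arctan (t / κ)) c) =
      scW d fun x => if x ∈ Y then W0 x + (t : ℂ) else W0 x := by
    intro t
    funext x
    rw [hW']
    unfold Wr scW rotv
    by_cases hx : x ∈ Y
    · simp only [if_pos hx]
      have h1 := hdc x
      rw [hdY x hx] at h1 ⊢
      rw [div_add' _ _ _ h1]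
      congr 1
      rw [hc, rot_zero]
      push_cast
      have : (κ : ℂ) ≠ 0 := ofReal_ne_zero.2 hκ.ne'
      field_simp
    · simp only [if_neg hx, add_zero]
  have hθ : ∀ t : ℝ, ∀ x, Real.cos (Real.arctan (c x) - -2 * Real.arctan (t / κ) / 2) ≠ 0 := by
    intro t x
    rw [hc]
    simp only
    rw [Real.arctan_zero, show (0 : ℝ) - -2 * Real.arctan (t / κ) / 2 = Real.arctan (t / κ) by ring]
    exact (Real.cos_arctan_pos _).ne'
  have h := int_le_circle hκ (h := fun t =>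
      bl S B (Gr (scA d A) (scW d fun x => if x ∈ Y then W0 x + ((t : ℝ) : ℂ) else W0 x)) ^ (p / 2))
    (H := fun z => bl S B (FF (scA d A) 1 W' Y c z) ^ (p / 2)) (by
      refine ContinuousOn.rpow_const ?_ fun z _ => Or.inr (by positivity)
      unfold bl
      refine continuousOn_finsetSum _ fun a _ => continuousOn_finsetSum _ fun b _ => ?_
      refine ContinuousOn.pow (ContinuousOn.norm ?_) 2
      exact fun z hz => (FF_analytic hsA one_pos hη hηW c a b z
        (Metric.sphere_subset_closedBall hz)).continuousAt.continuousWithinAt)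
    (fun z => by
      have := bl_nonneg S B (FF (scA d A) 1 W' Y c z)
      positivity)
    (fun t ht => by
      have := rot_identity (L := Y) hsA one_pos hη hηW S B p c _ (hθ t)
      rw [hr t] at this
      exact this)
  refine h.trans (ENNReal.ofReal_le_ofReal ?_)
  have h2 := circleAverage_FF_le (L := Y) hsA one_pos hη hηW S B hp hp1 c
  rw [hb, mul_one] at h2
  have h3 : 0 ≤ 2 * π * κ := by
    have := Real.pi_pos
    positivity
  exact mul_le_mul_of_nonneg_left h2 h3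

/-! ### potentials, weights, block norms -/

/-- absorption `κ` at the movable sites -/
noncomputable def WL {ι : Type*} (ζ : ℂ) (κ : ι → ℝ) (ω : ι → SV) : ι → ℂ := fun x =>
  ((ω x).2 : ℂ) - ((if (ω x).1 = true then κ x else 0 : ℝ) : ℂ) * I - ζ

/-- weights -/
noncomputable def dL {ι : Type*} (κ : ι → ℝ) (ω : ι → SV) : ι → ℝ := fun x =>
  if κ x = 0 then 1 else if (ω x).1 = true then Real.sqrt (κ x) else 0

/-- positive weights -/
noncomputable def dQ {ι : Type*} (κ : ι → ℝ) (ω : ι → SV) : ι → ℝ := fun x =>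
  if κ x = 0 then 1 else if (ω x).1 = true then Real.sqrt (κ x) else 1

/-- active sites -/
def act {ι : Type*} (κ : ι → ℝ) (ω : ι → SV) (x : ι) : Prop := κ x = 0 ∨ (ω x).1 = true

noncomputable instance {ι : Type*} (κ : ι → ℝ) (ω : ι → SV) : DecidablePred (act κ ω) :=
  fun _ => Classical.propDecidable _

omit [Fintype ι] [DecidableEq ι] in
theorem WL_im (x : ι) : (WL ζ κ ω x).im = -(if (ω x).1 = true then κ x else 0) - ζ.im := by
  unfold WL
  rw [Complex.sub_im, Complex.sub_im, Complex.ofReal_im, Complex.mul_im, Complex.ofReal_re,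
    Complex.ofReal_im, Complex.I_im, Complex.I_re]
  ring

omit [Fintype ι] [DecidableEq ι] in
theorem WL_neg (hζ : 0 < ζ.im) (hκ : ∀ x, 0 ≤ κ x) (x : ι) : (WL ζ κ ω x).im < 0 := by
  rw [WL_im]
  have := hκ x
  split_ifs <;> linarith

omit [Fintype ι] [DecidableEq ι] in
theorem dQ_pos (hκ : ∀ x, 0 ≤ κ x) (x : ι) : 0 < dQ κ ω x := by
  unfold dQ
  split_ifs with h h'
  · exact one_pos
  · exact Real.sqrt_pos.2 (lt_of_le_of_ne (hκ x) (Ne.symm h))
  · exact one_pos

omit [Fintype ι] [DecidableEq ι] in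
theorem dL_of_act {x : ι} (h : act κ ω x) : dL κ ω x = dQ κ ω x := by
  unfold dL dQ
  rcases h with h | h
  · rw [if_pos h, if_pos h]
  · rw [if_pos h, if_pos h]

omit [Fintype ι] [DecidableEq ι] in
theorem dL_of_not {x : ι} (h : ¬ act κ ω x) : dL κ ω x = 0 := by
  unfold act at h
  rw [not_or] at h
  unfold dL
  rw [if_neg h.1, if_neg h.2]

omit [Fintype ι] [DecidableEq ι] in
theorem dL_nonneg (x : ι) : 0 ≤ dL κ ω x := by
  unfold dL
  split_ifs
  · exact zero_le_one
  · exact Real.sqrt_nonneg _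
  · exact le_rfl

omit [Fintype ι] [DecidableEq ι] in
theorem dL_zero {x : ι} (hx : κ x = 0) : dL κ ω x = 1 := by
  unfold dL
  rw [if_pos hx]

omit [Fintype ι] [DecidableEq ι] in
theorem dL_sq_le (hζ : 0 < ζ.im) (hκ : ∀ x, 0 ≤ κ x) {x : ι} (hx : κ x ≠ 0) :
    dL κ ω x ^ 2 ≤ -(WL ζ κ ω x).im := by
  rw [WL_im]
  unfold dL
  rw [if_neg hx]
  split_ifs
  · rw [Real.sq_sqrt (hκ x)]
    linarith
  · simp only [ne_eq, OfNat.ofNat_ne_zero, not_false_eq_true, zero_pow]
    linarith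

/-- weighted squared Hilbert–Schmidt norm of a block -/
noncomputable def MM (A : Matrix ι ι ℝ) (ζ : ℂ) (κ : ι → ℝ) (S B : Finset ι)
    (ω : ι → SV) : ℝ :=
  bl S B (fun a b => (dL κ ω a : ℂ) * Gr A (WL ζ κ ω) a b * dL κ ω b)

theorem MM_nonneg (S B : Finset ι) (ω : ι → SV) : 0 ≤ MM A ζ κ S B ω := bl_nonneg _ _ _

omit [Fintype ι] [DecidableEq ι] in
theorem bl_filter (P Q : ι → Prop) [DecidablePred P] [DecidablePred Q] (S B : Finset ι)
    {f : ι → ι → ℂ} (h1 : ∀ a b, ¬ P a → f a b = 0) (h2 : ∀ a b, ¬ Q b → f a b = 0) :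
    bl S B f = bl (S.filter P) (B.filter Q) f := by
  unfold bl
  rw [Finset.sum_filter]
  refine Finset.sum_congr rfl fun a _ => ?_
  by_cases ha : P a
  · rw [if_pos ha, Finset.sum_filter]
    refine Finset.sum_congr rfl fun b _ => ?_
    by_cases hb : Q b
    · rw [if_pos hb]
    · rw [if_neg hb, h2 a b hb]
      simp
  · rw [if_neg ha]
    refine Finset.sum_eq_zero fun b _ => ?_
    rw [h1 a b ha]
    simp

theorem MM_filter (S B : Finset ι) : MM A ζ κ S B ω =
    bl (S.filter (act κ ω)) (B.filter (act κ ω))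
      (fun a b => (dL κ ω a : ℂ) * Gr A (WL ζ κ ω) a b * dL κ ω b) := by
  unfold MM
  refine bl_filter _ _ S B (fun a b h => ?_) fun a b h => ?_
  · rw [dL_of_not h]
    simp
  · rw [dL_of_not h]
    simp

theorem MM_eq (hA : A.IsSymm) (hζ : 0 < ζ.im) (hκ : ∀ x, 0 ≤ κ x) (S B : Finset ι) :
    MM A ζ κ S B ω = bl (S.filter (act κ ω)) (B.filter (act κ ω))
      (Gr (scA (dQ κ ω) A) (scW (dQ κ ω) (WL ζ κ ω))) := by
  rw [MM_filter]
  unfold bl
  refine Finset.sum_congr rfl fun a ha => Finset.sum_congr rfl fun b hb => ?_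
  beta_reduce
  rw [Gr_sc hA (WL_neg hζ hκ) (dQ_pos hκ), dL_of_act (Finset.mem_filter.1 ha).2,
    dL_of_act (Finset.mem_filter.1 hb).2]

/-! ### measurability -/

omit [Fintype ι] [DecidableEq ι] in
theorem meas_true (x : ι) : MeasurableSet {ω : ι → SV | (ω x).1 = true} := by
  have h1 : Measurable fun ω : ι → SV => (ω x).1 := measurable_fst.comp (measurable_pi_apply x)
  exact h1 (measurableSet_singleton true)

omit [Fintype ι] [DecidableEq ι] in
theorem measurable_WL (x : ι) : Measurable fun ω : ι → SV => WL ζ κ ω x := by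
  unfold WL
  have h1 : Measurable fun ω : ι → SV => (ω x).2 := measurable_snd.comp (measurable_pi_apply x)
  have h2 : Measurable fun ω : ι → SV => (if (ω x).1 = true then κ x else 0 : ℝ) :=
    Measurable.ite (meas_true x) measurable_const measurable_const
  have h3 := Complex.measurable_ofReal.comp h1
  have h4 := Complex.measurable_ofReal.comp h2
  exact (h3.sub (h4.mul_const I)).sub_const ζ

omit [Fintype ι] [DecidableEq ι] in
theorem measurable_dL (x : ι) : Measurable fun ω : ι → SV => dL κ ω x := by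
  unfold dL
  by_cases h : κ x = 0
  · simp only [if_pos h]
    exact measurable_const
  · simp only [if_neg h]
    exact Measurable.ite (meas_true x) measurable_const measurable_const

theorem measurable_MM (S B : Finset ι) : Measurable (MM A ζ κ S B) := by
  unfold MM bl
  refine Finset.measurable_sum _ fun a _ => Finset.measurable_sum _ fun b _ => ?_
  refine (Measurable.norm ?_).pow_const 2
  refine Measurable.mul (Measurable.mul ?_ ?_) ?_
  · exact Complex.measurable_ofReal.comp (measurable_dL a)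
  · exact measurable_Gr (fun ω : ι → SV => WL ζ κ ω) (fun z => measurable_WL z) a b
  · exact Complex.measurable_ofReal.comp (measurable_dL b)

/-- power of the weighted norm -/
noncomputable def MP (A : Matrix ι ι ℝ) (ζ : ℂ) (κ : ι → ℝ) (p : ℝ) (S B : Finset ι)
    (ω : ι → SV) : ℝ≥0∞ := ENNReal.ofReal (MM A ζ κ S B ω ^ (p / 2))

theorem measurable_MP (S B : Finset ι) : Measurable (MP A ζ κ p S B) := by
  unfold MP
  exact ((measurable_MM S B).pow_const _).ennreal_ofReal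

/-! ### the ring step -/

theorem WL_mv {L : Finset ι} (hκL : ∀ x ∈ L, κ x = 0) (t : ℝ) :
    WL ζ κ (mv L t ω) = fun x => if x ∈ L.filter (fun x => (ω x).1 = true) then
      WL ζ κ ω x + (t : ℂ) else WL ζ κ ω x := by
  funext x
  by_cases hx : x ∈ L
  · by_cases h1 : (ω x).1 = true
    · rw [if_pos (Finset.mem_filter.2 ⟨hx, h1⟩)]
      unfold WL mv
      rw [if_pos hx, sh_snd, sh_fst, if_pos h1, hκL x hx]
      push_cast
      simp only [ite_self, ofReal_zero, zero_mul, sub_zero]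
      ring
    · rw [if_neg (show ¬ x ∈ L.filter (fun x => (ω x).1 = true) from
        fun h => h1 (Finset.mem_filter.1 h).2)]
      unfold WL mv
      rw [if_pos hx, sh_snd, sh_fst, if_neg h1]
  · rw [if_neg (show ¬ x ∈ L.filter (fun x => (ω x).1 = true) from
      fun h => hx (Finset.mem_filter.1 h).1)]
    unfold WL mv
    rw [if_neg hx]

/-- the profile with the ring switched on -/
theorem WL_swOn {L : Finset ι} {κ0 : ℝ} (hκL : ∀ x ∈ L, κ x = 0) :
    WL ζ (swOn κ L κ0) ω = fun x => if x ∈ L.filter (fun x => (ω x).1 = true) then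
      WL ζ κ ω x - (κ0 : ℂ) * I else WL ζ κ ω x := by
  funext x
  by_cases hx : x ∈ L
  · by_cases h1 : (ω x).1 = true
    · rw [if_pos (Finset.mem_filter.2 ⟨hx, h1⟩)]
      unfold WL swOn
      rw [if_pos hx, if_pos h1, hκL x hx]
      simp only [ite_self, ofReal_zero, zero_mul, sub_zero]
      ring
    · rw [if_neg (show ¬ x ∈ L.filter (fun x => (ω x).1 = true) from
        fun h => h1 (Finset.mem_filter.1 h).2)]
      unfold WL swOn
      rw [if_neg h1, if_neg h1]
  · rw [if_neg (show ¬ x ∈ L.filter (fun x => (ω x).1 = true) from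
      fun h => hx (Finset.mem_filter.1 h).1)]
    unfold WL swOn
    rw [if_neg hx]

theorem swOn_nonneg {L : Finset ι} {κ0 : ℝ} (hκ0 : 0 < κ0) (hκ : ∀ x, 0 ≤ κ x) (x : ι) :
    0 ≤ swOn κ L κ0 x := by
  unfold swOn
  split_ifs
  · exact hκ0.le
  · exact hκ x

theorem MM_mv (hA : A.IsSymm) (hζ : 0 < ζ.im) (hκ : ∀ x, 0 ≤ κ x) {κ0 t : ℝ}
    (hκ0 : 0 < κ0) {L S B : Finset ι} (hκL : ∀ x ∈ L, κ x = 0)
    (hS : ∀ x ∈ S, x ∉ L) (hB : ∀ x ∈ B, x ∉ L) :
    MM A ζ κ S B (mv L t ω) =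
      bl (S.filter (act (swOn κ L κ0) ω)) (B.filter (act (swOn κ L κ0) ω))
        (Gr (scA (dQ (swOn κ L κ0) ω) A) (scW (dQ (swOn κ L κ0) ω)
        (fun x => if x ∈ L.filter (fun x => (ω x).1 = true) then
          WL ζ κ ω x + (t : ℂ) else WL ζ κ ω x))) := by
  have hκ' := swOn_nonneg (L := L) hκ0 hκ
  have hneg : ∀ x, ((fun x => if x ∈ L.filter (fun x => (ω x).1 = true) then
          WL ζ κ ω x + (t : ℂ) else WL ζ κ ω x) x).im < 0 := by
    intro x
    have := WL_neg (ω := ω) hζ hκ x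
    simp only
    split_ifs
    · rw [Complex.add_im, Complex.ofReal_im, add_zero]
      exact this
    · exact this
  have e : ∀ x, x ∉ L → dL κ (mv L t ω) x = dL (swOn κ L κ0) ω x := by
    intro x hx
    unfold dL swOn mv
    rw [if_neg hx, if_neg hx]
  unfold MM
  rw [WL_mv hκL]
  have h1 : bl S B (fun a b => (dL κ (mv L t ω) a : ℂ) * Gr A (fun x =>
      if x ∈ L.filter (fun x => (ω x).1 = true) then WL ζ κ ω x + (t : ℂ) else WL ζ κ ω x) a b *
        dL κ (mv L t ω) b) = bl S B (fun a b => (dL (swOn κ L κ0) ω a : ℂ) * Gr A (fun x =>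
      if x ∈ L.filter (fun x => (ω x).1 = true) then WL ζ κ ω x + (t : ℂ) else WL ζ κ ω x) a b *
        dL (swOn κ L κ0) ω b) := by
    unfold bl
    refine Finset.sum_congr rfl fun a ha => Finset.sum_congr rfl fun b hb => ?_
    beta_reduce
    rw [e a (hS a ha), e b (hB b hb)]
  rw [h1, bl_filter (act (swOn κ L κ0) ω) (act (swOn κ L κ0) ω) S B (fun a b h => by
    rw [dL_of_not h]
    simp) (fun a b h => by
    rw [dL_of_not h]
    simp)]
  unfold bl
  refine Finset.sum_congr rfl fun a ha => Finset.sum_congr rfl fun b hb => ?_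
  beta_reduce
  rw [Gr_sc hA hneg (dQ_pos hκ'), dL_of_act (Finset.mem_filter.1 ha).2,
    dL_of_act (Finset.mem_filter.1 hb).2]

/-- THE RING STEP, deterministic -/
theorem ring_point (hA : A.IsSymm) (hζ : 0 < ζ.im) (hp : 0 < p) (hp1 : p < 1)
    (hκ : ∀ x, 0 ≤ κ x) {κ0 : ℝ} (hκ0 : 0 < κ0) {R N R' N' L S B : Finset ι}
    (hκL : ∀ x ∈ L, κ x = 0) (hS : ∀ x ∈ S, x ∉ L) (hB : ∀ x ∈ B, x ∉ L)
    (hRR : ∀ x, x ∈ R' ↔ x ∉ R) (hLN : ∀ x, x ∈ L ↔ x ∈ N ∨ x ∈ N')
    {χ χ' : ι → ℝ} {k k' : ℝ}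
    (h : CO (scA (dQ (swOn κ L κ0) ω) A) R (N.filter fun x => (ω x).1 = true) χ k)
    (h' : CO (scA (dQ (swOn κ L κ0) ω) A) R' (N'.filter fun x => (ω x).1 = true) χ' k')
    (hSχ : ∀ a ∈ S, χ a = 1) (hBχ : ∀ b ∈ B, χ' b = 1) (hB0 : ∀ b ∈ B, χ b = 0) :
    ∫⁻ t in Set.Ioo (-κ0) κ0, MP A ζ κ p S B (mv L t ω) ≤
      ENNReal.ofReal (2 * κ0 * (π * (1 + CK p * 2 ^ p))) *
        ((ENNReal.ofReal ((1 + k) ^ p) * MP (cut A R) ζ (swOn κ L κ0) p S N ω) *
          (ENNReal.ofReal ((1 + k') ^ p) * MP (cut A R) ζ (swOn κ L κ0) p N' B ω)) := by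
  have hκ' := swOn_nonneg (L := L) hκ0 hκ
  obtain ⟨d, hd⟩ : ∃ d, d = dQ (swOn κ L κ0) ω := ⟨_, rfl⟩
  have hdp : ∀ x, 0 < d x := by
    rw [hd]
    exact dQ_pos hκ'
  obtain ⟨Y, hY⟩ : ∃ Y, Y = L.filter fun x => (ω x).1 = true := ⟨_, rfl⟩
  have hsw : ∀ x ∈ L, swOn κ L κ0 x = κ0 := by
    intro x hx
    unfold swOn
    rw [if_pos hx]
  have hdY : ∀ x ∈ Y, d x ^ 2 = κ0 := by
    intro x hx
    rw [hY, Finset.mem_filter] at hx
    rw [hd]
    unfold dQ
    rw [hsw x hx.1, if_neg hκ0.ne', if_pos hx.2, Real.sq_sqrt hκ0.le]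
  have h1 := ring_circle (d := d) hA hκ0 hp hp1 Y (S.filter (act (swOn κ L κ0) ω))
    (B.filter (act (swOn κ L κ0) ω)) (W0 := WL ζ κ ω)
    (WL_neg hζ hκ) hdp hdY
  have hWz := WL_swOn (ζ := ζ) (ω := ω) (κ0 := κ0) hκL
  rw [← hY] at hWz
  rw [← hWz] at h1
  have h2 : ∀ t ∈ Set.Ioo (-κ0) κ0, MP A ζ κ p S B (mv L t ω) = ENNReal.ofReal
      (bl (S.filter (act (swOn κ L κ0) ω)) (B.filter (act (swOn κ L κ0) ω))
        (Gr (scA d A) (scW d fun x => if x ∈ Y then WL ζ κ ω x + (t : ℂ) else WL ζ κ ω x))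
          ^ (p / 2)) := by
    intro t ht
    unfold MP
    rw [MM_mv (κ0 := κ0) hA hζ hκ hκ0 hκL hS hB, hd, hY]
  rw [setLIntegral_congr_fun measurableSet_Ioo h2]
  refine h1.trans ?_
  have hsA := scA_symm (d := d) hA
  have hWneg := scW_neg (d := d) hdp (WL_neg (κ := swOn κ L κ0) (ω := ω) hζ hκ')
  have hL1 : ∀ x ∈ Y, (scW d (WL ζ (swOn κ L κ0) ω) x).im ≤ -1 := by
    intro x hx
    have hx' := hx
    rw [hY, Finset.mem_filter] at hx'
    rw [scW_im, WL_im, hsw x hx'.1, hdY x hx, if_pos hx'.2]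
    rw [div_le_iff₀ hκ0]
    linarith
  rw [← hd] at h h'
  have hLN' : ∀ x, x ∈ Y ↔ x ∈ N.filter (fun x => (ω x).1 = true) ∨
      x ∈ N'.filter fun x => (ω x).1 = true := by
    intro x
    rw [hY, Finset.mem_filter, Finset.mem_filter, Finset.mem_filter, hLN]
    tauto
  have h6 := ring_det_pow hp hp1 h h' hRR hsA hWneg hLN' hL1
    (S := S.filter (act (swOn κ L κ0) ω)) (B := B.filter (act (swOn κ L κ0) ω))
    (fun a ha => hSχ a (Finset.mem_filter.1 ha).1) (fun b hb => hBχ b (Finset.mem_filter.1 hb).1)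
    (fun b hb => hB0 b (Finset.mem_filter.1 hb).1)
  rw [cut_scA] at h6
  have e1 := MM_eq (κ := swOn κ L κ0) (ω := ω) (cut_symm hA R) hζ hκ' S N
  have e2 := MM_eq (κ := swOn κ L κ0) (ω := ω) (cut_symm hA R) hζ hκ' N' B
  have f1 : N.filter (act (swOn κ L κ0) ω) = N.filter fun x => (ω x).1 = true := by
    refine Finset.filter_congr fun x hx => ?_
    unfold act
    rw [hsw x ((hLN x).2 (Or.inl hx))]
    constructor
    · rintro (h | h)
      · exact absurd h hκ0.ne'
      · exact h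
    · exact Or.inr
  have f2 : N'.filter (act (swOn κ L κ0) ω) = N'.filter fun x => (ω x).1 = true := by
    refine Finset.filter_congr fun x hx => ?_
    unfold act
    rw [hsw x ((hLN x).2 (Or.inr hx))]
    constructor
    · rintro (h | h)
      · exact absurd h hκ0.ne'
      · exact h
    · exact Or.inr
  rw [← hd, f1] at e1
  rw [← hd, f2] at e2
  rw [← e1, ← e2] at h6
  have hCK := CK_nonneg hp hp1
  have hk := h.k0
  have hk' := h'.k0
  have hM1 := MM_nonneg (A := cut A R) (ζ := ζ) (κ := swOn κ L κ0) S N ω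
  have hM2 := MM_nonneg (A := cut A R) (ζ := ζ) (κ := swOn κ L κ0) N' B ω
  have hπ := Real.pi_pos
  unfold MP
  rw [← ENNReal.ofReal_mul (by positivity), ← ENNReal.ofReal_mul (by positivity),
    ← ENNReal.ofReal_mul (by positivity), ← ENNReal.ofReal_mul (by positivity)]
  refine ENNReal.ofReal_le_ofReal ?_
  calc _ ≤ 2 * π * κ0 * ((1 + CK p * 2 ^ p) *
        (((1 + k) ^ p * MM (cut A R) ζ (swOn κ L κ0) S N ω ^ (p / 2)) *
        ((1 + k') ^ p * MM (cut A R) ζ (swOn κ L κ0) N' B ω ^ (p / 2)))) :=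
        mul_le_mul_of_nonneg_left h6 (by positivity)
    _ = _ := by ring

end P365CUL
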