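import Vale.Agent.P365.CUL841.Ring841

set_option linter.all false

/-!
# P365 / CUL841 / Step841: the ring step in expectation, with an additive bad event; one-site and
two-site averages at moved configurations; flux bounds.
-/

namespace P365CUL

open MeasureTheory ProbabilityTheory Complex Matrix Function P365S6
open P365L P365L.Comp P365X P365CU
open scoped ENNReal Real

variable {ι : Type*} [Fintype ι] [DecidableEq ι] {A A' : Matrix ι ι ℝ} {W : ι → ℂ} {d : ι → ℝ}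
  {ζ : ℂ} {κ κ' : ι → ℝ} {ω ω' : ι → SV} {p : ℝ}
  {lam w C : ℝ} {μ : Measure SV} [IsProbabilityMeasure μ] {r : ℝ → ℝ → ℝ}

/-- constant of the ring step -/
noncomputable def CRL (p C κ0 : ℝ) (n : ℕ) : ℝ := π * (1 + CK p * 2 ^ p) / (1 - C * κ0 ^ 2) ^ n

theorem CRL_nonneg {p C κ0 : ℝ} (hp : 0 < p) (hp1 : p < 1) (hC : C * κ0 ^ 2 < 1) (n : ℕ) :
    0 ≤ CRL p C κ0 n := by
  unfold CRL
  have h1 := CK_nonneg hp hp1
  have h3 : 0 < 1 - C * κ0 ^ 2 := by linarith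
  positivity

/-- the block norm sees the sites with `κ = 0` (outside the two blocks) through the values -/
theorem MM_VD {L S B : Finset ι} (hκL : ∀ x ∈ L, κ x = 0) (hS : ∀ x ∈ S, x ∉ L)
    (hB : ∀ x ∈ B, x ∉ L) (h1 : ∀ x, x ∉ L → ω x = ω' x) (h2 : ∀ x, (ω x).2 = (ω' x).2) :
    MM A ζ κ S B ω = MM A ζ κ S B ω' := by
  have hW : WL ζ κ ω = WL ζ κ ω' := by
    funext x
    by_cases hx : x ∈ L
    · unfold WL
      rw [hκL x hx, h2 x]
      simp
    · unfold WL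
      rw [h1 x hx]
  have hd : ∀ x, x ∉ L → dL κ ω x = dL κ ω' x := by
    intro x hx
    unfold dL
    rw [h1 x hx]
  unfold MM bl
  rw [hW]
  refine Finset.sum_congr rfl fun a ha => Finset.sum_congr rfl fun b hb => ?_
  beta_reduce
  rw [hd a (hS a ha), hd b (hB b hb)]

theorem MP_VD {L S B : Finset ι} (hκL : ∀ x ∈ L, κ x = 0) (hS : ∀ x ∈ S, x ∉ L)
    (hB : ∀ x ∈ B, x ∉ L) : VD L (MP A ζ κ p S B) := by
  intro ω ω' h1 h2
  unfold MP
  rw [MM_VD hκL hS hB h1 h2]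

/-- THE RING STEP in expectation, with an additive bad term -/
theorem LawP.ring_exp (hLaw : LawP lam w C μ r) (hlam : 0 < lam) (hA : A.IsSymm)
    (hζ : 0 < ζ.im) (hp : 0 < p) (hp1 : p < 1)
    (hκ : ∀ x, 0 ≤ κ x) {κ0 : ℝ} (hκ0 : 0 < κ0) (hκw : κ0 ≤ w) (hC : C * κ0 ^ 2 < 1)
    {R N R' N' L S B : Finset ι}
    (hκL : ∀ x ∈ L, κ x = 0) (hS : ∀ x ∈ S, x ∉ L) (hB : ∀ x ∈ B, x ∉ L)
    (hRR : ∀ x, x ∈ R' ↔ x ∉ R) (hLN : ∀ x, x ∈ L ↔ x ∈ N ∨ x ∈ N')
    {k k' : ℝ} (hk : 0 ≤ k) (hk' : 0 ≤ k') {Bd : Set (ι → SV)} (hBd : MeasurableSet Bd)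
    (hco : ∀ ω, ω ∉ Bd → ∃ χ χ' : ι → ℝ,
      CO (scA (dQ (swOn κ L κ0) ω) A) R (N.filter fun x => (ω x).1 = true) χ k ∧
      CO (scA (dQ (swOn κ L κ0) ω) A) R' (N'.filter fun x => (ω x).1 = true) χ' k' ∧
      (∀ a ∈ S, χ a = 1) ∧ (∀ b ∈ B, χ' b = 1) ∧ (∀ b ∈ B, χ b = 0))
    {D : ℝ≥0∞} (hbad : ∀ t ∈ Set.Ioo (-κ0) κ0,
      ∫⁻ ω in Bd, MP A ζ κ p S B (mv L t ω) ∂(Measure.pi fun _ : ι => μ) ≤ D) :
    ∫⁻ ω, MP A ζ κ p S B ω ∂(Measure.pi fun _ : ι => μ) ≤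
      ENNReal.ofReal (CRL p C κ0 L.card) * (ENNReal.ofReal ((1 + k) ^ p * (1 + k') ^ p) * ∫⁻ ω,
        (MP (cut A R) ζ (swOn κ L κ0) p S N ω * MP (cut A R) ζ (swOn κ L κ0) p N' B ω)
          ∂(Measure.pi fun _ : ι => μ) + D) := by
  obtain ⟨P, hP⟩ : ∃ P : Measure (ι → SV), P = Measure.pi fun _ : ι => μ := ⟨_, rfl⟩
  have hPprob : IsProbabilityMeasure P := by
    rw [hP]
    infer_instance
  rw [← hP] at hbad ⊢
  obtain ⟨F, hF⟩ : ∃ F : (ι → SV) → ℝ≥0∞, F = MP A ζ κ p S B := ⟨_, rfl⟩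
  have hFm : Measurable F := by
    rw [hF]
    exact measurable_MP S B
  have hFV : VD L F := by
    rw [hF]
    exact MP_VD hκL hS hB
  have h1 := hLaw.dom hlam hκ0 hκw hC.le L hFm hFV
  rw [← hP] at h1
  obtain ⟨G, hG⟩ : ∃ G : (ι → SV) → ℝ≥0∞, G = fun ω =>
      MP (cut A R) ζ (swOn κ L κ0) p S N ω * MP (cut A R) ζ (swOn κ L κ0) p N' B ω :=
    ⟨_, rfl⟩
  have hGm : Measurable G := by
    rw [hG]
    exact (measurable_MP S N).mul (measurable_MP N' B)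
  have hCK := CK_nonneg hp hp1
  have hπ := Real.pi_pos
  obtain ⟨g, hg⟩ : ∃ g, g = ENNReal.ofReal ((1 + k) ^ p * (1 + k') ^ p) := ⟨_, rfl⟩
  obtain ⟨q, hq⟩ : ∃ q, q = ENNReal.ofReal (2 * κ0 * (π * (1 + CK p * 2 ^ p))) := ⟨_, rfl⟩
  rw [← hg]
  have hmt : Measurable fun pr : (ι → SV) × ℝ => F (mv L pr.2 pr.1) :=
    hFm.comp ((measurable_mv2 L).comp measurable_swap)
  have h2 : ∫⁻ t in Set.Ioo (-κ0) κ0, ∫⁻ ω, F (mv L t ω) ∂P ≤ q * (g * ∫⁻ ω, G ω ∂P + D) := by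
    have e1 : ∫⁻ t in Set.Ioo (-κ0) κ0, ∫⁻ ω, F (mv L t ω) ∂P =
        ∫⁻ t in Set.Ioo (-κ0) κ0, (∫⁻ ω in Bd, F (mv L t ω) ∂P +
          ∫⁻ ω in Bdᶜ, F (mv L t ω) ∂P) := by
      refine lintegral_congr fun t => ?_
      rw [lintegral_add_compl _ hBd]
    have hm1 : Measurable fun t : ℝ => ∫⁻ ω in Bd, F (mv L t ω) ∂P :=
      Measurable.lintegral_prod_right' (f := fun p : ℝ × (ι → SV) => F (mv L p.1 p.2))
        (hFm.comp (measurable_mv2 L))
    rw [e1, lintegral_add_left hm1]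
    have e2 : ∫⁻ t in Set.Ioo (-κ0) κ0, ∫⁻ ω in Bd, F (mv L t ω) ∂P ≤ q * D := by
      calc ∫⁻ t in Set.Ioo (-κ0) κ0, ∫⁻ ω in Bd, F (mv L t ω) ∂P
          ≤ ∫⁻ _t in Set.Ioo (-κ0) κ0, D := by
            refine setLIntegral_mono' measurableSet_Ioo fun t ht => ?_
            rw [hF]
            exact hbad t ht
        _ = ENNReal.ofReal (2 * κ0) * D := by
            rw [setLIntegral_const, Real.volume_Ioo, mul_comm]
            congr 2
            ring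
        _ ≤ q * D := by
            rw [hq]
            refine mul_le_mul' (ENNReal.ofReal_le_ofReal ?_) le_rfl
            have h5 : (1 : ℝ) ≤ π * (1 + CK p * 2 ^ p) := by
              have h6 : 0 ≤ CK p * 2 ^ p := by positivity
              have h7 : (1 : ℝ) ≤ 1 + CK p * 2 ^ p := by linarith
              have h8 := Real.pi_gt_three
              calc (1 : ℝ) ≤ π * 1 := by linarith
                _ ≤ _ := mul_le_mul_of_nonneg_left h7 (by linarith)
            calc 2 * κ0 = 2 * κ0 * 1 := (mul_one _).symm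
              _ ≤ _ := mul_le_mul_of_nonneg_left h5 (by linarith)
    have e3 : ∫⁻ t in Set.Ioo (-κ0) κ0, ∫⁻ ω in Bdᶜ, F (mv L t ω) ∂P ≤
        q * (g * ∫⁻ ω, G ω ∂P) := by
      have hsw := lintegral_lintegral_swap (μ := (volume : Measure ℝ).restrict (Set.Ioo (-κ0) κ0))
        (ν := P.restrict Bdᶜ) (f := fun (t : ℝ) (ω : ι → SV) => F (mv L t ω))
        (hFm.comp (measurable_mv2 L)).aemeasurable
      rw [hsw]
      · calc ∫⁻ ω in Bdᶜ, (∫⁻ t in Set.Ioo (-κ0) κ0, F (mv L t ω)) ∂P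
            ≤ ∫⁻ ω in Bdᶜ, q * (g * G ω) ∂P := by
              refine setLIntegral_mono' hBd.compl fun ω hω => ?_
              obtain ⟨χ, χ', hc1, hc2, hc3, hc4, hc5⟩ := hco ω hω
              have h4 := ring_point (ω := ω) hA hζ hp hp1 hκ hκ0 hκL hS hB hRR hLN hc1 hc2 hc3
                hc4 hc5
              rw [hF]
              refine h4.trans (le_of_eq ?_)
              rw [hq, hg, hG, ENNReal.ofReal_mul (p := (1 + k) ^ p) (by positivity)]
              ring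
          _ ≤ ∫⁻ ω, q * (g * G ω) ∂P := setLIntegral_le_lintegral _ _
          _ = q * (g * ∫⁻ ω, G ω ∂P) := by
              rw [lintegral_const_mul _ (hGm.const_mul g), lintegral_const_mul _ hGm]
    calc _ ≤ q * D + q * (g * ∫⁻ ω, G ω ∂P) := add_le_add e2 e3
      _ = _ := by ring
  have h3 := h1.trans h2
  have h5 : 0 < (1 - C * κ0 ^ 2) ^ L.card := pow_pos (by linarith) _
  have h6 : 0 < 2 * κ0 * (1 - C * κ0 ^ 2) ^ L.card := by positivity
  have h7 : ENNReal.ofReal (CRL p C κ0 L.card) =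
      (ENNReal.ofReal (2 * κ0 * (1 - C * κ0 ^ 2) ^ L.card))⁻¹ * q := by
    rw [hq, ← ENNReal.ofReal_inv_of_pos h6, ← ENNReal.ofReal_mul (by positivity)]
    congr 1
    unfold CRL
    field_simp
  rw [h7, mul_assoc]
  have h8 : ENNReal.ofReal (2 * κ0 * (1 - C * κ0 ^ 2) ^ L.card) ≠ 0 := by
    rw [Ne, ENNReal.ofReal_eq_zero, not_le]
    exact h6
  obtain ⟨a, ha⟩ : ∃ a, a = ENNReal.ofReal (2 * κ0 * (1 - C * κ0 ^ 2) ^ L.card) := ⟨_, rfl⟩
  have ha' : a ≠ ∞ := by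
    rw [ha]
    exact ENNReal.ofReal_ne_top
  rw [← ha] at h3 h8 ⊢
  rw [← hF]
  calc ∫⁻ ω, F ω ∂P = a⁻¹ * (a * ∫⁻ ω, F ω ∂P) := by
        rw [← mul_assoc, ENNReal.inv_mul_cancel h8 ha', one_mul]
    _ ≤ a⁻¹ * (q * (g * ∫⁻ ω, G ω ∂P + D)) := by gcongr
    _ = _ := by rw [hG]

/-! ### averages over one and two sites -/

omit [IsProbabilityMeasure μ] in
theorem LawP.lint_snd (hLaw : LawP lam w C μ r) {g : ℝ → ℝ≥0∞} (hg : Measurable g) :
    ∫⁻ a, g a.2 ∂μ = ∫⁻ u, g (lam * u) ∂uni := by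
  have h1 : ∫⁻ a, g a.2 ∂μ = ∫⁻ v, g v ∂(μ.map Prod.snd) := (lintegral_map hg measurable_snd).symm
  rw [h1, hLaw.marg]
  unfold scl
  rw [lintegral_map hg (by fun_prop)]

omit [Fintype ι] in
theorem mv_update {L : Finset ι} {a : ι} (ha : a ∉ L) (t : ℝ) (ω : ι → SV) (s : SV) :
    mv L t (update ω a s) = update (mv L t ω) a s := by
  funext x
  by_cases hx : x = a
  · subst hx
    rw [update_self]
    unfold mv
    rw [if_neg ha, update_self]
  · rw [update_of_ne hx]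
    unfold mv
    rw [update_of_ne hx]

/-- averaging over one real site -/
theorem site_avg {q : ℝ} (hq : 0 < q) (hq1 : q < 1) (hlam : 0 < lam) : ∃ K : ℝ, 0 < K ∧
    ∀ {μ : Measure SV} [IsProbabilityMeasure μ] {w C : ℝ} {r : ℝ → ℝ → ℝ}, LawP lam w C μ r →
    ∀ {ι : Type} [Fintype ι] [DecidableEq ι] (A : Matrix ι ι ℝ), A.IsSymm → ∀ ζ : ℂ, 0 < ζ.im →
      ∀ (κ : ι → ℝ), (∀ x, 0 ≤ κ x) → ∀ (a : ι), κ a = 0 → ∀ (L : Finset ι), a ∉ L → ∀ t : ℝ,
      ∀ Φ : (ι → SV) → ℝ≥0∞, Measurable Φ → (∀ ω s, Φ (update ω a s) = Φ ω) →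
      ∫⁻ ω, Φ ω * ENNReal.ofReal (‖Gr A (WL ζ κ (mv L t ω)) a a‖ ^ q)
        ∂(Measure.pi fun _ : ι => μ) ≤
        ENNReal.ofReal K * ∫⁻ ω, Φ ω ∂(Measure.pi fun _ : ι => μ) := by
  obtain ⟨K, hK, H⟩ := site_one (lam := lam) hq hq1 hlam
  refine ⟨K, hK, ?_⟩
  intro μ _ w C r hLaw ι _ _ A hA ζ hζ κ hκ a hκa L haL t Φ hΦ hΦR
  have hm0 : Measurable fun ω : ι → SV => ENNReal.ofReal (‖Gr A (WL ζ κ ω) a a‖ ^ q) := by
    have := measurable_Gr (A := A) (fun ω : ι → SV => WL ζ κ ω) (fun z => measurable_WL z) a a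
    exact (this.norm.pow_const q).ennreal_ofReal
  have hm : Measurable fun ω : ι → SV =>
      ENNReal.ofReal (‖Gr A (WL ζ κ (mv L t ω)) a a‖ ^ q) := hm0.comp (measurable_mv L t)
  have hm2 : Measurable fun ω : ι → SV =>
      Φ ω * ENNReal.ofReal (‖Gr A (WL ζ κ (mv L t ω)) a a‖ ^ q) := hΦ.mul hm
  rw [← lint_lmarg μ {a} hm2, ← lintegral_const_mul _ hΦ]
  refine lintegral_mono fun ω => ?_
  have h1 := lmarg_mul_const μ ({a} : Finset ι) hm ω (G := Φ) (fun ω' hω' => by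
    have e1 : ω' = update ω a (ω' a) := by
      funext x
      by_cases hx : x = a
      · subst hx
        rw [update_self]
      · rw [update_of_ne hx]
        exact hω' x (by rwa [Finset.mem_singleton])
    rw [e1, hΦR])
  refine (le_of_eq h1).trans ?_
  rw [lmarginal_singleton, mul_comm]
  gcongr
  have h3 : ∀ s : SV, WL ζ κ (mv L t (Function.update ω a s)) =
      Function.update (WL ζ κ (mv L t ω)) a (((s.2 : ℝ) : ℂ) + (-ζ)) := by
    intro s
    rw [mv_update haL]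
    funext x
    by_cases hx : x = a
    · subst hx
      rw [Function.update_self]
      unfold WL
      rw [Function.update_self, hκa]
      simp only [ite_self, ofReal_zero, zero_mul, sub_zero]
      ring
    · rw [Function.update_of_ne hx]
      unfold WL
      rw [Function.update_of_ne hx]
  simp only [h3]
  have hmu : Measurable fun v : ℝ => ENNReal.ofReal (‖Gr A (Function.update (WL ζ κ (mv L t ω)) a
      ((v : ℂ) + (-ζ))) a a‖ ^ q) := by
    have h4 : Measurable fun v : ℝ => Gr A (Function.update (WL ζ κ (mv L t ω)) a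
        ((v : ℂ) + (-ζ))) a a := by
      refine measurable_Gr (A := A) (fun v : ℝ => Function.update (WL ζ κ (mv L t ω)) a
        ((v : ℂ) + (-ζ))) (fun z => ?_) a a
      by_cases hz : z = a
      · subst hz
        simp only [Function.update_self]
        exact Complex.measurable_ofReal.add_const _
      · simp only [Function.update_of_ne hz]
        exact measurable_const
    exact (h4.norm.pow_const q).ennreal_ofReal
  rw [hLaw.lint_snd (g := fun v : ℝ => ENNReal.ofReal (‖Gr A (Function.update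
    (WL ζ κ (mv L t ω)) a ((v : ℂ) + (-ζ))) a a‖ ^ q)) hmu]
  exact H A hA _ (WL_neg hζ hκ) a (-ζ) (by simpa using hζ)

/-- partial integration of a function of the values over sites off the moved set -/
theorem LawP.lmarg_vl (hLaw : LawP lam w C μ r) {T L : Finset ι} (hTL : ∀ x ∈ T, x ∉ L) (t : ℝ)
    {G : (ι → ℝ) → ℝ≥0∞} (hG : Measurable G) (ω : ι → SV) :
    (∫⋯∫⁻_T, (fun ω => G (vl (mv L t ω))) ∂fun _ => μ) ω =
      (∫⋯∫⁻_T, G ∂fun _ => scl lam uni) (vl (mv L t ω)) := by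
  unfold lmarginal
  have h1 : ∀ y : T → SV, vl (mv L t (updateFinset ω T y)) =
      updateFinset (vl (mv L t ω)) T (fun i => (y i).2) := by
    intro y
    funext x
    unfold vl mv updateFinset
    by_cases hx : x ∈ T
    · rw [if_neg (hTL x hx), dif_pos hx, dif_pos hx]
    · rw [dif_neg hx, dif_neg hx]
  simp only [h1]
  have h2 : (Measure.pi fun _ : T => scl lam uni) =
      (Measure.pi fun _ : T => μ).map fun y i => (y i).2 := by
    rw [← hLaw.marg]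
    have : ∀ _ : T, SigmaFinite (μ.map Prod.snd) := fun _ => by
      have : IsProbabilityMeasure (μ.map Prod.snd) :=
        Measure.isProbabilityMeasure_map measurable_snd.aemeasurable
      infer_instance
    exact (Measure.pi_map_pi (μ := fun _ : T => μ) (f := fun _ a => a.2)
      fun _ => measurable_snd.aemeasurable).symm
  rw [h2]
  exact (lintegral_map (f := fun y : T → ℝ => G (updateFinset (vl (mv L t ω)) T y))
    (g := fun (y : T → SV) (i : T) => (y i).2) (hG.comp measurable_updateFinset)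
    (measurable_pi_iff.2 fun i => measurable_snd.comp (measurable_pi_apply i))).symm

/-- averaging over two sites, all the other sites (also moved ones) arbitrary -/
theorem LawP.two_avg (hLaw : LawP lam w C μ r) {ι : Type} [Fintype ι] [DecidableEq ι] {s : ℝ}
    {K : ℝ≥0∞} (H : Hyp (scl lam uni) s K) (A : Matrix ι ι ℝ)
    (hA : A.IsSymm) {ζ : ℂ} (hζ : 0 < ζ.im) {L : Finset ι} {a b : ι} (ha : a ∉ L) (hb : b ∉ L)
    (t : ℝ) {Φ : (ι → SV) → ℝ≥0∞} (hΦ : Measurable Φ)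
    (hΦR : ∀ ω ω' : ι → SV, (∀ x, x ≠ a → x ≠ b → ω x = ω' x) → Φ ω = Φ ω') :
    ∫⁻ ω, Φ ω * gg A ζ s a b (vl (mv L t ω)) ∂(Measure.pi fun _ : ι => μ) ≤
      K * ∫⁻ ω, Φ ω ∂(Measure.pi fun _ : ι => μ) := by
  have hm0 : Measurable fun v : ι → ℝ => gg A ζ s a b v := measurable_gg s a b
  have hm : Measurable fun ω : ι → SV => gg A ζ s a b (vl (mv L t ω)) :=
    hm0.comp (measurable_vl.comp (measurable_mv L t))
  have hm2 : Measurable fun ω : ι → SV => Φ ω * gg A ζ s a b (vl (mv L t ω)) := hΦ.mul hm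
  rw [← lint_lmarg μ {a, b} hm2, ← lintegral_const_mul _ hΦ]
  refine lintegral_mono fun ω => ?_
  have h1 := lmarg_mul_const μ ({a, b} : Finset ι) hm ω (G := Φ) (fun ω' hω' => by
    refine hΦR _ _ fun x hxa hxb => hω' x ?_
    rw [Finset.mem_insert, Finset.mem_singleton]
    tauto)
  refine (le_of_eq h1).trans ?_
  rw [mul_comm]
  gcongr
  rw [hLaw.lmarg_vl (fun x hx => by
    rw [Finset.mem_insert, Finset.mem_singleton] at hx
    rcases hx with rfl | rfl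
    · exact ha
    · exact hb) t hm0 ω]
  exact H.ap1 A hA ζ hζ a b _

/-! ### flux bounds -/

theorem norm_term (a b : ι) : ‖(dL κ ω a : ℂ) * Gr A (WL ζ κ ω) a b * dL κ ω b‖ ^ 2 =
    dL κ ω a ^ 2 * dL κ ω b ^ 2 * ‖Gr A (WL ζ κ ω) a b‖ ^ 2 := by
  rw [norm_mul, norm_mul, Complex.norm_real, Complex.norm_real, Real.norm_of_nonneg (dL_nonneg a),
    Real.norm_of_nonneg (dL_nonneg b)]
  ring

theorem MM_comm (hA : A.IsSymm) (S B : Finset ι) : MM A ζ κ S B ω = MM A ζ κ B S ω := by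
  unfold MM bl
  rw [Finset.sum_comm]
  refine Finset.sum_congr rfl fun a _ => Finset.sum_congr rfl fun b _ => ?_
  beta_reduce
  rw [norm_term, norm_term, Gr_symm hA b a]
  ring

/-- from a real set `B` to a contact -/
theorem MM_flux (hA : A.IsSymm) (hζ : 0 < ζ.im) (hκ : ∀ x, 0 ≤ κ x) {N B : Finset ι}
    (hN : ∀ x ∈ N, κ x ≠ 0) (hB : ∀ x ∈ B, κ x = 0) :
    MM A ζ κ N B ω ≤ ∑ b ∈ B, ‖Gr A (WL ζ κ ω) b b‖ := by
  unfold MM bl
  rw [Finset.sum_comm]
  refine Finset.sum_le_sum fun b hb => ?_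
  have h1 := flux_le hA (WL_neg (κ := κ) (ω := ω) hζ hκ) b (d := dL κ ω) (N := N)
    fun x hx => dL_sq_le hζ hκ (hN x hx)
  refine le_trans (le_of_eq (Finset.sum_congr rfl fun x _ => ?_)) h1
  beta_reduce
  rw [norm_term, dL_zero (hB b hb)]
  ring

theorem MP_flux (hA : A.IsSymm) (hζ : 0 < ζ.im) (hκ : ∀ x, 0 ≤ κ x) (hp : 0 < p) (hp1 : p < 1)
    {N B : Finset ι} (hN : ∀ x ∈ N, κ x ≠ 0) (hB : ∀ x ∈ B, κ x = 0) :
    MP A ζ κ p N B ω ≤ ∑ b ∈ B, ENNReal.ofReal (‖Gr A (WL ζ κ ω) b b‖ ^ (p / 2)) := by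
  unfold MP
  rw [← ENNReal.ofReal_sum_of_nonneg fun b _ => by positivity]
  refine ENNReal.ofReal_le_ofReal ?_
  refine (Real.rpow_le_rpow (MM_nonneg _ _ _) (MM_flux hA hζ hκ hN hB) (by positivity)).trans ?_
  exact sum_rpow_le' _ _ (fun _ _ => norm_nonneg _) (by positivity) (by linarith)

theorem MP_comm (hA : A.IsSymm) (S B : Finset ι) : MP A ζ κ p S B ω = MP A ζ κ p B S ω := by
  unfold MP
  rw [MM_comm hA]

/-- all sites real: the block norm is bounded by the single matrix elements -/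
theorem MP_real (hp : 0 < p) (hp1 : p < 1) {S B : Finset ι} :
    MP A ζ (0 : ι → ℝ) p S B ω ≤ ∑ a ∈ S, ∑ b ∈ B, gg A ζ p a b (vl ω) := by
  have hd : ∀ x, dL (0 : ι → ℝ) ω x = 1 := fun x => dL_zero rfl
  have hW : WL ζ (0 : ι → ℝ) ω = Wv ζ (vl ω) := by
    funext x
    unfold WL Wv vl
    simp
  have h1 : MM A ζ (0 : ι → ℝ) S B ω = ∑ a ∈ S, ∑ b ∈ B, ‖Gr A (Wv ζ (vl ω)) a b‖ ^ 2 := by
    unfold MM bl
    rw [hW]
    refine Finset.sum_congr rfl fun a _ => Finset.sum_congr rfl fun b _ => ?_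
    beta_reduce
    rw [hd, hd, ofReal_one, one_mul, mul_one]
  have h2 : ∀ a b, gg A ζ p a b (vl ω) =
      ENNReal.ofReal ((‖Gr A (Wv ζ (vl ω)) a b‖ ^ 2) ^ (p / 2)) := by
    intro a b
    unfold gg
    rw [P365S6.sq_rpow_half (norm_nonneg _), ← ofReal_norm_eq_enorm,
      ENNReal.ofReal_rpow_of_nonneg (norm_nonneg _) hp.le]
  unfold MP
  rw [h1]
  simp only [h2]
  have h3 : ∀ a ∈ S, ∑ b ∈ B, ENNReal.ofReal ((‖Gr A (Wv ζ (vl ω)) a b‖ ^ 2) ^ (p / 2)) =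
      ENNReal.ofReal (∑ b ∈ B, (‖Gr A (Wv ζ (vl ω)) a b‖ ^ 2) ^ (p / 2)) := by
    intro a _
    rw [ENNReal.ofReal_sum_of_nonneg fun b _ => by positivity]
  rw [Finset.sum_congr rfl h3, ← ENNReal.ofReal_sum_of_nonneg fun a _ =>
    Finset.sum_nonneg fun b _ => by positivity]
  refine ENNReal.ofReal_le_ofReal ?_
  refine (sum_rpow_le' _ _ (fun a _ => Finset.sum_nonneg fun b _ => by positivity) (by positivity)
    (by linarith)).trans ?_
  exact Finset.sum_le_sum fun a _ => sum_rpow_le' _ _ (fun b _ => by positivity) (by positivity)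
    (by linarith)

end P365CUL
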