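import Vale.Agent.P365.CUL841.Rev740
import Vale.Agent.P365.CUL841.Step841

set_option linter.all false

/-!
# P365 / CUL841 / T2_755: reverse insensitivity for the weighted norms, two cuts.
-/

namespace P365CUL

open MeasureTheory ProbabilityTheory Complex Matrix Function P365S6
open P365L P365L.Comp P365X P365CU
open scoped ENNReal Real

section gen

variable {ι : Type*} [Fintype ι] [DecidableEq ι] {A : Matrix ι ι ℝ} {ζ : ℂ} {κ : ι → ℝ}
  {ω : ι → SV} {p : ℝ}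

theorem cut_compl {R R' : Finset ι} (hR : ∀ x, x ∈ R ↔ x ∉ R') : cut A R = cut A R' := by
  funext x y
  unfold cut
  have h : (x ∈ R ↔ y ∈ R) ↔ (x ∈ R' ↔ y ∈ R') := by
    rw [hR, hR]
    tauto
  by_cases h1 : (x ∈ R' ↔ y ∈ R')
  · rw [if_pos h1, if_pos (h.2 h1)]
  · rw [if_neg h1, if_neg fun h2 => h1 (h.1 h2)]

theorem filter_act755 {N : Finset ι} (hN : ∀ x ∈ N, κ x ≠ 0) :
    N.filter (act κ ω) = N.filter fun x => (ω x).1 = true := by
  refine Finset.filter_congr fun x hx => ?_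
  unfold act
  constructor
  · rintro (h | h)
    · exact absurd h (hN x hx)
    · exact h
  · exact Or.inr

theorem scW_le_neg_one (hζ : 0 < ζ.im) (hκ : ∀ x, 0 ≤ κ x) {x : ι} (hx : κ x ≠ 0)
    (hb : (ω x).1 = true) : (scW (dQ κ ω) (WL ζ κ ω) x).im ≤ -1 := by
  have h0 : 0 < κ x := lt_of_le_of_ne (hκ x) (Ne.symm hx)
  have hd : dQ κ ω x ^ 2 = κ x := by
    unfold dQ
    rw [if_neg hx, if_pos hb, Real.sq_sqrt (hκ x)]
  rw [scW_im, WL_im, if_pos hb, hd, div_le_iff₀ h0]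
  linarith

/-- **reverse insensitivity, two cuts, weighted norms** -/
theorem MM_rev_two (hA : A.IsSymm) (hζ : 0 < ζ.im) (hκ : ∀ x, 0 ≤ κ x) {R N R' N' Rc : Finset ι}
    {χ χ' : ι → ℝ} {k k' : ℝ} (hN : ∀ x ∈ N, κ x ≠ 0) (hN' : ∀ x ∈ N', κ x ≠ 0)
    (h : CO (scA (dQ κ ω) A) R (N.filter fun x => (ω x).1 = true) χ k)
    (h' : CO (scA (dQ κ ω) (cut A R)) R' (N'.filter fun x => (ω x).1 = true) χ' k')
    (h1 : ∀ a ∈ N', χ a = 1) (h2 : ∀ a ∈ N, χ' a = 1) (hRc : ∀ x, x ∈ Rc ↔ x ∉ R') :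
    MM (cut (cut A R) Rc) ζ κ N' N ω ≤ ((1 + k) * (1 + k')) ^ 2 * MM A ζ κ N' N ω := by
  have hA1 := cut_symm hA R
  have hA2 := cut_symm hA1 Rc
  rw [MM_eq hA2 hζ hκ, MM_eq hA hζ hκ, filter_act755 hN, filter_act755 hN', cut_compl hRc, ← cut_scA,
    ← cut_scA]
  rw [← cut_scA] at h'
  refine CO_rev_two h h' (scA_symm hA) (scW_neg (dQ_pos hκ) (WL_neg hζ hκ)) (fun x hx => ?_)
    (fun x hx => ?_) (fun a ha => h1 a (Finset.mem_filter.1 ha).1)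
    (fun a ha => h2 a (Finset.mem_filter.1 ha).1)
  · have hx' := Finset.mem_filter.1 hx
    exact scW_le_neg_one hζ hκ (hN x hx'.1) hx'.2
  · have hx' := Finset.mem_filter.1 hx
    exact scW_le_neg_one hζ hκ (hN' x hx'.1) hx'.2

theorem MP_rev_two (hA : A.IsSymm) (hζ : 0 < ζ.im) (hκ : ∀ x, 0 ≤ κ x) (hp : 0 < p)
    {R N R' N' Rc : Finset ι}
    {χ χ' : ι → ℝ} {k k' : ℝ} (hN : ∀ x ∈ N, κ x ≠ 0) (hN' : ∀ x ∈ N', κ x ≠ 0)
    (h : CO (scA (dQ κ ω) A) R (N.filter fun x => (ω x).1 = true) χ k)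
    (h' : CO (scA (dQ κ ω) (cut A R)) R' (N'.filter fun x => (ω x).1 = true) χ' k')
    (h1 : ∀ a ∈ N', χ a = 1) (h2 : ∀ a ∈ N, χ' a = 1) (hRc : ∀ x, x ∈ Rc ↔ x ∉ R') :
    MP (cut (cut A R) Rc) ζ κ p N' N ω ≤
      ENNReal.ofReal (((1 + k) * (1 + k')) ^ p) * MP A ζ κ p N' N ω := by
  have hk := h.k0
  have hk' := h'.k0
  have h3 := MM_rev_two hA hζ hκ hN hN' h h' h1 h2 hRc
  have h4 := MM_nonneg (A := A) (ζ := ζ) (κ := κ) N' N ω
  have h5 := MM_nonneg (A := cut (cut A R) Rc) (ζ := ζ) (κ := κ) N' N ω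
  unfold MP
  rw [← ENNReal.ofReal_mul (by positivity)]
  refine ENNReal.ofReal_le_ofReal ?_
  calc MM (cut (cut A R) Rc) ζ κ N' N ω ^ (p / 2)
      ≤ (((1 + k) * (1 + k')) ^ 2 * MM A ζ κ N' N ω) ^ (p / 2) :=
        Real.rpow_le_rpow h5 h3 (by positivity)
    _ = (((1 + k) * (1 + k')) ^ 2) ^ (p / 2) * MM A ζ κ N' N ω ^ (p / 2) :=
        Real.mul_rpow (by positivity) h4
    _ = _ := by
        congr 1
        rw [← Real.rpow_natCast, ← Real.rpow_mul (by positivity)]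
        congr 1
        push_cast
        ring

end gen

end P365CUL
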